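import Vale.Agent.P146.Sk.Gen

/-!
P146, generic systems: the optimal strengths (existence, first and second order conditions,
bounds, concentration of the fields), and the value as a function of the energy.
-/

open MeasureTheory ProbabilityTheory Filter Topology

namespace Vale.Agent.P146.Sk.Gen

set_option linter.unusedSectionVars false

open Vale.Agent.P157 Vale.Agent.P157.Lv
open Vale.Agent.P157.Par (Path Exponents topN lw)

variable {ι₀ X : Type} [Fintype ι₀] [DecidableEq ι₀] [Fintype X] [DecidableEq X] [Nonempty X]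
  {N K : ℕ} {m q : ℕ → ℝ} {E E' : (ι₀ → ℝ) → X → ℝ} {D D' : ι₀ → (ι₀ → ℝ) → X → ℝ}
  {φ : X → Fin N → ℝ} {s : ℕ → ℝ} {η : ℝ}

/-- The objective. -/
noncomputable def gOb (K : ℕ) (m q : ℕ → ℝ) (η : ℝ) (E : (ι₀ → ℝ) → X → ℝ)
    (φ : X → Fin N → ℝ) (s : ℕ → ℝ) : ℝ := gF K m E φ s - Pen K m q η s

/-- Optimal strengths. -/
structure gIsOpt (K : ℕ) (m q : ℕ → ℝ) (η : ℝ) (E : (ι₀ → ℝ) → X → ℝ)
    (φ : X → Fin N → ℝ) (s : ℕ → ℝ) : Prop where
  pos : ∀ j ≤ K, 0 < s j
  max : ∀ s' : ℕ → ℝ, (∀ j ≤ K, 0 < s' j) → gOb K m q η E φ s' ≤ gOb K m q η E φ s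

/-- The objective depends only on the strengths of the levels `0, …, K`. -/
lemma gS_congr {s s' : ℕ → ℝ} (hs : ∀ j ≤ K, s j = s' j) :
    gS K m E φ s = gS K m E φ s' := by
  unfold gS
  congr 1
  funext z x
  unfold gH
  congr 1
  refine Finset.sum_congr rfl fun l hl => ?_
  rw [Finset.mem_range] at hl
  rw [hs l (by omega)]

lemma gF_congr {s s' : ℕ → ℝ} (hs : ∀ j ≤ K, s j = s' j) :
    gF K m E φ s = gF K m E φ s' := by
  unfold gF
  rw [gS_congr hs]

lemma gOb_congr {s s' : ℕ → ℝ} (hs : ∀ j ≤ K, s j = s' j) :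
    gOb K m q η E φ s = gOb K m q η E φ s' := by
  unfold gOb
  rw [gF_congr hs, o8_Pen_congr hs]

/-- The upper bound of the objective. -/
lemma gOb_add_le (hη : 0 < η) {C : ℝ}
    (hC : ∀ s : ℕ → ℝ, (∀ j ≤ K, 0 ≤ s j) → gF K m E φ s -
      1 / 2 * ∑ j ∈ Finset.range (K + 1), aco K m q j * s j ^ 2 ≤ C) (hs : ∀ j ≤ K, 0 < s j)
    {j : ℕ} (hj : j ≤ K) :
    η / 2 * s j ^ 2 + η / s j ≤ C - gOb K m q η E φ s := by
  have h1 := hC s fun j hj => (hs j hj).le
  have h3 : Pen K m q η s = 1 / 2 * ∑ j ∈ Finset.range (K + 1), aco K m q j * s j ^ 2 +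
      ∑ j ∈ Finset.range (K + 1), (η / 2 * s j ^ 2 + η / s j) := by
    unfold Pen
    rw [Finset.mul_sum, ← Finset.sum_add_distrib]
    refine Finset.sum_congr rfl fun l _ => ?_
    ring
  have h4 : η / 2 * s j ^ 2 + η / s j ≤
      ∑ j ∈ Finset.range (K + 1), (η / 2 * s j ^ 2 + η / s j) := by
    refine Finset.single_le_sum (f := fun j => η / 2 * s j ^ 2 + η / s j) (fun l hl => ?_)
      (Finset.mem_range.2 (by omega : j < K + 1))
    rw [Finset.mem_range] at hl
    have := hs l (by omega)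
    positivity
  unfold gOb
  linarith

lemma gOb_le (hη : 0 < η) {C : ℝ}
    (hC : ∀ s : ℕ → ℝ, (∀ j ≤ K, 0 ≤ s j) → gF K m E φ s -
      1 / 2 * ∑ j ∈ Finset.range (K + 1), aco K m q j * s j ^ 2 ≤ C) (hs : ∀ j ≤ K, 0 < s j) :
    gOb K m q η E φ s ≤ C := by
  have h1 := gOb_add_le hη hC hs (Nat.zero_le K)
  have h2 := hs 0 (Nat.zero_le K)
  have h3 : 0 ≤ η / 2 * s 0 ^ 2 + η / s 0 := by positivity
  linarith

/-- The free energy is convex in the strengths. -/
lemma gF_convex (h : GD K m E D φ) :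
    ConvexOn ℝ Set.univ fun v : Fin (K + 1) → ℝ => gF K m E φ (o8_ext v) := by
  refine ⟨convex_univ, fun x _ y _ α β hα hβ hαβ => ?_⟩
  have h1 := gF_tangent h (o8_ext (α • x + β • y)) (o8_ext x)
  have h2 := gF_tangent h (o8_ext (α • x + β • y)) (o8_ext y)
  have h3 : α * (∑ l ∈ Finset.range (K + 1), (o8_ext x l - o8_ext (α • x + β • y) l) *
      (gS K m E φ (o8_ext (α • x + β • y))).Ex (hz φ gz l)) +
      β * (∑ l ∈ Finset.range (K + 1), (o8_ext y l - o8_ext (α • x + β • y) l) *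
      (gS K m E φ (o8_ext (α • x + β • y))).Ex (hz φ gz l)) = 0 := by
    rw [Finset.mul_sum, Finset.mul_sum, ← Finset.sum_add_distrib]
    refine Finset.sum_eq_zero fun l hl => ?_
    rw [Finset.mem_range] at hl
    have hl' : l ≤ K := by omega
    rw [o8_ext_apply _ hl', o8_ext_apply _ hl', o8_ext_apply _ hl']
    simp only [Pi.add_apply, Pi.smul_apply, smul_eq_mul]
    generalize (gS K m E φ (o8_ext (α • x + β • y))).Ex (hz φ gz l) = F
    have h4 : β = 1 - α := by linarith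
    subst h4
    ring
  have h4 := mul_le_mul_of_nonneg_left h1 hα
  have h5 := mul_le_mul_of_nonneg_left h2 hβ
  have h6 : gF K m E φ (o8_ext (α • x + β • y)) =
      α * gF K m E φ (o8_ext (α • x + β • y)) +
      β * gF K m E φ (o8_ext (α • x + β • y)) := by
    rw [← add_mul, hαβ, one_mul]
  simp only [smul_eq_mul]
  linarith

/-- Existence of optimal strengths. -/
theorem exists_gIsOpt (h : GD K m E D φ) (hη : 0 < η) {C : ℝ}
    (hC : ∀ s : ℕ → ℝ, (∀ j ≤ K, 0 ≤ s j) → gF K m E φ s -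
      1 / 2 * ∑ j ∈ Finset.range (K + 1), aco K m q j * s j ^ 2 ≤ C) :
    ∃ s, gIsOpt K m q η E φ s := by
  classical
  obtain ⟨V, hV⟩ : ∃ V, V = gOb K m q η E φ (fun _ => 1) := ⟨_, rfl⟩
  obtain ⟨M, hM⟩ : ∃ M, M = C - V := ⟨_, rfl⟩
  have hM0 : η / 2 + η ≤ M := by
    have := gOb_add_le (q := q) (s := fun _ => (1 : ℝ)) hη hC (fun _ _ => one_pos)
      (Nat.zero_le K)
    rw [hM, hV]
    simpa using this
  have hMpos : 0 < M := by linarith
  -- strengths with a large value lie in a box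
  have hbox : ∀ s : ℕ → ℝ, (∀ j ≤ K, 0 < s j) → V ≤ gOb K m q η E φ s →
      ∀ j ≤ K, η / M ≤ s j ∧ s j ≤ 1 + 2 * M / η := by
    intro s hs hVs j hj
    have h1 := gOb_add_le hη hC hs hj
    have hsj := hs j hj
    have h2 : 0 ≤ η / 2 * s j ^ 2 := by positivity
    have h3 : 0 ≤ η / s j := by positivity
    constructor
    · have h4 : η / s j ≤ M := by linarith
      rw [div_le_iff₀ hsj] at h4
      rw [div_le_iff₀ hMpos]
      linarith
    · have h4 : η / 2 * s j ^ 2 ≤ M := by linarith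
      have h5 : s j ^ 2 ≤ 2 * M / η := by
        rw [le_div_iff₀ hη]
        linarith
      nlinarith [sq_nonneg (s j - 1)]
  -- the maximum over the box
  obtain ⟨Kb, hKb⟩ : ∃ Kb : Set (Fin (K + 1) → ℝ),
      Kb = Set.Icc (fun _ => η / M) (fun _ => 1 + 2 * M / η) := ⟨_, rfl⟩
  have hcomp : IsCompact Kb := by rw [hKb]; exact isCompact_Icc
  have hpos : ∀ v ∈ Kb, ∀ j ≤ K, 0 < o8_ext v j := by
    intro v hv j hj
    rw [hKb] at hv
    rw [o8_ext_apply _ hj]
    exact lt_of_lt_of_le (by positivity) (hv.1 _)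
  have hFc : Continuous fun v : Fin (K + 1) → ℝ => gF K m E φ (o8_ext v) := by
    rw [← continuousOn_univ]
    exact (gF_convex h).continuousOn isOpen_univ
  have hPc : ContinuousOn (fun v : Fin (K + 1) → ℝ => Pen K m q η (o8_ext v)) Kb := by
    unfold Pen
    refine continuousOn_finsetSum _ fun j hj => ?_
    rw [Finset.mem_range] at hj
    have hj' : j ≤ K := by omega
    have hc : Continuous fun v : Fin (K + 1) → ℝ => o8_ext v j := by
      have : (fun v : Fin (K + 1) → ℝ => o8_ext v j) =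
          fun v => v ⟨j, Nat.lt_succ_of_le hj'⟩ := by
        funext v
        exact o8_ext_apply v hj'
      rw [this]
      exact continuous_apply _
    refine ContinuousOn.add ((hc.pow 2).const_mul _).continuousOn ?_
    exact continuousOn_const.div hc.continuousOn fun v hv => (hpos v hv j hj').ne'
  have hOc : ContinuousOn (fun v : Fin (K + 1) → ℝ => gOb K m q η E φ (o8_ext v)) Kb :=
    hFc.continuousOn.sub hPc
  have h1mem : (fun _ => (1 : ℝ)) ∈ Kb := by
    rw [hKb]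
    have h2 := hbox (fun _ => 1) (fun _ _ => one_pos) hV.le 0 (Nat.zero_le _)
    exact ⟨fun _ => h2.1, fun _ => h2.2⟩
  obtain ⟨v, hv, hmax⟩ := hcomp.exists_isMaxOn ⟨_, h1mem⟩ hOc
  have hVv : V ≤ gOb K m q η E φ (o8_ext v) := by
    have h2 : gOb K m q η E φ (o8_ext (fun _ : Fin (K + 1) => (1 : ℝ))) ≤
      gOb K m q η E φ (o8_ext v) := hmax h1mem
    rw [hV, gOb_congr (o8_ext_res (K := K) fun _ => (1 : ℝ))]
    exact h2
  refine ⟨o8_ext v, hpos v hv, fun s' hs' => ?_⟩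
  by_cases hc : V ≤ gOb K m q η E φ s'
  · have h2 := hbox s' hs' hc
    have h3 : (fun i : Fin (K + 1) => s' i) ∈ Kb := by
      rw [hKb]
      exact ⟨fun i => (h2 i (Nat.le_of_lt_succ i.2)).1, fun i => (h2 i (Nat.le_of_lt_succ i.2)).2⟩
    have h4 : gOb K m q η E φ (o8_ext (fun i : Fin (K + 1) => s' i)) ≤
      gOb K m q η E φ (o8_ext v) := hmax h3
    rw [gOb_congr (o8_ext_res s')]
    exact h4
  · exact (not_le.1 hc).le.trans hVv

lemma gIsOpt.gF_update (ho : gIsOpt K m q η E φ s) {j : ℕ} (hj : j ≤ K) {x : ℝ}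
    (hx : 0 < x) : gF K m E φ (Function.update s j x) - gF K m E φ s ≤
      o8_pj K m q η j x - o8_pj K m q η j (s j) := by
  have h1 := ho.max (Function.update s j x) (fun l hl => by
    by_cases hlj : l = j
    · subst hlj
      rw [Function.update_self]
      exact hx
    · rw [Function.update_of_ne hlj]
      exact ho.pos l hl)
  have h2 := o8_Pen_update (m := m) (q := q) (η := η) (s := s) hj x
  unfold gOb at h1
  linarith

/-- First order condition. -/
theorem gIsOpt.first (h : GD K m E D φ) (ho : gIsOpt K m q η E φ s) {j : ℕ} (hj : j ≤ K) :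
    (gS K m E φ s).Ex (hz φ gz j) = (aco K m q j + η) * s j - η / s j ^ 2 := by
  have hsj := ho.pos j hj
  obtain ⟨F, hF⟩ : ∃ F, F = (gS K m E φ s).Ex (hz φ gz j) := ⟨_, rfl⟩
  rw [← hF]
  have hmin : IsLocalMin (fun x => o8_pj K m q η j x - F * x) (s j) := by
    filter_upwards [eventually_gt_nhds hsj] with x hx
    have h1 := ho.gF_update hj hx
    have h2 := gF_tangent h s (Function.update s j x)
    have h3 : ∑ l ∈ Finset.range (K + 1), (Function.update s j x l - s l) *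
        (gS K m E φ s).Ex (hz φ gz l) = (x - s j) * F := by
      rw [Finset.sum_eq_single j]
      · rw [Function.update_self, hF]
      · intro l _ hl
        rw [Function.update_of_ne hl, sub_self, zero_mul]
      · intro hl
        exact absurd (Finset.mem_range.2 (by omega)) hl
    rw [h3] at h2
    linarith
  have hd : HasDerivAt (fun x => o8_pj K m q η j x - F * x)
      ((aco K m q j + η) * s j - η / s j ^ 2 - F) (s j) := by
    have h1 : HasDerivAt (fun x : ℝ => 1 / 2 * (aco K m q j + η) * x ^ 2)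
        (1 / 2 * (aco K m q j + η) * (2 * s j)) (s j) := by
      have := (hasDerivAt_pow 2 (s j)).const_mul (1 / 2 * (aco K m q j + η))
      simpa using this
    have h2 : HasDerivAt (fun x : ℝ => η / x) (-(η / s j ^ 2)) (s j) := by
      have := (hasDerivAt_inv hsj.ne').const_mul η
      refine (this.congr_of_eventuallyEq (Eventually.of_forall fun x => ?_)).congr_deriv ?_
      · exact div_eq_mul_inv _ _
      · ring
    have h3 := (h1.add h2).sub ((hasDerivAt_id (s j)).const_mul F)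
    refine h3.congr_deriv ?_
    ring
  have h0 := hmin.hasDerivAt_eq_zero hd
  linarith

/-- The overlaps at the optimum. -/
theorem gIsOpt.tails (h : GD K m E D φ) (ho : gIsOpt K m q η E φ s) {j : ℕ} (hj : j ≤ K) :
    ∑ l ∈ Finset.Ico j (K + 1), (m (l + 1) - m l) *
      ((gS K m E φ s).Rl φ l - q l) = η / s j ^ 3 - η := by
  have hsj := ho.pos j hj
  have h1 := ho.first h hj
  have h2 : (gS K m E φ s).Ex (hz φ gz j) =
      s j * (1 - ∑ i ∈ Finset.Ico j (K + 1), (m (i + 1) - m i) *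
        (gS K m E φ s).Rl φ i) :=
    (gS_fld h fun l hl => (ho.pos l hl).le).Ex_hz (l := j) hj
  rw [h2] at h1
  unfold aco at h1
  have h3 : ∑ l ∈ Finset.Ico j (K + 1), (m (l + 1) - m l) *
      ((gS K m E φ s).Rl φ l - q l) =
      ∑ l ∈ Finset.Ico j (K + 1), (m (l + 1) - m l) * (gS K m E φ s).Rl φ l -
      ∑ l ∈ Finset.Ico j (K + 1), (m (l + 1) - m l) * q l := by
    rw [← Finset.sum_sub_distrib]
    exact Finset.sum_congr rfl fun l _ => by ring
  rw [h3]
  generalize ∑ l ∈ Finset.Ico j (K + 1), (m (l + 1) - m l) *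
    (gS K m E φ s).Rl φ l = P at h1 ⊢
  generalize ∑ l ∈ Finset.Ico j (K + 1), (m (l + 1) - m l) * q l = Q at h1 ⊢
  have h4 : s j * (P - Q) = s j * (η / s j ^ 3 - η) := by
    have h5 : s j * (η / s j ^ 3) = η / s j ^ 2 := by
      field_simp
    rw [mul_sub (s j) (η / s j ^ 3), h5]
    linarith
  exact mul_left_cancel₀ hsj.ne' h4

/-- Second order condition, for the extensive free energy. -/
theorem gIsOpt.second (h : GD K m E D φ) (ho : gIsOpt K m q η E φ s)
    (hη : 0 < η) {j : ℕ} (hj : j ≤ K) {t : ℝ} (ht : 0 < t) (ht' : t ≤ s j / 2) :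
    ((gS K m E φ s).pt (gx φ j) t).fe + ((gS K m E φ s).pt (gx φ j) (-t)).fe -
      2 * (gS K m E φ s).fe ≤ N * ((aco K m q j + η + 3 * η / s j ^ 3) * t ^ 2) := by
  have hsj := ho.pos j hj
  have hN : (0 : ℝ) < N := by exact_mod_cast h.N0
  have h1 := ho.gF_update hj (x := s j + t) (by linarith)
  have h2 := ho.gF_update hj (x := s j + -t) (by linarith)
  rw [← gS_pt hj t, ← gS_pt hj (-t)]
  have h3 : o8_pj K m q η j (s j + t) + o8_pj K m q η j (s j + -t) -
      2 * o8_pj K m q η j (s j) ≤ (aco K m q j + η + 3 * η / s j ^ 3) * t ^ 2 := by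
    have h4 : η / (s j + t) + η / (s j + -t) - 2 * (η / s j) ≤ 3 * η / s j ^ 3 * t ^ 2 := by
      have hp : 0 < s j + t := by linarith
      have hq : 0 < s j + -t := by linarith
      have h5 : η / (s j + t) + η / (s j + -t) - 2 * (η / s j) =
          η * (2 * t ^ 2) / (s j * ((s j + t) * (s j + -t))) := by
        field_simp
        ring
      have h6 : 3 * η / s j ^ 3 * t ^ 2 = η * (3 * t ^ 2) / s j ^ 3 := by ring
      rw [h5, h6, div_le_div_iff₀ (by positivity) (by positivity)]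
      have h7 : 2 * s j ^ 2 ≤ 3 * ((s j + t) * (s j + -t)) := by nlinarith
      have h8 : 0 ≤ η * t ^ 2 * s j := by positivity
      nlinarith [mul_le_mul_of_nonneg_left h7 h8]
    unfold o8_pj
    linarith
  have h4 : gF K m E φ (Function.update s j (s j + t)) +
      gF K m E φ (Function.update s j (s j + -t)) - 2 * gF K m E φ s ≤
      (aco K m q j + η + 3 * η / s j ^ 3) * t ^ 2 := by linarith
  have h5 := mul_le_mul_of_nonneg_left h4 hN.le
  unfold gF at h5
  have h7 : (N : ℝ) * (1 / N * (gS K m E φ (Function.update s j (s j + t))).fe +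
      1 / N * (gS K m E φ (Function.update s j (s j + -t))).fe -
      2 * (1 / N * (gS K m E φ s).fe)) =
      (gS K m E φ (Function.update s j (s j + t))).fe +
      (gS K m E φ (Function.update s j (s j + -t))).fe -
      2 * (gS K m E φ s).fe := by
    field_simp
  rw [h7] at h5
  exact h5

lemma Pen_one_le (hm : Exponents K m) (hq : Path K q) (hη1 : η ≤ 1) :
    Pen K m q η (fun _ => 1) ≤ 2 * (K + 1) := by
  have h6 : ∀ l ∈ Finset.range (K + 1),
      1 / 2 * (aco K m q l + η) * (1 : ℝ) ^ 2 + η / 1 ≤ 2 := by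
    intro l hl
    rw [Finset.mem_range] at hl
    have := aco_le_one hm hq (by omega : l ≤ K)
    linarith
  have h7 := Finset.sum_le_sum h6
  rw [Finset.sum_const, Finset.card_range, nsmul_eq_mul] at h7
  unfold Pen
  push_cast at h7
  linarith

/-- The lower bound of the optimal strengths. -/
theorem gIsOpt.lower (h : GD K m E D φ) (ho : gIsOpt K m q η E φ s)
    (hq : Path K q) (hη : 0 < η) (hη1 : η ≤ 1) {C : ℝ}
    (hC : ∀ s : ℕ → ℝ, (∀ j ≤ K, 0 ≤ s j) → gF K m E φ s -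
      1 / 2 * ∑ j ∈ Finset.range (K + 1), aco K m q j * s j ^ 2 ≤ C) {j : ℕ} (hj : j ≤ K) :
    η ≤ s j * (C - gF K m E φ (fun _ => 0) + 2 * (K + 1)) := by
  have hsj := ho.pos j hj
  have h1 := gOb_add_le hη hC ho.pos hj
  have h2 := ho.max (fun _ => 1) (fun _ _ => one_pos)
  have h3 := gF_zero_le h (fun _ => 1)
  have h5 := Pen_one_le h.hm hq hη1
  have h6 : 0 ≤ η / 2 * s j ^ 2 := by positivity
  have h7 : η / s j ≤ C - gF K m E φ (fun _ => 0) + 2 * (K + 1) := by
    have h8 : gOb K m q η E φ (fun _ => 1) =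
      gF K m E φ (fun _ => 1) - Pen K m q η (fun _ => 1) := rfl
    linarith
  rw [div_le_iff₀ hsj] at h7
  linarith

/-- The upper bound of the strength of the level zero. -/
theorem gIsOpt.upper (h : GD K m E D φ) (ho : gIsOpt K m q η E φ s)
    (hq : Path K q) (hq1 : q K ≤ 1) (hη : 0 < η) {σ : ℝ} (hσ : 0 < σ) (hs : σ ≤ s 0) :
    s 0 ≤ 1 / η + 1 / σ ^ 2 := by
  have hs0 := ho.pos 0 (Nat.zero_le _)
  have h1 := ho.first h (Nat.zero_le K)
  have h2 := gS_Ex_hz_zero_le h s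
  have h3 := aco_nonneg h.hm hq hq1 (Nat.zero_le K)
  have h4 : η / s 0 ^ 2 ≤ η / σ ^ 2 := by gcongr
  have h5 : η * s 0 ≤ 1 + η / σ ^ 2 := by
    have := mul_nonneg h3 hs0.le
    nlinarith
  have h6 : s 0 ≤ (1 + η / σ ^ 2) / η := by
    rw [le_div_iff₀ hη]
    linarith
  refine h6.trans (le_of_eq ?_)
  field_simp

/-- The variance of the free energy near the optimum. -/
lemma gIsOpt.var (h : GD K m E D φ) (ho : gIsOpt K m q η E φ s)
    {σ S₀ V₀ : ℝ} (hs : ∀ j ≤ K, σ ≤ s j) (hs0 : s 0 ≤ S₀) {W : (ι₀ → ℝ) → ℝ} (hW : EG W)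
    (hb : ∀ z x, ∑ e, D e z x ^ 2 ≤ W z) (hV : ∫ z, W z ∂(gI ι₀) ≤ N * V₀)
    {j : ℕ} (hj : j ≤ K) {t : ℝ} (ht1 : |t| ≤ 1) (ht2 : |t| ≤ σ / 2) :
    ∫ z, (((gS K m E φ s).pt (gx φ j) t).lg 0 z -
      ((gS K m E φ s).pt (gx φ j) t).fe) ^ 2 ∂(gI (GI ι₀ N K)) ≤ N * (V₀ + (S₀ + 1) ^ 2) := by
  have hN : (0 : ℝ) < N := by exact_mod_cast h.N0
  rw [← gS_pt hj t]
  refine (gS_var h (Function.update s j (s j + t)) hW hb hV).trans ?_
  have h0 := ho.pos 0 (Nat.zero_le _)
  have h1 := abs_le.1 ht1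
  have h2 := abs_le.1 ht2
  have h3 : |Function.update s j (s j + t) 0| ≤ S₀ + 1 := by
    by_cases hj0 : j = 0
    · subst hj0
      rw [Function.update_self, abs_le]
      have := hs 0 (Nat.zero_le _)
      constructor <;> linarith [h1.1, h1.2, h2.1, h2.2]
    · rw [Function.update_of_ne (Ne.symm hj0), abs_le]
      constructor <;> linarith
  have h4 : (Function.update s j (s j + t) 0) ^ 2 ≤ (S₀ + 1) ^ 2 := by
    rw [← sq_abs]
    exact pow_le_pow_left₀ (abs_nonneg _) h3 2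
  nlinarith [mul_le_mul_of_nonneg_left h4 hN.le]

/-- **Concentration of the fields at the optimum.** -/
theorem gIsOpt.conc (h : GD K m E D φ) (ho : gIsOpt K m q η E φ s)
    (hq : Path K q) (hη : 0 < η) (hη1 : η ≤ 1) {σ S₀ V₀ : ℝ} (hσ : 0 < σ)
    (hs : ∀ j ≤ K, σ ≤ s j) (hs0 : s 0 ≤ S₀) {W : (ι₀ → ℝ) → ℝ} (hW : EG W)
    (hb : ∀ z x, ∑ e, D e z x ^ 2 ≤ W z) (hV : ∫ z, W z ∂(gI ι₀) ≤ N * V₀)
    {j : ℕ} (hj : j ≤ K) {t : ℝ} (ht : 0 < t) (ht1 : t ≤ 1) (ht2 : t ≤ σ / 2) :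
    ∃ c : ℝ, (gS K m E φ s).Ex (fun z x => |hz φ gz j z x - c|) ≤
      √((2 + 3 / σ ^ 3) / (m 1 * N)) + (2 + 3 / σ ^ 3) * t +
        4 * √((V₀ + (S₀ + 1) ^ 2) / N) / t := by
  have hN : (0 : ℝ) < N := by exact_mod_cast h.N0
  have hR : (gS K m E φ s).Reg := gS_reg h s
  have hreg : ∀ t, ((gS K m E φ s).pt (gx φ j) t).Reg := fun t => by
    rw [← gS_pt hj t]
    exact gS_reg h _
  obtain ⟨Q, hQ⟩ : ∃ Q, Q = (N : ℝ) * (2 + 3 / σ ^ 3) := ⟨_, rfl⟩
  obtain ⟨V, hVd⟩ : ∃ V, V = (N : ℝ) * (V₀ + (S₀ + 1) ^ 2) := ⟨_, rfl⟩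
  have hsec : ∀ t', 0 < t' → t' ≤ min 1 (σ / 2) →
      ((gS K m E φ s).pt (gx φ j) t').fe + ((gS K m E φ s).pt (gx φ j) (-t')).fe -
        2 * (gS K m E φ s).fe ≤ Q * t' ^ 2 := by
    intro t' h1 h2
    have h3 := hs j hj
    refine (ho.second h hη hj h1 ((h2.trans (min_le_right _ _)).trans (by linarith))).trans ?_
    have h4 : 3 * η / s j ^ 3 ≤ 3 / σ ^ 3 := by
      have : 3 * η ≤ 3 := by linarith
      gcongr
    have h5 := aco_le_one h.hm hq hj
    have h6 : aco K m q j + η + 3 * η / s j ^ 3 ≤ 2 + 3 / σ ^ 3 := by linarith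
    rw [hQ, mul_assoc]
    gcongr
  obtain ⟨c, hc⟩ := hR.conc (nh_gx j) hreg (Q := Q) (V := V) (t₀ := min 1 (σ / 2))
    (lt_min one_pos (by positivity)) hsec (fun t' ht' => by
      rw [hVd]
      exact ho.var h hs hs0 hW hb hV hj (ht'.trans (min_le_left _ _))
        (ht'.trans (min_le_right _ _)))
    ht (le_min ht1 ht2)
  refine ⟨1 / N * c, ?_⟩
  have e1 : (fun (z : GI ι₀ N K → ℝ) x => |hz φ gz j z x - 1 / N * c|) =
      fun z x => 1 / (N : ℝ) * |gx φ j z x - c| := by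
    funext z x
    have : hz φ gz j z x - 1 / N * c = 1 / N * (gx φ j z x - c) := by
      rw [hz_eq]
      ring
    rw [this, abs_mul, abs_of_pos (by positivity)]
  rw [e1, Sy.Ex_const_mul]
  have h1 := mul_le_mul_of_nonneg_left hc (show 0 ≤ 1 / (N : ℝ) by positivity)
  refine h1.trans (le_of_eq ?_)
  have hsq : ∀ y : ℝ, 1 / (N : ℝ) * √(N * y) = √(y / N) := by
    intro y
    have e2 : y / N = (N * y) / N ^ 2 := by
      field_simp
    rw [e2, Real.sqrt_div' _ (sq_nonneg _), Real.sqrt_sq hN.le]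
    ring
  have e3 : √(Q / (gS K m E φ s).m 1) = √(N * ((2 + 3 / σ ^ 3) / m 1)) := by
    congr 1
    show Q / m 1 = _
    rw [hQ]
    ring
  have e5 : (2 + 3 / σ ^ 3) / (m 1 * N) = (2 + 3 / σ ^ 3) / m 1 / N := by
    rw [div_div]
  rw [e3, hVd, e5, ← hsq, ← hsq, hQ]
  field_simp

/-! ### The value -/

/-- The value: the supremum of the objective. -/
noncomputable def gV (K : ℕ) (m q : ℕ → ℝ) (η : ℝ) (E : (ι₀ → ℝ) → X → ℝ)
    (φ : X → Fin N → ℝ) : ℝ :=
  sSup {y | ∃ s : ℕ → ℝ, (∀ j ≤ K, 0 < s j) ∧ y = gOb K m q η E φ s}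

lemma gIsOpt.isGreatest (ho : gIsOpt K m q η E φ s) :
    IsGreatest {y | ∃ s : ℕ → ℝ, (∀ j ≤ K, 0 < s j) ∧ y = gOb K m q η E φ s}
      (gOb K m q η E φ s) := by
  refine ⟨⟨s, ho.pos, rfl⟩, ?_⟩
  rintro y ⟨s', hs', rfl⟩
  exact ho.max s' hs'

theorem gIsOpt.gV_eq (ho : gIsOpt K m q η E φ s) : gV K m q η E φ = gOb K m q η E φ s :=
  ho.isGreatest.csSup_eq

theorem gIsOpt.gOb_le_gV (ho : gIsOpt K m q η E φ s) {s' : ℕ → ℝ} (hs' : ∀ j ≤ K, 0 < s' j) :
    gOb K m q η E φ s' ≤ gV K m q η E φ := by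
  rw [ho.gV_eq]
  exact ho.max s' hs'

/-- The value is below its tangents at the optimum. -/
theorem gV_sub_le (h : GD K m E D φ) (h' : GD K m E' D' φ) {s s' : ℕ → ℝ}
    (ho : gIsOpt K m q η E φ s) (ho' : gIsOpt K m q η E' φ s') :
    gV K m q η E' φ - gV K m q η E φ ≤
      1 / N * (gS K m E' φ s').Ex (fun z x => E' (r0 z) x - E (r0 z) x) := by
  have h1 := ho.gOb_le_gV ho'.pos
  have h2 := gF_tangentE h' h s'
  have h3 : (fun (z : GI ι₀ N K → ℝ) (x : X) => E (r0 z) x - E' (r0 z) x) =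
      fun z x => -1 * (E' (r0 z) x - E (r0 z) x) := by
    funext z x
    ring
  rw [h3, Sy.Ex_const_mul] at h2
  rw [ho'.gV_eq]
  unfold gOb at h1 ⊢
  linarith

/-- Small strengths: the value is almost above the free energy without fields. -/
theorem gIsOpt.gF_zero_le_gV (h : GD K m E D φ) (ho : gIsOpt K m q η E φ s) (hq : Path K q)
    {ρ : ℝ} (hρ : 0 < ρ) (hη : η = ρ ^ 3) (hη1 : η ≤ 1) :
    gF K m E φ (fun _ => 0) - 2 * (K + 1) * ρ ^ 2 ≤ gV K m q η E φ := by
  have h1 := ho.gOb_le_gV (s' := fun _ => ρ) (fun _ _ => hρ)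
  have h2 := gF_zero_le h (fun _ => ρ)
  have h3 : Pen K m q η (fun _ => ρ) ≤ 2 * (K + 1) * ρ ^ 2 := by
    have h6 : ∀ l ∈ Finset.range (K + 1),
        1 / 2 * (aco K m q l + η) * ρ ^ 2 + η / ρ ≤ 2 * ρ ^ 2 := by
      intro l hl
      rw [Finset.mem_range] at hl
      have h4 := aco_le_one h.hm hq (by omega : l ≤ K)
      have h5 : η / ρ = ρ ^ 2 := by
        rw [hη]
        field_simp
      rw [h5]
      have h7 : 0 ≤ ρ ^ 2 := sq_nonneg ρ
      nlinarith
    have h7 := Finset.sum_le_sum h6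
    rw [Finset.sum_const, Finset.card_range, nsmul_eq_mul] at h7
    unfold Pen
    push_cast at h7
    linarith
  unfold gOb at h1
  linarith

/-! ### Special energies -/

/-- Without fields. -/
theorem gF_no_field (h : GD K m E D φ) : gF K m E φ (fun _ => 0) =
    1 / N * ∫ y, Real.log (∑ x, Real.exp (E y x)) ∂(gI ι₀) := by
  have hH : ∀ (z : GI ι₀ N K → ℝ) x, gH E φ (fun _ => 0) z x = E (r0 z) x := by
    intro z x
    simp [gH]
  have h1 : ∀ x, Dep (gS K m E φ (fun _ => 0)).lev 0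
      fun z => (gS K m E φ (fun _ => 0)).H z x := by
    intro x z w
    show gH E φ (fun _ => 0) (mix gl 0 z w) x = gH E φ (fun _ => 0) z x
    rw [hH, hH]
    have : r0 (mix gl 0 z w) = r0 z := by
      funext e
      unfold r0 mix
      exact if_pos (le_refl 0)
    rw [this]
  unfold gF
  rw [fe_level_zero (gS_reg h _) h1]
  congr 1
  have h2 : (gS K m E φ (fun _ => 0)).top =
      fun z : GI ι₀ N K → ℝ => Real.log (∑ x, Real.exp (E (r0 z) x)) := by
    funext z
    show Real.log (∑ x, Real.exp (gH E φ (fun _ => 0) z x)) = _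
    simp only [hH]
  rw [h2]
  have h3 : Lip fun y : ι₀ → ℝ => Real.log (∑ x, Real.exp (E y x)) := by
    let S₀ : Sy ι₀ X := ⟨fun _ => 0, 0, fun l => if l = 0 then 0 else 1, E⟩
    have hS₀ : S₀.Reg := ⟨by simp [S₀], by simp [S₀], fun l hl => by
      have : l = 0 := Nat.le_zero.1 hl
      subst this
      simp [S₀], by simp [S₀], fun _ => le_rfl, h.lip⟩
    exact hS₀.lip_top
  exact J_dep_zero_int h3.eg

/-- Energies which do not depend on the disorder. -/
theorem gF_no_disorder {u : X → ℝ} (h : GD K m (fun (_ : ι₀ → ℝ) x => u x) D φ)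
    (hs : ∀ l ≤ K, 0 ≤ s l) : gF K m (fun (_ : ι₀ → ℝ) x => u x) φ s =
      1 / N * topN m (fun l => ∑ j ∈ Finset.range (l + 1), s j ^ 2) K (lw φ 1 u) := by
  unfold gF
  congr 1
  refine fe_field (S := gS K m (fun (_ : ι₀ → ℝ) x => u x) φ s) (gS_regD h s)
    (zc := fun l i => (gz l i : GI ι₀ N K))
    (fun l hl i => gl_gz (ι₀ := ι₀) (N := N) (K := K) hl i) (fun l hl i i' hii => ?_) hs fun z x => rfl
  have h1 := (gz_eq_iff (ι₀ := ι₀) (N := N) (K := K) hl i (Fin.ofNat (K + 1) l, i')).1 hii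
  exact h1.2

end Vale.Agent.P146.Sk.Gen
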