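import Vale.Agent.P157.ParDefs

/-!
Hierarchical algebra and the Parisi functional of the SK model: definitions.
-/

namespace Vale.Agent.P146.Sk

open Vale.Agent.P157.Par (spinPart)

/-- The product of hierarchical matrices (diagonal entry, entries of the levels `0, …, K`) with
exponents `m`. -/
noncomputable def hm (K : ℕ) (m : ℕ → ℝ) (R T : ℝ × (ℕ → ℝ)) : ℝ × (ℕ → ℝ) :=
  (R.1 * T.1 - ∑ i ∈ Finset.range (K + 1), (m (i + 1) - m i) * (R.2 i * T.2 i),
   fun l => R.2 l * (T.1 - ∑ i ∈ Finset.Ico (l + 1) (K + 1), (m (i + 1) - m i) * T.2 i -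
        m (l + 1) * T.2 l) +
      (R.1 - ∑ i ∈ Finset.Ico l (K + 1), (m (i + 1) - m i) * R.2 i) * T.2 l -
      ∑ i ∈ Finset.range l, (m (i + 1) - m i) * (R.2 i * T.2 i))

/-- The powers of a hierarchical matrix. -/
noncomputable def hpow (K : ℕ) (m : ℕ → ℝ) (R : ℝ × (ℕ → ℝ)) : ℕ → ℝ × (ℕ → ℝ)
  | 0 => (1, fun _ => 0)
  | p + 1 => hm K m R (hpow K m R p)

/-- The diagonal entry of the `k`-th power of the hierarchical matrix with diagonal `1` and the
path `q`. -/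
noncomputable def trp (K : ℕ) (m q : ℕ → ℝ) (k : ℕ) : ℝ := (hpow K m (1, q) k).1

/-- The weighted norm. -/
noncomputable def hN (K : ℕ) (m : ℕ → ℝ) (T : ℝ × (ℕ → ℝ)) : ℝ :=
  |T.1| + ∑ i ∈ Finset.range (K + 1), (m (i + 1) - m i) * |T.2 i|

/-- The level zero eigenvalue `χ = 1 - ∑ p_l q_l`. -/
noncomputable def chi (K : ℕ) (m q : ℕ → ℝ) : ℝ :=
  1 - ∑ i ∈ Finset.range (K + 1), (m (i + 1) - m i) * q i

/-- The Parisi functional of the SK model. -/
noncomputable def PSK (β : ℝ) (K : ℕ) (m q : ℕ → ℝ) : ℝ :=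
  β ^ 2 / 4 * (1 + ∑ i ∈ Finset.range (K + 1), (m (i + 1) - m i) * q i ^ 2) +
    spinPart K m (fun l => β ^ 2 * q l)

/-- The supremum over the dual paths `r` is at most `P` (for the path `q`, at `β`). -/
def GoodPath (β : ℝ) (K : ℕ) (m q : ℕ → ℝ) (P : ℝ) : Prop :=
  ∀ r : ℕ → ℝ, Vale.Agent.P157.Par.Path K r → spinPart K m r +
      1 / 2 * ∑ l ∈ Finset.range (K + 1), (m (l + 1) - m l) * r l * q l ≤
    P - β ^ 2 / 4 * trp K m q 2

end Vale.Agent.P146.Sk
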