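import Vale.Agent.P146.Sk.Goe
import Vale.Agent.P146.Sk.GenOpt
import Vale.Agent.P146.Sk.HDefs

/-!
Definitions for the SK system with the energy `(β/2) (a x·Wx - b χ(g) x·U_κ x)`.
-/

open MeasureTheory ProbabilityTheory Matrix Filter Topology
open scoped Matrix.Norms.L2Operator

namespace Vale.Agent.P146.Sk

open Vale.Agent.P157 (spin)
open Vale.Agent.P157.Lv
open Vale.Agent.P157.Par (Path Exponents topN lw spinPart)
open Gen (GI gz gl r0 gS gF gOb gIsOpt GD)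

/-- One plus the operator norm of `W`. -/
noncomputable def om (N : ℕ) (g : Ix N → ℝ) : ℝ := 1 + ‖Wm N g‖

/-- The quadratic form of a matrix. -/
noncomputable def qf {N : ℕ} (A : Matrix (Fin N) (Fin N) ℝ) (x : Fin N → ℝ) : ℝ :=
  ∑ i, ∑ j, x i * A i j * x j

/-- The smooth cutoff: `1` for `|g|² ≤ N³` and `0` for `|g|² ≥ 2 N³`. -/
noncomputable def cut (N : ℕ) (g : Ix N → ℝ) : ℝ :=
  Real.smoothTransition (2 - (∑ p, g p ^ 2) / (N : ℝ) ^ 3)

/-- The free energy `log (2^{-N} ∑_x exp((β/2) x·Wx))`. -/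
noncomputable def Ft (β : ℝ) (N : ℕ) (g : Ix N → ℝ) : ℝ :=
  Real.log (∑ x : Fin N → Bool, Real.exp (β / 2 * qf (Wm N g) (spin x) - N * Real.log 2))

/-- The pressure `(1/N) E log (2^{-N} ∑_x exp((β/2) x·Wx))`. -/
noncomputable def pN (β : ℝ) (N : ℕ) : ℝ := 1 / N * ∫ g, Ft β N g ∂(gI (Ix N))

/-- The Gibbs average. -/
noncomputable def gav (β : ℝ) (N : ℕ) (g : Ix N → ℝ) (h : (Fin N → Bool) → ℝ) : ℝ :=
  (∑ x : Fin N → Bool, Real.exp (β / 2 * qf (Wm N g) (spin x)) * h x) /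
    ∑ x : Fin N → Bool, Real.exp (β / 2 * qf (Wm N g) (spin x))

/-- The coefficients `(β/N) E⟨x · U_κ x⟩` (`κ + 1` is the length of the cycle). -/
noncomputable def Ck (β : ℝ) (κ N : ℕ) : ℝ :=
  β / N * ∫ g, gav β N g (fun x => qf (Um (Wm N g) κ) (spin x)) ∂(gI (Ix N))

/-- The energy with the parameters `a, b`. -/
noncomputable def Esk (N : ℕ) (β a b : ℝ) (κ : ℕ) : (Ix N → ℝ) → (Fin N → Bool) → ℝ := fun g x =>
  β / 2 * (a * qf (Wm N g) (spin x) - b * (cut N g * qf (Um (Wm N g) κ) (spin x))) -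
    N * Real.log 2

/-- The system with fields. -/
noncomputable abbrev skf (N K : ℕ) (m : ℕ → ℝ) (β a b : ℝ) (κ : ℕ) (s : ℕ → ℝ) :
    Sy (GI (Ix N) N K) (Fin N → Bool) := gS K m (Esk N β a b κ) spin s

variable {N K : ℕ}

/-- `(1/N) E m_l · U_p m_l`. -/
noncomputable def Tl (S : Sy (GI (Ix N) N K) (Fin N → Bool)) (p l : ℕ) : ℝ :=
  1 / N * S.Ex (fun z _ => ∑ i, ∑ j, S.mg spin l i z * Um (Wm N (r0 z)) p i j *
    S.mg spin l j z)

/-- `(1/N) E x · U_p x`. -/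
noncomputable def Td (S : Sy (GI (Ix N) N K) (Fin N → Bool)) (p : ℕ) : ℝ :=
  1 / N * S.Ex (fun z x => qf (Um (Wm N (r0 z)) p) (spin x))

/-- `(1/N) E χ x · U_p x`. -/
noncomputable def Tc (S : Sy (GI (Ix N) N K) (Fin N → Bool)) (p : ℕ) : ℝ :=
  1 / N * S.Ex (fun z x => cut N (r0 z) * qf (Um (Wm N (r0 z)) p) (spin x))

/-- The hierarchical matrix of the averages of `x · U_p x'`. -/
noncomputable def TT (S : Sy (GI (Ix N) N K) (Fin N → Bool)) (p : ℕ) : ℝ × (ℕ → ℝ) :=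
  (Td S p, Tl S p)

/-- The deviation of the overlaps. -/
noncomputable def dev2 (S : Sy (GI (Ix N) N K) (Fin N → Bool)) (l : ℕ) : ℝ :=
  S.pairEx l (fun x x' => (Rov spin x x' - S.Rl spin l) ^ 2)

end Vale.Agent.P146.Sk
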