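import Vale.Agent.P146.Sk.VarLow
import Vale.Agent.P146.Sk.SDefs

/-!
# P146, module VAR: the variance diverges if the coefficients `Ck` are bounded below
-/

open MeasureTheory ProbabilityTheory Finset Matrix Filter Topology

namespace Vale.Agent.P146.Sk

open Vale.Agent.P157 (spin)
open Vale.Agent.P157.Lv

variable {N : ℕ}

/-- Booleans and signs. -/
def bsEquiv : Bool ≃ ℤˣ where
  toFun b := if b then 1 else -1
  invFun u := decide (u = 1)
  left_inv b := by cases b <;> decide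
  right_inv u := by
    rcases Int.units_eq_one_or u with h | h <;> subst h <;> decide

/-- Configurations. -/
def cfEquiv (N : ℕ) : (Fin N → Bool) ≃ (Fin N → ℤˣ) := Equiv.piCongrRight fun _ => bsEquiv

lemma sg_cfEquiv (x : Fin N → Bool) (i : Fin N) : Vr.sg (cfEquiv N x) i = spin x i := by
  have h : cfEquiv N x i = bsEquiv (x i) := rfl
  unfold Vr.sg spin
  rw [h]
  cases x i <;> simp [bsEquiv]

lemma qf_cfEquiv (A : Matrix (Fin N) (Fin N) ℝ) (x : Fin N → Bool) :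
    Vr.qf A (cfEquiv N x) = qf A (spin x) := by
  unfold Vr.qf qf
  rw [Fintype.sum_prod_type]
  refine sum_congr rfl fun i _ => sum_congr rfl fun j _ => ?_
  simp only [sg_cfEquiv]
  ring

lemma gb_eq_gav (β : ℝ) (g : Ix N → ℝ) (A : Matrix (Fin N) (Fin N) ℝ) :
    Vr.gb β g (fun σ => Vr.qf A σ) = gav β N g (fun x => qf A (spin x)) := by
  unfold Vr.gb gav
  rw [← Equiv.sum_comp (cfEquiv N), ← Equiv.sum_comp (cfEquiv N)]
  simp only [qf_cfEquiv]
  congr 1
  refine sum_congr rfl fun x _ => ?_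
  ring

lemma corr_eq_Ck (β : ℝ) (κ N : ℕ) : Vr.corr β κ N = Ck β κ N := by
  unfold Vr.corr Ck
  congr 1
  congr 1
  funext g
  exact gb_eq_gav β g _

/-- VAR: the variance diverges if the coefficients are bounded below. -/
theorem var_tendsto_of_Ck {β : ℝ} (hβ : 0 ≤ β)
    (h : ∀ κ : ℕ, 2 ≤ κ → ∀ ε : ℝ, 0 < ε → ∀ᶠ N : ℕ in atTop, 1 - ε ≤ Ck β κ N) :
    Tendsto (fun N => Var[freeEnergy N β; disorder N]) atTop atTop := by
  refine Vr.var_tendsto hβ one_pos fun p hp ε hε => ?_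
  simp only [corr_eq_Ck]
  exact h p hp ε hε

/-- VAR, quantitative form. -/
theorem var_ge_of_Ck {β c : ℝ} (hβ : 0 ≤ β) (hc : 0 ≤ c) (I : Finset ℕ)
    (h : ∀ i ∈ I, ∀ ε > 0, ∀ᶠ N in atTop, c - ε ≤ Ck β (i + 1) N) {ε : ℝ} (hε : 0 < ε) :
    ∀ᶠ N in atTop, c ^ 2 / 2 * ∑ i ∈ I, (1 : ℝ) / (i + 2) - ε ≤
      Var[freeEnergy N β; disorder N] := by
  refine Vr.var_ge hβ hc I (fun i hi ε hε => ?_) hε
  simp only [corr_eq_Ck]
  exact h i hi ε hε

end Vale.Agent.P146.Sk
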