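import Vale.Agent.P146.Sk.HDefs
import Vale.Agent.P166.F.Schur

/-!
HIER: hierarchical algebra (finite sums, no probability).
-/

open Filter Topology

namespace Vale.Agent.P146.Sk

open Vale.Agent.P157.Par (Exponents Path)

variable {K : ℕ} {m : ℕ → ℝ}

/-! ### Preliminaries -/

theorem hr_expo (h : Exponents K m) : Vale.Agent.P166.F.Expo K m := by
  obtain ⟨h0, h1, h2⟩ := h
  refine ⟨h0, h1, fun l hl => (h2 l hl).le, ?_⟩
  have := h2 0 (Nat.zero_le _)
  simpa [h0] using this

theorem hr_opath {q : ℕ → ℝ} (hq : Path K q) (hq1 : q K ≤ 1) : Vale.Agent.P166.F.OPath K q :=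
  ⟨hq.1, hq.2, hq1⟩

/-- The same matrix in the notation of P166. -/
noncomputable def hr_toHm (T : ℝ × (ℕ → ℝ)) : Vale.Agent.P166.F.Hm := ⟨T.1, T.2⟩

theorem hr_hm_fst (R T : ℝ × (ℕ → ℝ)) :
    (Vale.Agent.P166.F.Hm.mul K m (hr_toHm R) (hr_toHm T)).d = (hm K m R T).1 := rfl

theorem hr_hm_snd (R T : ℝ × (ℕ → ℝ)) {l : ℕ} (hl : l ≤ K) :
    (Vale.Agent.P166.F.Hm.mul K m (hr_toHm R) (hr_toHm T)).e l = (hm K m R T).2 l := by
  simp only [Vale.Agent.P166.F.Hm.mul, hr_toHm, hm]
  rw [Finset.sum_eq_sum_Ico_succ_bot (show l < K + 1 by omega)]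
  have e1 : ∑ j ∈ Finset.Ico (l + 1) (K + 1), (m (j + 1) - m j) * (R.2 j * T.2 l + R.2 l * T.2 j)
      = (∑ j ∈ Finset.Ico (l + 1) (K + 1), (m (j + 1) - m j) * R.2 j) * T.2 l +
        R.2 l * ∑ j ∈ Finset.Ico (l + 1) (K + 1), (m (j + 1) - m j) * T.2 j := by
    rw [Finset.sum_mul, Finset.mul_sum, ← Finset.sum_add_distrib]
    exact Finset.sum_congr rfl fun j _ => by ring
  rw [e1]
  ring

theorem hr_hN_eq (T : ℝ × (ℕ → ℝ)) : hN K m T = Vale.Agent.P166.F.Hm.nrm K m (hr_toHm T) := rfl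

theorem hr_hN_congr {S T : ℝ × (ℕ → ℝ)} (h1 : S.1 = T.1) (h2 : ∀ l ≤ K, S.2 l = T.2 l) :
    hN K m S = hN K m T := by
  unfold hN
  rw [h1]
  congr 1
  refine Finset.sum_congr rfl fun i hi => ?_
  rw [h2 i (by have := Finset.mem_range.1 hi; omega)]

theorem hN_nonneg (hm' : Exponents K m) (T : ℝ × (ℕ → ℝ)) : 0 ≤ hN K m T := by
  unfold hN
  refine add_nonneg (abs_nonneg _) (Finset.sum_nonneg fun i hi => ?_)
  exact mul_nonneg ((hr_expo hm').p_nonneg (by have := Finset.mem_range.1 hi; omega)) (abs_nonneg _)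

/-- Boundedness of the multiplication. -/
theorem hN_hm_le (hm' : Exponents K m) {R T : ℝ × (ℕ → ℝ)} (h1 : |R.1| ≤ 1)
    (hR : ∀ l ≤ K, |R.2 l| ≤ 1) : hN K m (hm K m R T) ≤ 6 * hN K m T := by
  have h := Vale.Agent.P166.F.Hm.nrm_mul_le (hr_expo hm') (hr_toHm R) (hr_toHm T) (C := 1) h1 hR
  have e1 : hN K m (hm K m R T) =
      Vale.Agent.P166.F.Hm.nrm K m (Vale.Agent.P166.F.Hm.mul K m (hr_toHm R) (hr_toHm T)) := by
    unfold hN Vale.Agent.P166.F.Hm.nrm
    rw [hr_hm_fst]
    congr 1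
    refine Finset.sum_congr rfl fun i hi => ?_
    rw [hr_hm_snd R T (show i ≤ K by have := Finset.mem_range.1 hi; omega)]
  have h0 := hN_nonneg hm' T
  rw [e1]
  refine h.trans ?_
  rw [← hr_hN_eq]
  linarith

theorem hr_hN_add_le (hm' : Exponents K m) (S T : ℝ × (ℕ → ℝ)) :
    hN K m (S + T) ≤ hN K m S + hN K m T := by
  unfold hN
  have h1 : |(S + T).1| ≤ |S.1| + |T.1| := abs_add_le _ _
  have h2 : ∑ i ∈ Finset.range (K + 1), (m (i + 1) - m i) * |(S + T).2 i| ≤
      ∑ i ∈ Finset.range (K + 1), (m (i + 1) - m i) * |S.2 i| +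
        ∑ i ∈ Finset.range (K + 1), (m (i + 1) - m i) * |T.2 i| := by
    rw [← Finset.sum_add_distrib]
    refine Finset.sum_le_sum fun i hi => ?_
    rw [← mul_add]
    exact mul_le_mul_of_nonneg_left (abs_add_le _ _)
      ((hr_expo hm').p_nonneg (by have := Finset.mem_range.1 hi; omega))
  linarith

theorem hr_hN_smul {c : ℝ} (hc : 0 ≤ c) (T : ℝ × (ℕ → ℝ)) : hN K m (c • T) = c * hN K m T := by
  unfold hN
  simp only [Prod.smul_fst, Prod.smul_snd, Pi.smul_apply, smul_eq_mul, abs_mul, abs_of_nonneg hc]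
  rw [mul_add, Finset.mul_sum]
  congr 1
  exact Finset.sum_congr rfl fun i _ => by ring

theorem hr_hm_sub_smul (R S T : ℝ × (ℕ → ℝ)) (c : ℝ) :
    hm K m R (S - c • T) = hm K m R S - c • hm K m R T := by
  have s1 : ∀ s : Finset ℕ, ∑ i ∈ s, (m (i + 1) - m i) * (S.2 i - c * T.2 i) =
      ∑ i ∈ s, (m (i + 1) - m i) * S.2 i - c * ∑ i ∈ s, (m (i + 1) - m i) * T.2 i := by
    intro s
    rw [Finset.mul_sum, ← Finset.sum_sub_distrib]
    exact Finset.sum_congr rfl fun i _ => by ring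
  have s2 : ∀ s : Finset ℕ, ∑ i ∈ s, (m (i + 1) - m i) * (R.2 i * (S.2 i - c * T.2 i)) =
      ∑ i ∈ s, (m (i + 1) - m i) * (R.2 i * S.2 i) -
        c * ∑ i ∈ s, (m (i + 1) - m i) * (R.2 i * T.2 i) := by
    intro s
    rw [Finset.mul_sum, ← Finset.sum_sub_distrib]
    exact Finset.sum_congr rfl fun i _ => by ring
  refine Prod.ext ?_ ?_
  · simp only [hm, Prod.fst_sub, Prod.snd_sub, Prod.smul_fst, Prod.smul_snd, Pi.sub_apply,
      Pi.smul_apply, smul_eq_mul]
    rw [s2]
    ring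
  · funext l
    simp only [hm, Prod.fst_sub, Prod.snd_sub, Prod.smul_fst, Prod.smul_snd, Pi.sub_apply,
      Pi.smul_apply, smul_eq_mul]
    rw [s1, s2]
    ring

theorem hr_hpow_one (R : ℝ × (ℕ → ℝ)) : hpow K m R 1 = (R.1, fun l => R.2 l) := by
  refine Prod.ext ?_ ?_
  · simp [hpow, hm]
  · funext l
    simp [hpow, hm]

/-- Stability of the powers: if `T_{p+1} ≈ c R T_p` and `T_0 = R` then `T_n ≈ c^n R^{n+1}`. -/
theorem hpow_stable (hm' : Exponents K m) {R : ℕ → ℝ} (hR : ∀ l ≤ K, |R l| ≤ 1)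
    {T : ℕ → ℝ × (ℕ → ℝ)} (h0 : (T 0).1 = 1) (h0' : ∀ l ≤ K, (T 0).2 l = R l) {c e : ℝ}
    (hc : 0 ≤ c) {n : ℕ}
    (h : ∀ p < n, hN K m (T (p + 1) - c • hm K m (1, R) (T p)) ≤ e) :
    |(T n).1 - c ^ n * trp K m R (n + 1)| ≤ e * ∑ j ∈ Finset.range n, (6 * c) ^ j := by
  have key : ∀ p ≤ n, hN K m (T p - c ^ p • hpow K m (1, R) (p + 1)) ≤
      e * ∑ j ∈ Finset.range p, (6 * c) ^ j := by
    intro p
    induction p with
    | zero =>
      intro _
      have e1 : hN K m (T 0 - c ^ 0 • hpow K m (1, R) (0 + 1)) = hN K m (0, fun _ => 0) := by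
        refine hr_hN_congr ?_ ?_
        · simp [hr_hpow_one, h0]
        · intro l hl
          simp [hr_hpow_one, h0' l hl]
      rw [e1]
      simp [hN]
    | succ p ih =>
      intro hp
      have ih' := ih (by omega)
      have hp' := h p (by omega)
      have e1 : T (p + 1) - c ^ (p + 1) • hpow K m (1, R) (p + 1 + 1) =
          (T (p + 1) - c • hm K m (1, R) (T p)) +
            c • hm K m (1, R) (T p - c ^ p • hpow K m (1, R) (p + 1)) := by
        rw [hr_hm_sub_smul]
        have e2 : hpow K m (1, R) (p + 1 + 1) = hm K m (1, R) (hpow K m (1, R) (p + 1)) := rfl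
        rw [e2, smul_sub, smul_smul, pow_succ']
        abel
      rw [e1]
      refine (hr_hN_add_le hm' _ _).trans ?_
      rw [hr_hN_smul hc]
      have h3 := hN_hm_le hm' (R := (1, R)) (T := T p - c ^ p • hpow K m (1, R) (p + 1))
        (by simp) hR
      have h4 : c * hN K m (hm K m (1, R) (T p - c ^ p • hpow K m (1, R) (p + 1))) ≤
          c * (6 * (e * ∑ j ∈ Finset.range p, (6 * c) ^ j)) :=
        mul_le_mul_of_nonneg_left (h3.trans (by linarith)) hc
      have h5 : e * ∑ j ∈ Finset.range (p + 1), (6 * c) ^ j =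
          e + c * (6 * (e * ∑ j ∈ Finset.range p, (6 * c) ^ j)) := by
        rw [Finset.sum_range_succ']
        have : ∑ k ∈ Finset.range p, (6 * c) ^ (k + 1) =
            6 * c * ∑ k ∈ Finset.range p, (6 * c) ^ k := by
          rw [Finset.mul_sum]
          exact Finset.sum_congr rfl fun i _ => by ring
        rw [this]
        ring
      rw [h5]
      linarith
  refine le_trans ?_ (key n le_rfl)
  have h6 : (T n - c ^ n • hpow K m (1, R) (n + 1)).1 = (T n).1 - c ^ n * trp K m R (n + 1) := rfl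
  rw [← h6]
  unfold hN
  have h7 : 0 ≤ ∑ i ∈ Finset.range (K + 1), (m (i + 1) - m i) *
      |(T n - c ^ n • hpow K m (1, R) (n + 1)).2 i| := by
    refine Finset.sum_nonneg fun i hi => ?_
    exact mul_nonneg ((hr_expo hm').p_nonneg (by have := Finset.mem_range.1 hi; omega)) (abs_nonneg _)
  linarith

theorem trp_zero (q : ℕ → ℝ) : trp K m q 0 = 1 := rfl

theorem trp_one (q : ℕ → ℝ) : trp K m q 1 = 1 := by
  unfold trp
  rw [hr_hpow_one]

theorem trp_two (q : ℕ → ℝ) :
    trp K m q 2 = 1 - ∑ i ∈ Finset.range (K + 1), (m (i + 1) - m i) * q i ^ 2 := by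
  have e1 : trp K m q 2 = (hm K m (1, q) (hpow K m (1, q) 1)).1 := rfl
  rw [e1, hr_hpow_one]
  simp only [hm]
  rw [mul_one]
  congr 1
  exact Finset.sum_congr rfl fun i _ => by ring

/-- The eigenvalues. -/
noncomputable def lam (K : ℕ) (m q : ℕ → ℝ) (l : ℕ) : ℝ :=
  1 - m (l + 1) * q l - ∑ i ∈ Finset.Ico (l + 1) (K + 1), (m (i + 1) - m i) * q i

theorem hr_ev_congr {M N : Vale.Agent.P166.F.Hm} (h1 : M.d = N.d) (h2 : ∀ l ≤ K, M.e l = N.e l)
    {l : ℕ} (hl : l ≤ K) :
    Vale.Agent.P166.F.Hm.ev K m M l = Vale.Agent.P166.F.Hm.ev K m N l := by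
  unfold Vale.Agent.P166.F.Hm.ev
  rw [h1, h2 l hl]
  congr 1
  refine Finset.sum_congr rfl fun i hi => ?_
  rw [h2 i (by have := Finset.mem_Ico.1 hi; omega)]

theorem hr_ev_hm (hm' : Exponents K m) (R T : ℝ × (ℕ → ℝ)) {l : ℕ} (hl : l ≤ K) :
    Vale.Agent.P166.F.Hm.ev K m (hr_toHm (hm K m R T)) l =
      Vale.Agent.P166.F.Hm.ev K m (hr_toHm R) l * Vale.Agent.P166.F.Hm.ev K m (hr_toHm T) l := by
  rw [← Vale.Agent.P166.F.Hm.ev_mul (hr_expo hm') _ _ hl]
  exact hr_ev_congr (hr_hm_fst R T).symm (fun l hl => (hr_hm_snd R T hl).symm) hl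

theorem hr_ev_hpow (hm' : Exponents K m) (q : ℕ → ℝ) {l : ℕ} (hl : l ≤ K) (k : ℕ) :
    Vale.Agent.P166.F.Hm.ev K m (hr_toHm (hpow K m (1, q) k)) l = lam K m q l ^ k := by
  induction k with
  | zero => simp [hpow, hr_toHm, Vale.Agent.P166.F.Hm.ev]
  | succ k ih =>
    have e1 : hpow K m (1, q) (k + 1) = hm K m (1, q) (hpow K m (1, q) k) := rfl
    rw [e1, hr_ev_hm hm' _ _ hl, ih, pow_succ']
    rfl

theorem hr_hpow_zero_level (hm' : Exponents K m) (q : ℕ → ℝ) (k : ℕ) :
    (hpow K m (1, q) k).2 0 = k * q 0 * lam K m q 0 ^ (k - 1) := by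
  induction k with
  | zero => simp [hpow]
  | succ k ih =>
    have e1 : hpow K m (1, q) (k + 1) = hm K m (1, q) (hpow K m (1, q) k) := rfl
    have e2 := Vale.Agent.P166.F.Hm.mul_zero_level (hr_expo hm') (hr_toHm (1, q))
      (hr_toHm (hpow K m (1, q) k))
    rw [e1, ← hr_hm_snd _ _ (Nat.zero_le K), e2, hr_ev_hpow hm' q (Nat.zero_le K) k]
    have e3 : Vale.Agent.P166.F.Hm.ev K m (hr_toHm (1, q)) 0 = lam K m q 0 := rfl
    have e4 : (hr_toHm (hpow K m (1, q) k)).e 0 = (hpow K m (1, q) k).2 0 := rfl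
    have e5 : (hr_toHm (1, q)).e 0 = q 0 := rfl
    rw [e3, e4, e5, ih]
    rcases Nat.eq_zero_or_pos k with hk | hk
    · subst hk; simp
    · obtain ⟨j, rfl⟩ : ∃ j, k = j + 1 := ⟨k - 1, by omega⟩
      simp only [Nat.add_sub_cancel, Nat.cast_add, Nat.cast_one]
      ring

/-- The spectral formula for the powers. -/
theorem trp_eq (hm' : Exponents K m) (q : ℕ → ℝ) (k : ℕ) :
    trp K m q k = lam K m q K ^ k +
      ∑ l ∈ Finset.Ico 1 (K + 1), (lam K m q (l - 1) ^ k - lam K m q l ^ k) / m l +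
      k * q 0 * lam K m q 0 ^ (k - 1) := by
  have h := hr_expo hm'
  have h1 := Vale.Agent.P166.F.Hm.ev_K h (hr_toHm (hpow K m (1, q) k))
  rw [hr_ev_hpow hm' q le_rfl] at h1
  have h2 : (hr_toHm (hpow K m (1, q) k)).d = trp K m q k := rfl
  have h3 : ∀ j ≤ K, (hpow K m (1, q) k).2 j = (hpow K m (1, q) k).2 0 +
      ∑ l ∈ Finset.Ico 1 (j + 1), (lam K m q (l - 1) ^ k - lam K m q l ^ k) / m l := by
    intro j
    induction j with
    | zero => intro _; simp
    | succ j ih =>
      intro hj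
      have h4 := Vale.Agent.P166.F.Hm.ev_sub h (hr_toHm (hpow K m (1, q) k)) (show j < K by omega)
      rw [hr_ev_hpow hm' q (by omega), hr_ev_hpow hm' q (by omega)] at h4
      have h5 : m (j + 1) ≠ 0 := (h.pos' (by omega) (by omega)).ne'
      rw [Finset.sum_Ico_succ_top (by omega : 1 ≤ j + 1), ← add_assoc, ← ih (by omega)]
      have h6 : (hr_toHm (hpow K m (1, q) k)).e = (hpow K m (1, q) k).2 := rfl
      rw [h6] at h4
      rw [Nat.add_sub_cancel, h4, mul_div_cancel_left₀ _ h5]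
      ring
  have h6 : (hr_toHm (hpow K m (1, q) k)).e = (hpow K m (1, q) k).2 := rfl
  rw [h2, h6, h3 K le_rfl, hr_hpow_zero_level hm'] at h1
  linarith

theorem hr_chi_eq (hm' : Exponents K m) (q : ℕ → ℝ) : chi K m q = lam K m q 0 := by
  unfold chi lam
  rw [Finset.range_eq_Ico, Finset.sum_eq_sum_Ico_succ_bot (Nat.succ_pos K), hm'.1]
  ring

theorem hr_lam_K (hm' : Exponents K m) (q : ℕ → ℝ) : lam K m q K = 1 - q K := by
  unfold lam
  rw [Finset.Ico_self, Finset.sum_empty, hm'.2.1]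
  ring

theorem hr_lam_sub (q : ℕ → ℝ) {l : ℕ} (hl : l < K) :
    lam K m q l - lam K m q (l + 1) = m (l + 1) * (q (l + 1) - q l) := by
  unfold lam
  rw [Finset.sum_eq_sum_Ico_succ_bot (show l + 1 < K + 1 by omega)]
  ring

theorem hr_lam_succ_le (hm' : Exponents K m) {q : ℕ → ℝ} (hq : Path K q) {l : ℕ} (hl : l < K) :
    lam K m q (l + 1) ≤ lam K m q l := by
  have h1 := hr_lam_sub (m := m) q hl
  have h2 := mul_nonneg ((hr_expo hm').pos' (show 1 ≤ l + 1 by omega) (by omega)).le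
    (sub_nonneg.2 (hq.2 l hl))
  linarith

theorem hr_lam_nonneg (hm' : Exponents K m) {q : ℕ → ℝ} (hq : Path K q) (hq1 : q K ≤ 1) :
    ∀ l ≤ K, 0 ≤ lam K m q l := by
  refine Vale.Agent.P166.F.alg1_down_ind ?_ ?_
  · rw [hr_lam_K hm']; linarith
  · intro l hl h
    exact h.trans (hr_lam_succ_le hm' hq hl)

theorem chi_mem (hm' : Exponents K m) {q : ℕ → ℝ} (hq : Path K q) (hq1 : q K ≤ 1) :
    0 ≤ chi K m q ∧ chi K m q ≤ 1 := by
  constructor
  · rw [hr_chi_eq hm']
    exact hr_lam_nonneg hm' hq hq1 0 (Nat.zero_le _)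
  · unfold chi
    have h1 : 0 ≤ ∑ i ∈ Finset.range (K + 1), (m (i + 1) - m i) * q i := by
      refine Finset.sum_nonneg fun i hi => ?_
      have hi' := Finset.mem_range.1 hi
      exact mul_nonneg ((hr_expo hm').p_nonneg (by omega))
        (Vale.Agent.P166.F.fs_nonneg (hr_opath hq hq1) (by omega))
    linarith

/-- The lower bound by the eigenvalue of the level zero. -/
theorem chi_pow_le (hm' : Exponents K m) {q : ℕ → ℝ} (hq : Path K q) (hq1 : q K ≤ 1) (k : ℕ) :
    chi K m q ^ k ≤ trp K m q k := by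
  rw [hr_chi_eq hm', trp_eq hm']
  have h0 := hr_lam_nonneg hm' hq hq1
  have h1 : 0 ≤ (k : ℝ) * q 0 * lam K m q 0 ^ (k - 1) :=
    mul_nonneg (mul_nonneg (Nat.cast_nonneg _) hq.1) (pow_nonneg (h0 0 (Nat.zero_le _)) _)
  have h2 : ∑ l ∈ Finset.Ico 1 (K + 1), (lam K m q (l - 1) ^ k - lam K m q l ^ k) ≤
      ∑ l ∈ Finset.Ico 1 (K + 1), (lam K m q (l - 1) ^ k - lam K m q l ^ k) / m l := by
    refine Finset.sum_le_sum fun l hl => ?_
    have hl' := Finset.mem_Ico.1 hl
    have h3 : 0 < m l := (hr_expo hm').pos' hl'.1 (by omega)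
    have h4 : m l ≤ 1 := (hr_expo hm').le_one (by omega)
    rw [le_div_iff₀ h3]
    have h5 : 0 ≤ lam K m q (l - 1) ^ k - lam K m q l ^ k := by
      have h6 := hr_lam_succ_le hm' hq (show l - 1 < K by omega)
      rw [show l - 1 + 1 = l by omega] at h6
      exact sub_nonneg.2 (pow_le_pow_left₀ (h0 l (by omega)) h6 k)
    nlinarith
  have h3 : ∀ j ≤ K, ∑ l ∈ Finset.Ico 1 (j + 1), (lam K m q (l - 1) ^ k - lam K m q l ^ k) =
      lam K m q 0 ^ k - lam K m q j ^ k := by
    intro j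
    induction j with
    | zero => intro _; simp
    | succ j ih =>
      intro hj
      rw [Finset.sum_Ico_succ_top (by omega : 1 ≤ j + 1), ih (by omega), Nat.add_sub_cancel]
      ring
  have h4 := h3 K le_rfl
  linarith

theorem trp_nonneg (hm' : Exponents K m) {q : ℕ → ℝ} (hq : Path K q) (hq1 : q K ≤ 1) (k : ℕ) :
    0 ≤ trp K m q k :=
  (pow_nonneg (chi_mem hm' hq hq1).1 k).trans (chi_pow_le hm' hq hq1 k)

/-! ### The integral representation -/

open Vale.Agent.P166.F (Lam)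

theorem hr_Lam_continuous (q : ℕ → ℝ) : Continuous (Lam K m q) := by
  unfold Lam
  fun_prop

theorem hr_Lam_low (hm' : Exponents K m) {q : ℕ → ℝ} (hq : Path K q) (hq1 : q K ≤ 1) {s : ℝ}
    (hs : s ≤ q 0) : Lam K m q s = lam K m q 0 := by
  rw [← hr_chi_eq hm']
  unfold Lam chi
  have h1 : ∑ l ∈ Finset.range (K + 1), (m (l + 1) - m l) * max (q l - s) 0 =
      ∑ i ∈ Finset.range (K + 1), (m (i + 1) - m i) * q i - s := by
    have h2 : ∑ l ∈ Finset.range (K + 1), (m (l + 1) - m l) = 1 := by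
      rw [Finset.sum_range_sub m, hm'.2.1, hm'.1, sub_zero]
    have h3 : s = ∑ l ∈ Finset.range (K + 1), (m (l + 1) - m l) * s := by
      rw [← Finset.sum_mul, h2, one_mul]
    conv_rhs => rw [h3]
    rw [← Finset.sum_sub_distrib]
    refine Finset.sum_congr rfl fun i hi => ?_
    have hi' := Finset.mem_range.1 hi
    have h4 := Vale.Agent.P166.F.fs_mono (hr_opath hq hq1) 0 i (Nat.zero_le _) (by omega)
    rw [max_eq_left (by linarith)]
    ring
  rw [h1]
  ring

theorem hr_Lam_nonneg (hm' : Exponents K m) {q : ℕ → ℝ} (hq : Path K q) (hq1 : q K ≤ 1) {s : ℝ}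
    (hs : s ≤ 1) : 0 ≤ Lam K m q s := by
  unfold Lam
  have h1 : ∑ l ∈ Finset.range (K + 1), (m (l + 1) - m l) * max (q l - s) 0 ≤
      ∑ l ∈ Finset.range (K + 1), (m (l + 1) - m l) * (1 - s) := by
    refine Finset.sum_le_sum fun i hi => ?_
    have hi' := Finset.mem_range.1 hi
    refine mul_le_mul_of_nonneg_left ?_ ((hr_expo hm').p_nonneg (by omega))
    have := Vale.Agent.P166.F.fs_le_one (hr_opath hq hq1) (show i ≤ K by omega)
    exact max_le (by linarith) (by linarith)
  have h2 : ∑ l ∈ Finset.range (K + 1), (m (l + 1) - m l) = 1 := by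
    rw [Finset.sum_range_sub m, hm'.2.1, hm'.1, sub_zero]
  rw [← Finset.sum_mul, h2, one_mul] at h1
  linarith

theorem hr_Lam_le (hm' : Exponents K m) (q : ℕ → ℝ) (s : ℝ) : Lam K m q s ≤ 1 - s := by
  unfold Lam
  have h1 : 0 ≤ ∑ l ∈ Finset.range (K + 1), (m (l + 1) - m l) * max (q l - s) 0 := by
    refine Finset.sum_nonneg fun i hi => ?_
    have hi' := Finset.mem_range.1 hi
    exact mul_nonneg ((hr_expo hm').p_nonneg (by omega)) (le_max_right _ _)
  linarith

/-- One piece of the integral. -/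
theorem hr_piece_int {f f' : ℝ → ℝ} (hd : ∀ x, HasDerivAt f (f' x) x) (hc' : Continuous f')
    {a b X c : ℝ} (hc : 0 < c) :
    ∫ s in a..b, f' (X - c * (s - a)) = (f X - f (X - c * (b - a))) / c := by
  have h1 : ∀ s ∈ Set.uIcc a b, HasDerivAt (fun s => -(f (X - c * (s - a)) / c))
      (f' (X - c * (s - a))) s := by
    intro s _
    have h2 : HasDerivAt (fun s : ℝ => X - c * (s - a)) (-c) s := by
      have := ((hasDerivAt_id s).sub_const a).const_mul c
      have := this.const_sub X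
      simpa using this
    have h3 := (hd (X - c * (s - a))).comp s h2
    have h4 := (h3.div_const c).neg
    have h5 : f' (X - c * (s - a)) = -(f' (X - c * (s - a)) * -c / c) := by
      field_simp
    rw [h5]
    exact h4
  rw [intervalIntegral.integral_eq_sub_of_hasDerivAt h1]
  · rw [sub_self, mul_zero, sub_zero]
    ring
  · apply Continuous.intervalIntegrable
    fun_prop

/-- The trace of a function as an integral. -/
theorem hr_tr_int (hm' : Exponents K m) {q : ℕ → ℝ} (hq : Path K q) (hq1 : q K ≤ 1)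
    {f f' : ℝ → ℝ} (hd : ∀ x, HasDerivAt f (f' x) x) (hc' : Continuous f') :
    ∫ s in (0 : ℝ)..1, f' (Lam K m q s) = q 0 * f' (lam K m q 0) +
      (∑ l ∈ Finset.Ico 1 (K + 1), (f (lam K m q (l - 1)) - f (lam K m q l)) / m l +
        (f (lam K m q K) - f 0)) := by
  have hcont : Continuous fun s => f' (Lam K m q s) := hc'.comp (hr_Lam_continuous q)
  have hII : ∀ a b : ℝ, IntervalIntegrable (fun s => f' (Lam K m q s)) MeasureTheory.volume a b :=
    fun a b => hcont.intervalIntegrable a b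
  have hop := hr_opath hq hq1
  have h := hr_expo hm'
  -- up to `q j`
  have h1 : ∫ s in (0 : ℝ)..(q 0), f' (Lam K m q s) = q 0 * f' (lam K m q 0) := by
    have e1 : ∫ s in (0 : ℝ)..(q 0), f' (Lam K m q s) =
        ∫ s in (0 : ℝ)..(q 0), f' (lam K m q 0) := by
      refine intervalIntegral.integral_congr fun s hs => ?_
      rw [Set.uIcc_of_le hq.1] at hs
      show f' _ = f' _
      rw [hr_Lam_low hm' hq hq1 hs.2]
    rw [e1, intervalIntegral.integral_const]
    simp
  have h2 : ∀ j ≤ K, ∫ s in (0 : ℝ)..(q j), f' (Lam K m q s) = q 0 * f' (lam K m q 0) +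
      ∑ l ∈ Finset.Ico 1 (j + 1), (f (lam K m q (l - 1)) - f (lam K m q l)) / m l := by
    intro j
    induction j with
    | zero => intro _; rw [h1]; simp
    | succ j ih =>
      intro hj
      rw [Finset.sum_Ico_succ_top (by omega : 1 ≤ j + 1), ← add_assoc, ← ih (by omega),
        ← intervalIntegral.integral_add_adjacent_intervals (hII 0 (q j)) (hII (q j) (q (j + 1)))]
      congr 1
      rw [Nat.add_sub_cancel]
      have h5 : 0 < m (j + 1) := h.pos' (by omega) (by omega)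
      have e1 : ∫ s in (q j)..(q (j + 1)), f' (Lam K m q s) =
          ∫ s in (q j)..(q (j + 1)), f' (lam K m q j - m (j + 1) * (s - q j)) := by
        refine intervalIntegral.integral_congr fun s hs => ?_
        rw [Set.uIcc_of_le (hq.2 j (by omega))] at hs
        show f' _ = f' _
        rw [Vale.Agent.P166.F.fs_affine h hop (show j ≤ K by omega) hs.1
          (fun i hi hi' => hs.2.trans (Vale.Agent.P166.F.fs_mono hop (j + 1) i hi hi'))]
        rfl
      rw [e1, hr_piece_int hd hc' h5]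
      have h6 := hr_lam_sub (m := m) q (show j < K by omega)
      have h7 : lam K m q j - m (j + 1) * (q (j + 1) - q j) = lam K m q (j + 1) := by linarith
      rw [h7]
  have h3 : ∫ s in (q K)..1, f' (Lam K m q s) = f (lam K m q K) - f 0 := by
    have e1 : ∫ s in (q K)..1, f' (Lam K m q s) =
        ∫ s in (q K)..1, f' (lam K m q K - 1 * (s - q K)) := by
      refine intervalIntegral.integral_congr fun s hs => ?_
      rw [Set.uIcc_of_le hq1] at hs
      show f' _ = f' _
      rw [Vale.Agent.P166.F.fs_affine h hop le_rfl hs.1 (fun i hi hi' => by omega), h.mK]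
      rfl
    rw [e1, hr_piece_int hd hc' one_pos, hr_lam_K hm']
    ring_nf
  rw [← intervalIntegral.integral_add_adjacent_intervals (hII 0 (q K)) (hII (q K) 1), h2 K le_rfl,
    h3]
  ring

theorem hr_trp_int (hm' : Exponents K m) {q : ℕ → ℝ} (hq : Path K q) (hq1 : q K ≤ 1) {k : ℕ}
    (hk : 1 ≤ k) : trp K m q k = ∫ s in (0 : ℝ)..1, k * Lam K m q s ^ (k - 1) := by
  have h1 := hr_tr_int hm' hq hq1 (f := fun x => x ^ k) (f' := fun x => k * x ^ (k - 1))
    (fun x => hasDerivAt_pow k x) (by fun_prop)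
  rw [h1, trp_eq hm', zero_pow (by omega)]
  ring

theorem hr_Lam_le_add (hm' : Exponents K m) {q R : ℕ → ℝ} (hq : Path K q) (hq1 : q K ≤ 1)
    {η : ℝ} (hη : 0 ≤ η)
    (h : ∀ j ≤ K, -η ≤ ∑ l ∈ Finset.Ico j (K + 1), (m (l + 1) - m l) * (R l - q l)) (s : ℝ) :
    Lam K m R s ≤ Lam K m q s + η := by
  unfold Lam
  suffices H : ∑ l ∈ Finset.range (K + 1), (m (l + 1) - m l) * max (q l - s) 0
      ≤ ∑ l ∈ Finset.range (K + 1), (m (l + 1) - m l) * max (R l - s) 0 + η by linarith
  have hp : ∀ l ∈ Finset.range (K + 1), 0 ≤ m (l + 1) - m l := fun l hl => by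
    rw [Finset.mem_range] at hl
    exact (hr_expo hm').p_nonneg (by omega)
  have hop := hr_opath hq hq1
  by_cases hex : ∃ j, j ≤ K ∧ s < q j
  · classical
    let j := Nat.find hex
    have hj : j ≤ K ∧ s < q j := Nat.find_spec hex
    have hlt : ∀ i < j, q i ≤ s := by
      intro i hi
      by_contra hc
      exact Nat.find_min hex hi ⟨by omega, not_le.1 hc⟩
    have e1 : ∑ l ∈ Finset.range (K + 1), (m (l + 1) - m l) * max (q l - s) 0
        = ∑ l ∈ Finset.Ico j (K + 1), (m (l + 1) - m l) * (q l - s) := by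
      rw [Finset.range_eq_Ico, ← Finset.sum_Ico_consecutive _ (Nat.zero_le j) (by omega)]
      have z : ∑ l ∈ Finset.Ico 0 j, (m (l + 1) - m l) * max (q l - s) 0 = 0 := by
        refine Finset.sum_eq_zero fun i hi => ?_
        rw [Finset.mem_Ico] at hi
        rw [max_eq_right, mul_zero]
        linarith [hlt i hi.2]
      rw [z, zero_add]
      refine Finset.sum_congr rfl fun i hi => ?_
      rw [Finset.mem_Ico] at hi
      rw [max_eq_left]
      have := Vale.Agent.P166.F.fs_mono hop j i hi.1 (by omega)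
      linarith [hj.2]
    have e2 : ∑ l ∈ Finset.Ico j (K + 1), (m (l + 1) - m l) * (q l - s)
        ≤ ∑ l ∈ Finset.Ico j (K + 1), (m (l + 1) - m l) * (R l - s) + η := by
      have h1 := h j hj.1
      have h2 : ∑ l ∈ Finset.Ico j (K + 1), (m (l + 1) - m l) * (R l - q l)
          = ∑ l ∈ Finset.Ico j (K + 1), (m (l + 1) - m l) * (R l - s)
            - ∑ l ∈ Finset.Ico j (K + 1), (m (l + 1) - m l) * (q l - s) := by
        rw [← Finset.sum_sub_distrib]
        exact Finset.sum_congr rfl fun i _ => by ring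
      linarith
    have e3 : ∑ l ∈ Finset.Ico j (K + 1), (m (l + 1) - m l) * (R l - s)
        ≤ ∑ l ∈ Finset.Ico j (K + 1), (m (l + 1) - m l) * max (R l - s) 0 := by
      refine Finset.sum_le_sum fun i hi => ?_
      rw [Finset.mem_Ico] at hi
      exact mul_le_mul_of_nonneg_left (le_max_left _ _) (hp i (Finset.mem_range.2 hi.2))
    have e4 : ∑ l ∈ Finset.Ico j (K + 1), (m (l + 1) - m l) * max (R l - s) 0
        ≤ ∑ l ∈ Finset.range (K + 1), (m (l + 1) - m l) * max (R l - s) 0 := by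
      refine Finset.sum_le_sum_of_subset_of_nonneg ?_ ?_
      · intro i hi
        rw [Finset.mem_Ico] at hi
        exact Finset.mem_range.2 hi.2
      · intro i hi _
        exact mul_nonneg (hp i hi) (le_max_right _ _)
    rw [e1]
    linarith
  · have z : ∑ l ∈ Finset.range (K + 1), (m (l + 1) - m l) * max (q l - s) 0 = 0 := by
      refine Finset.sum_eq_zero fun i hi => ?_
      rw [Finset.mem_range] at hi
      have : q i ≤ s := by
        by_contra hc
        exact hex ⟨i, by omega, not_le.1 hc⟩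
      rw [max_eq_right (by linarith), mul_zero]
    rw [z]
    have h5 : 0 ≤ ∑ l ∈ Finset.range (K + 1), (m (l + 1) - m l) * max (R l - s) 0 :=
      Finset.sum_nonneg fun i hi => mul_nonneg (hp i hi) (le_max_right _ _)
    linarith

theorem trp_le_one (hm' : Exponents K m) {q : ℕ → ℝ} (hq : Path K q) (hq1 : q K ≤ 1) (k : ℕ) :
    trp K m q k ≤ 1 := by
  rcases Nat.eq_zero_or_pos k with hk | hk
  · subst hk; rw [trp_zero]
  · rw [hr_trp_int hm' hq hq1 hk]
    have h1 : ∫ s in (0 : ℝ)..1, (k : ℝ) * (1 - s) ^ (k - 1) = 1 := by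
      have h2 : ∀ s ∈ Set.uIcc (0 : ℝ) 1, HasDerivAt (fun s => -(1 - s) ^ k)
          ((k : ℝ) * (1 - s) ^ (k - 1)) s := by
        intro s _
        have h3 : HasDerivAt (fun s : ℝ => 1 - s) (-1) s := by
          simpa using (hasDerivAt_id s).const_sub 1
        have h4 := (h3.pow k).neg
        have h5 : (k : ℝ) * (1 - s) ^ (k - 1) = -(k * (1 - s) ^ (k - 1) * -1) := by ring
        rw [h5]
        exact h4
      rw [intervalIntegral.integral_eq_sub_of_hasDerivAt h2]
      · rw [sub_self, zero_pow (by omega)]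
        simp
      · apply Continuous.intervalIntegrable
        fun_prop
    refine le_trans ?_ h1.le
    refine intervalIntegral.integral_mono_on zero_le_one ?_ ?_ fun s hs => ?_
    · apply Continuous.intervalIntegrable
      have := hr_Lam_continuous (K := K) (m := m) q
      fun_prop
    · apply Continuous.intervalIntegrable
      fun_prop
    · exact mul_le_mul_of_nonneg_left
        (pow_le_pow_left₀ (hr_Lam_nonneg hm' hq hq1 hs.2) (hr_Lam_le hm' q s) _) (Nat.cast_nonneg _)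

/-- Schur for the square. -/
theorem schur_two (hm' : Exponents K m) {q R : ℕ → ℝ} (hq : Path K q) (hq1 : q K ≤ 1)
    (hR : Path K R) (hR1 : R K ≤ 1) {η : ℝ} (hη : 0 ≤ η)
    (h : ∀ j ≤ K, -η ≤ ∑ l ∈ Finset.Ico j (K + 1), (m (l + 1) - m l) * (R l - q l)) :
    trp K m R 2 ≤ trp K m q 2 + 2 * η := by
  rw [hr_trp_int hm' hq hq1 one_le_two, hr_trp_int hm' hR hR1 one_le_two]
  have hcq := hr_Lam_continuous (K := K) (m := m) q
  have hcR := hr_Lam_continuous (K := K) (m := m) R
  have h2 : 2 * η = ∫ _s in (0 : ℝ)..1, 2 * η := by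
    rw [intervalIntegral.integral_const]; simp
  rw [h2, ← intervalIntegral.integral_add]
  · refine intervalIntegral.integral_mono_on zero_le_one ?_ ?_ fun s hs => ?_
    · apply Continuous.intervalIntegrable
      fun_prop
    · apply Continuous.intervalIntegrable
      fun_prop
    · have := hr_Lam_le_add hm' hq hq1 hη h s
      norm_num
      linarith
  · apply Continuous.intervalIntegrable
    fun_prop
  · apply Continuous.intervalIntegrable
    fun_prop

theorem hr_pow_sub_le {x y : ℝ} (hx : 0 ≤ x) (hxy : x ≤ y) (hy : y ≤ 1) (n : ℕ) :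
    y ^ n - x ^ n ≤ n * (y - x) := by
  induction n with
  | zero => simp
  | succ n ih =>
    have h1 : y ^ (n + 1) - x ^ (n + 1) = y * (y ^ n - x ^ n) + x ^ n * (y - x) := by ring
    have h2 : 0 ≤ y ^ n - x ^ n := sub_nonneg.2 (pow_le_pow_left₀ hx hxy n)
    have h3 : y * (y ^ n - x ^ n) ≤ y ^ n - x ^ n := by nlinarith
    have h4 : x ^ n ≤ 1 := pow_le_one₀ hx (hxy.trans hy)
    have h5 : x ^ n * (y - x) ≤ y - x := by nlinarith [sub_nonneg.2 hxy]
    rw [h1]
    push_cast
    linarith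

/-- Schur for `C x² - x^k`, `C = k (k - 1) / 2`: the function `φ(x) = C x² - x^k` has `φ' ≥ 0` and
`φ'' ≥ 0` on `[0, 1]`; the derivative of `tr φ` along the segment from `q` to `R` is
`-∑ p_l φ'(R^θ)_l (R_l - q_l)`, with `φ'(R)_l` nonnegative and nondecreasing in `l`, and
`φ'(R)_K ≤ sup φ'' ≤ k (k - 1)`. -/
theorem schur_k (hm' : Exponents K m) {q R : ℕ → ℝ} (hq : Path K q) (hq1 : q K ≤ 1)
    (hR : Path K R) (hR1 : R K ≤ 1) {η : ℝ} (hη : 0 ≤ η)
    (h : ∀ j ≤ K, -η ≤ ∑ l ∈ Finset.Ico j (K + 1), (m (l + 1) - m l) * (R l - q l))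
    {k : ℕ} (hk : 2 ≤ k) :
    trp K m q k - (k * (k - 1) / 2 : ℝ) * (trp K m q 2 - trp K m R 2) - k * (k - 1) * η ≤
      trp K m R k := by
  have hcq := hr_Lam_continuous (K := K) (m := m) q
  have hcR := hr_Lam_continuous (K := K) (m := m) R
  -- the trace of `φ`
  have tr : ∀ r : ℕ → ℝ, Path K r → r K ≤ 1 →
      (k * (k - 1) / 2 : ℝ) * trp K m r 2 - trp K m r k =
        ∫ s in (0 : ℝ)..1, (k * (k - 1) * Lam K m r s - k * Lam K m r s ^ (k - 1)) := by
    intro r hr hr1
    have hcr := hr_Lam_continuous (K := K) (m := m) r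
    rw [hr_trp_int hm' hr hr1 one_le_two, hr_trp_int hm' hr hr1 (show 1 ≤ k by omega),
      ← intervalIntegral.integral_const_mul, ← intervalIntegral.integral_sub]
    · refine intervalIntegral.integral_congr fun s _ => ?_
      norm_num
      ring
    · apply Continuous.intervalIntegrable
      fun_prop
    · apply Continuous.intervalIntegrable
      fun_prop
  have h1 := tr q hq hq1
  have h2 := tr R hR hR1
  have hk1 : (1 : ℝ) ≤ k := by exact_mod_cast (show 1 ≤ k by omega)
  have hkk : (0 : ℝ) ≤ k * (k - 1) := mul_nonneg (by linarith) (by linarith)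
  have h3 : ∫ s in (0 : ℝ)..1, (k * (k - 1) * Lam K m R s - k * Lam K m R s ^ (k - 1)) ≤
      (∫ s in (0 : ℝ)..1, (k * (k - 1) * Lam K m q s - k * Lam K m q s ^ (k - 1))) +
        k * (k - 1) * η := by
    have h4 : k * (k - 1) * η = ∫ _s in (0 : ℝ)..1, k * (k - 1) * η := by
      rw [intervalIntegral.integral_const]; simp
    rw [h4, ← intervalIntegral.integral_add]
    · refine intervalIntegral.integral_mono_on zero_le_one ?_ ?_ fun s hs => ?_
      · apply Continuous.intervalIntegrable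
        fun_prop
      · apply Continuous.intervalIntegrable
        fun_prop
      · have a1 := hr_Lam_le_add hm' hq hq1 hη h s
        have a2 := hr_Lam_nonneg hm' hq hq1 hs.2
        have a3 := hr_Lam_nonneg hm' hR hR1 hs.2
        have a4 : Lam K m q s ≤ 1 := (hr_Lam_le hm' q s).trans (by linarith [hs.1])
        have a6 : 0 ≤ k * (k - 1) * η := mul_nonneg hkk hη
        have hcast : ((k - 1 : ℕ) : ℝ) = k - 1 := by
          rw [Nat.cast_sub (by omega)]; simp
        rcases le_total (Lam K m R s) (Lam K m q s) with hle | hle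
        · have a5 := hr_pow_sub_le a3 hle a4 (k - 1)
          rw [hcast] at a5
          have a7 : (k : ℝ) * (Lam K m q s ^ (k - 1) - Lam K m R s ^ (k - 1)) ≤
              k * ((k - 1) * (Lam K m q s - Lam K m R s)) :=
            mul_le_mul_of_nonneg_left a5 (by linarith)
          nlinarith
        · have a5 : Lam K m q s ^ (k - 1) ≤ Lam K m R s ^ (k - 1) := pow_le_pow_left₀ a2 hle _
          have a7 : (k : ℝ) * Lam K m q s ^ (k - 1) ≤ k * Lam K m R s ^ (k - 1) :=
            mul_le_mul_of_nonneg_left a5 (by linarith)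
          have a8 : (k : ℝ) * (k - 1) * Lam K m R s ≤ k * (k - 1) * (Lam K m q s + η) :=
            mul_le_mul_of_nonneg_left a1 hkk
          linarith
    · apply Continuous.intervalIntegrable
      fun_prop
    · apply Continuous.intervalIntegrable
      fun_prop
  rw [← h1, ← h2] at h3
  linarith

end Vale.Agent.P146.Sk
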