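import Vale.Agent.P146.Sk.SDefs

/-!
Operator norm bounds for the matrices `U_p`, the cutoff.
-/

open MeasureTheory ProbabilityTheory Matrix Filter Topology
open scoped Matrix.Norms.L2Operator

namespace Vale.Agent.P146.Sk

open Vale.Agent.P157 (spin)
open Vale.Agent.P157.Lv
open Vale.Agent.P157.Par (Path Exponents topN lw spinPart)
open Gen (GI gz gl r0 gS gF gOb gIsOpt GD)

variable {N K : ℕ}

lemma one_le_om (g : Ix N → ℝ) : 1 ≤ om N g := by
  unfold om; linarith [norm_nonneg (Wm N g)]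

lemma om_nonneg (g : Ix N → ℝ) : 0 ≤ om N g := zero_le_one.trans (one_le_om g)

lemma norm_one_le : ‖(1 : Matrix (Fin N) (Fin N) ℝ)‖ ≤ 1 := by
  rcases Nat.eq_zero_or_pos N with h | h
  · subst h
    have : (1 : Matrix (Fin 0) (Fin 0) ℝ) = 0 := Subsingleton.elim _ _
    rw [this, norm_zero]; exact zero_le_one
  · have : Nonempty (Fin N) := ⟨⟨0, h⟩⟩
    exact (CStarRing.norm_one (E := Matrix (Fin N) (Fin N) ℝ)).le

theorem norm_Um_le (g : Ix N → ℝ) (p : ℕ) : ‖Um (Wm N g) p‖ ≤ om N g ^ p := by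
  have h1 := one_le_om g
  have h0 := norm_nonneg (Wm N g)
  have key : ∀ p, ‖Um (Wm N g) p‖ ≤ om N g ^ p ∧ ‖Um (Wm N g) (p + 1)‖ ≤ om N g ^ (p + 1) := by
    intro p
    induction p with
    | zero =>
      refine ⟨by simpa using norm_one_le, ?_⟩
      simp only [zero_add, Um_one, pow_one]
      unfold om; linarith
    | succ p ih =>
      refine ⟨ih.2, ?_⟩
      rw [Um_add_two]
      calc ‖Wm N g * Um (Wm N g) (p + 1) - Um (Wm N g) p‖ ≤
          ‖Wm N g * Um (Wm N g) (p + 1)‖ + ‖Um (Wm N g) p‖ := norm_sub_le _ _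
        _ ≤ ‖Wm N g‖ * om N g ^ (p + 1) + om N g ^ p := by
          refine add_le_add ((norm_mul_le _ _).trans ?_) ih.1
          exact mul_le_mul_of_nonneg_left ih.2 h0
        _ ≤ om N g ^ (p + 1 + 1) := by
          have h2 : om N g ^ p ≤ om N g ^ (p + 1) := pow_le_pow_right₀ h1 (Nat.le_succ p)
          have h3 : om N g ^ (p + 1 + 1) = (1 + ‖Wm N g‖) * om N g ^ (p + 1) := by
            rw [pow_succ, mul_comm]; rfl
          rw [h3]; linarith
  exact (key p).1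

/-- The norm of `A y`. -/
theorem sum_mulVec_sq_le (A : Matrix (Fin N) (Fin N) ℝ) (y : Fin N → ℝ) :
    ∑ i, (∑ j, A i j * y j) ^ 2 ≤ ‖A‖ ^ 2 * ∑ i, y i ^ 2 := by
  have h := Matrix.l2_opNorm_mulVec A (WithLp.toLp 2 y)
  have e1 : ‖(WithLp.toLp 2 (A *ᵥ y) : EuclideanSpace ℝ (Fin N))‖ ^ 2 =
      ∑ i, (∑ j, A i j * y j) ^ 2 := by
    rw [EuclideanSpace.norm_sq_eq]
    refine Finset.sum_congr rfl fun i _ => ?_
    rw [Real.norm_eq_abs, sq_abs]
    rfl
  have e2 : ‖(WithLp.toLp 2 y : EuclideanSpace ℝ (Fin N))‖ ^ 2 = ∑ i, y i ^ 2 := by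
    rw [EuclideanSpace.norm_sq_eq]
    refine Finset.sum_congr rfl fun i _ => ?_
    rw [Real.norm_eq_abs, sq_abs]
  rw [← e1, ← e2, ← mul_pow]
  exact pow_le_pow_left₀ (norm_nonneg _) h 2

/-- The bilinear form is bounded by the operator norm. -/
theorem abs_bil_le (A : Matrix (Fin N) (Fin N) ℝ) (x y : Fin N → ℝ) :
    |∑ i, ∑ j, x i * A i j * y j| ≤ ‖A‖ * (√(∑ i, x i ^ 2) * √(∑ i, y i ^ 2)) := by
  have e : ∑ i, ∑ j, x i * A i j * y j = ∑ i, x i * (∑ j, A i j * y j) := by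
    refine Finset.sum_congr rfl fun i _ => ?_
    rw [Finset.mul_sum]
    refine Finset.sum_congr rfl fun j _ => ?_
    ring
  have h1 := Finset.sum_mul_sq_le_sq_mul_sq Finset.univ x (fun i => ∑ j, A i j * y j)
  have h2 := sum_mulVec_sq_le A y
  rw [e]
  refine abs_le_of_sq_le_sq ?_ (by positivity)
  have hx : 0 ≤ ∑ i, x i ^ 2 := Finset.sum_nonneg fun i _ => sq_nonneg _
  have hy : 0 ≤ ∑ i, y i ^ 2 := Finset.sum_nonneg fun i _ => sq_nonneg _
  calc (∑ i, x i * ∑ j, A i j * y j) ^ 2 ≤ (∑ i, x i ^ 2) * ∑ i, (∑ j, A i j * y j) ^ 2 := h1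
    _ ≤ (∑ i, x i ^ 2) * (‖A‖ ^ 2 * ∑ i, y i ^ 2) := mul_le_mul_of_nonneg_left h2 hx
    _ = (‖A‖ * (√(∑ i, x i ^ 2) * √(∑ i, y i ^ 2))) ^ 2 := by
      rw [mul_pow, mul_pow, Real.sq_sqrt hx, Real.sq_sqrt hy]; ring

lemma sum_spin_sq (x : Fin N → Bool) : ∑ i, spin x i ^ 2 = N := by
  have : ∀ i, spin x i ^ 2 = 1 := fun i => by unfold spin; split_ifs <;> norm_num
  simp [this]

theorem abs_qf_spin_le (A : Matrix (Fin N) (Fin N) ℝ) (x : Fin N → Bool) :
    |qf A (spin x)| ≤ N * ‖A‖ := by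
  have h := abs_bil_le A (spin x) (spin x)
  rw [sum_spin_sq, Real.mul_self_sqrt (Nat.cast_nonneg N), mul_comm] at h
  exact h

theorem abs_qf_Um_le (g : Ix N → ℝ) (p : ℕ) (x : Fin N → Bool) :
    |qf (Um (Wm N g) p) (spin x)| ≤ N * om N g ^ p :=
  (abs_qf_spin_le _ x).trans (mul_le_mul_of_nonneg_left (norm_Um_le g p) (Nat.cast_nonneg N))

lemma continuous_Wm : Continuous (fun g : Ix N → ℝ => Wm N g) := by
  unfold Wm
  refine continuous_matrix fun i j => ?_
  simp only [Matrix.of_apply]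
  fun_prop

lemma continuous_om : Continuous (om N) := by
  unfold om
  exact continuous_const.add (continuous_Wm.norm)

/-- A crude bound for the norm of `W`. -/
lemma norm_Wm_le (g : Ix N → ℝ) : ‖Wm N g‖ ≤ ∑ i, ∑ j, |Wm N g i j| := by
  have h1 : Wm N g = ∑ i, ∑ j, Matrix.single i j (Wm N g i j) := Matrix.matrix_eq_sum_single _
  have h2 : ∀ i j (c : ℝ), ‖(Matrix.single i j c : Matrix (Fin N) (Fin N) ℝ)‖ ≤ |c| := by
    intro i j c
    rw [Matrix.l2_opNorm_def]
    refine ContinuousLinearMap.opNorm_le_bound _ (abs_nonneg c) fun v => ?_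
    have h3 : (Matrix.toEuclideanLin.trans LinearMap.toContinuousLinearMap)
        (Matrix.single i j c) v = WithLp.toLp 2 (Matrix.single i j c *ᵥ v.ofLp) := rfl
    have h4 : ‖(WithLp.toLp 2 (Matrix.single i j c *ᵥ v.ofLp) : EuclideanSpace ℝ (Fin N))‖ =
        |c| * |v j| := by
      rw [Matrix.single_mulVec]
      rw [EuclideanSpace.norm_eq]
      have : ∀ k, ‖(WithLp.toLp 2 (Function.update 0 i (c * v.ofLp j)) :
          EuclideanSpace ℝ (Fin N)) k‖ ^ 2 = if k = i then (c * v j) ^ 2 else 0 := by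
        intro k
        by_cases hk : k = i
        · subst hk
          simp only [Function.update_self, if_true, Real.norm_eq_abs, sq_abs]
        · simp [hk]
      simp only [this]
      rw [Finset.sum_ite_eq' Finset.univ i]
      simp [Real.sqrt_sq_eq_abs, abs_mul]
    rw [h3, h4]
    exact mul_le_mul_of_nonneg_left (by simpa using PiLp.norm_apply_le v j) (abs_nonneg c)
  calc ‖Wm N g‖ = ‖∑ i, ∑ j, Matrix.single i j (Wm N g i j)‖ := by rw [← h1]
    _ ≤ ∑ i, ∑ j, ‖(Matrix.single i j (Wm N g i j) : Matrix (Fin N) (Fin N) ℝ)‖ :=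
      (norm_sum_le _ _).trans (Finset.sum_le_sum fun i _ => norm_sum_le _ _)
    _ ≤ _ := Finset.sum_le_sum fun i _ => Finset.sum_le_sum fun j _ => h2 i j _

lemma eg_om : EG (om N) := by
  have h1 : EG (fun g : Ix N → ℝ => 1 + ∑ i, ∑ j, |Wm N g i j|) :=
    (EG.const 1).add (EG.sum _ fun i _ => EG.sum _ fun j _ => (egm_Wm i j).abs)
  refine h1.mono continuous_om.measurable fun g => ?_
  rw [abs_of_nonneg (om_nonneg g), abs_of_nonneg]
  · exact add_le_add le_rfl (norm_Wm_le g)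
  · positivity

lemma cut_nonneg (g : Ix N → ℝ) : 0 ≤ cut N g := Real.smoothTransition.nonneg _

lemma cut_le_one (g : Ix N → ℝ) : cut N g ≤ 1 := Real.smoothTransition.le_one _

lemma continuous_cut : Continuous (cut N) := by
  unfold cut
  exact Real.smoothTransition.continuous.comp (by fun_prop)

lemma eg_cut : EG (cut N) := by
  refine EG.of_bdd continuous_cut.measurable (C := 1) fun g => ?_
  rw [abs_of_nonneg (cut_nonneg g)]
  exact cut_le_one g

/-- The probability of the region where the cutoff is active. -/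
theorem int_one_sub_cut_le (hN : 0 < N) : ∫ g, (1 - cut N g) ∂(gI (Ix N)) ≤ 1 / N := by
  have hN' : (0 : ℝ) < N := by exact_mod_cast hN
  have h1 : ∀ g : Ix N → ℝ, 1 - cut N g ≤ (∑ p, g p ^ 2) / (N : ℝ) ^ 3 := by
    intro g
    have h0 : 0 ≤ (∑ p, g p ^ 2) / (N : ℝ) ^ 3 := by positivity
    by_cases h : (∑ p, g p ^ 2) / (N : ℝ) ^ 3 ≤ 1
    · have : cut N g = 1 := Real.smoothTransition.one_of_one_le (by linarith)
      rw [this]; linarith
    · push Not at h
      linarith [cut_nonneg g]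
  have e2 : ∀ p : Ix N, EG (fun g : Ix N → ℝ => g p ^ 2) := fun p => (EG.coord p).pow 2
  have h2 : ∫ g, (1 - cut N g) ∂(gI (Ix N)) ≤
      ∫ g, (∑ p, g p ^ 2) / (N : ℝ) ^ 3 ∂(gI (Ix N)) := by
    refine integral_mono ((EG.const 1).sub eg_cut).integrable ?_ h1
    exact ((EG.sum Finset.univ fun p _ => e2 p).integrable).div_const _
  refine h2.trans ?_
  rw [integral_div, integral_finsetSum _ fun p _ => (e2 p).integrable]
  have h3 : ∀ p : Ix N, ∫ g : Ix N → ℝ, g p ^ 2 ∂(gI (Ix N)) = 1 := by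
    intro p
    have h4 := integral_comp_eval (μ := fun _ : Ix N => gaussianReal 0 1) (i := p)
      (f := fun x : ℝ => x ^ 2) (by fun_prop)
    rw [show (∫ g : Ix N → ℝ, g p ^ 2 ∂(gI (Ix N))) =
      ∫ x : ℝ, x ^ 2 ∂(gaussianReal 0 1) from h4]
    have h5 := variance_id_gaussianReal (μ := 0) (v := 1)
    rw [variance_eq_integral (by fun_prop)] at h5
    simpa [integral_id_gaussianReal] using h5
  simp only [h3]
  rw [Finset.sum_const, Finset.card_univ, Fintype.card_prod, Fintype.card_fin, nsmul_eq_mul, mul_one]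
  push_cast
  rw [div_le_div_iff₀ (by positivity) hN']
  nlinarith [sq_nonneg ((N : ℝ))]

/-- Growth of the quadratic forms. -/
lemma eg_qf_Um (p : ℕ) (x : Fin N → ℝ) : EG (fun g : Ix N → ℝ => qf (Um (Wm N g) p) x) := by
  unfold qf
  exact EG.sum _ fun i _ => EG.sum _ fun j _ => ((EG.const (x i)).mul (egm_Um p i j)).mul
    (EG.const (x j))

lemma nh_qf_Um (p : ℕ) : Nh (fun (z : GI (Ix N) N K → ℝ) (x : Fin N → Bool) =>
    qf (Um (Wm N (r0 z)) p) (spin x)) := fun x => Gen.EG.r0 (eg_qf_Um p (spin x))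

lemma nh_cut_qf_Um (p : ℕ) : Nh (fun (z : GI (Ix N) N K → ℝ) (x : Fin N → Bool) =>
    cut N (r0 z) * qf (Um (Wm N (r0 z)) p) (spin x)) := fun x =>
  Gen.EG.r0 (eg_cut.mul (eg_qf_Um p (spin x)))

end Vale.Agent.P146.Sk
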