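import Vale.Agent.P146.Sk.Ibpx

/-!
# P146, module IBPW: the recursion with errors
-/

open MeasureTheory ProbabilityTheory Finset Matrix

namespace Vale.Agent.P146.Sk.Rec

set_option linter.all false

open Vale.Agent.P157 Vale.Agent.P157.Lv Vale.Agent.P157.Lv.Sy

variable {ι X : Type} [Fintype ι] [DecidableEq ι] [Fintype X] [DecidableEq X] [Nonempty X]
  {S : Sy ι X} {N : ℕ} {φ : X → Fin N → ℝ} {A : (ι → ℝ) → Matrix (Fin N) (Fin N) ℝ}
  {α : (ι → ℝ) → ℝ} {D : ι → (ι → ℝ) → X → ℝ} {g : Ix N → ι} {c : ℝ}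
  {B : Ix N → (ι → ℝ) → X → ℝ} {w : (ι → ℝ) → ℝ} {om : (ι → ℝ) → ℝ}

lemma Ex_nonneg (hS : S.Reg) {f : (ι → ℝ) → X → ℝ} (hf : Nh f) (h : ∀ z x, 0 ≤ f z x) :
    0 ≤ S.Ex f := by
  rw [← hS.Ex_const 0]
  exact hS.Ex_mono (Nh.fst (EG.const 0)) hf h

lemma er_nonneg (c : ℝ) (α w : (ι → ℝ) → ℝ) (k : ℕ) : 0 ≤ er S φ c α w k := by
  unfold er
  positivity

lemma er_top_le (c : ℝ) (α w : (ι → ℝ) → ℝ) (k : ℕ) :
    er S φ c α w (S.K + 1) ≤ er S φ c α w k := by
  unfold er vv
  rw [if_neg (by omega), Real.sqrt_zero, mul_zero, zero_add]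
  refine mul_le_mul_of_nonneg_left ?_ (Real.sqrt_nonneg _)
  have : 0 ≤ |c| * √(if k ≤ S.K then S.pairEx k fun x x' => (Rov φ x x' - S.Rl φ k) ^ 2 else 0) :=
    by positivity
  linarith

lemma p_nonneg (hS : S.Reg) {l : ℕ} (hl : l ≤ S.K) : 0 ≤ S.p l := by
  unfold Sy.p
  linarith [hS.mono l hl]

lemma sum_p_Ico (S : Sy ι X) {j : ℕ} (hj : j ≤ S.K + 1) :
    ∑ i ∈ Finset.Ico j (S.K + 1), S.p i = S.m (S.K + 1) - S.m j :=
  Finset.sum_Ico_sub S.m hj

lemma sum_p_range (hS : S.Reg) : ∑ i ∈ Finset.range (S.K + 1), S.p i = 1 := by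
  rw [Finset.range_eq_Ico, sum_p_Ico S (Nat.zero_le _), hS.mK, hS.m0, sub_zero]

/-- the error of a weighted sum -/
lemma sum_err (hS : S.Reg) {s : Finset ℕ} (hs : ∀ i ∈ s, i ≤ S.K) {f h e : ℕ → ℝ} {c : ℝ}
    (hf : ∀ i ∈ s, |f i - c * h i| ≤ e i) :
    |∑ i ∈ s, S.p i * f i - c * ∑ i ∈ s, S.p i * h i| ≤ ∑ i ∈ s, S.p i * e i := by
  rw [mul_sum, ← sum_sub_distrib]
  refine (abs_sum_le_sum_abs _ _).trans (sum_le_sum fun i hi => ?_)
  rw [show S.p i * f i - c * (S.p i * h i) = S.p i * (f i - c * h i) by ring, abs_mul,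
    abs_of_nonneg (p_nonneg hS (hs i hi))]
  exact mul_le_mul_of_nonneg_left (hf i hi) (p_nonneg hS (hs i hi))

/-- the main part of `MM` -/
noncomputable def Mh (S : Sy ι X) (φ : X → Fin N → ℝ) (A : (ι → ℝ) → Matrix (Fin N) (Fin N) ℝ)
    (j a b : ℕ) : ℝ :=
  RR S φ (min (S.K + 1) a) * TT S φ A (min (S.K + 1) b) -
    ∑ i ∈ Finset.Ico (j + 1) (S.K + 1), S.p i * (RR S φ (min i a) * TT S φ A (min i b)) -
    S.m (j + 1) * (RR S φ (min j a) * TT S φ A (min j b))

lemma MM_le (hC : Ctx S D g φ c B w) (hA : LMat S A α) {j a b : ℕ} (hj : j ≤ S.K)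
    (ha : a ≤ S.K + 1) (hb : b ≤ S.K + 1) :
    |MM S D g φ A j a b - c * Mh S φ A j a b| ≤ er S φ c α w (min (S.K + 1) a) +
      ∑ i ∈ Finset.Ico (j + 1) (S.K + 1), S.p i * er S φ c α w (min i a) +
      S.m (j + 1) * er S φ c α w (min j a) := by
  have hS := hC.reg.toReg
  have h1 := LL_le hC hA (i := S.K + 1) le_rfl ha hb
  have h2 := LL_le hC hA (i := j) (by omega) ha hb
  have h3 := sum_err hS (s := Finset.Ico (j + 1) (S.K + 1)) (fun i hi => by
    have := Finset.mem_Ico.1 hi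
    omega) (f := fun i => LL S D g φ A i a b)
    (h := fun i => RR S φ (min i a) * TT S φ A (min i b))
    (e := fun i => er S φ c α w (min i a)) (c := c) (fun i hi => LL_le hC hA (by
    have := Finset.mem_Ico.1 hi
    omega) ha hb)
  have hm : 0 ≤ S.m (j + 1) := by
    have := hS.m_pos (l := j + 1) (by omega) (by omega)
    linarith
  have h4 : |S.m (j + 1) * LL S D g φ A j a b -
      c * (S.m (j + 1) * (RR S φ (min j a) * TT S φ A (min j b)))| ≤
      S.m (j + 1) * er S φ c α w (min j a) := by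
    rw [show S.m (j + 1) * LL S D g φ A j a b -
      c * (S.m (j + 1) * (RR S φ (min j a) * TT S φ A (min j b))) = S.m (j + 1) *
      (LL S D g φ A j a b - c * (RR S φ (min j a) * TT S φ A (min j b))) by ring, abs_mul,
      abs_of_nonneg hm]
    exact mul_le_mul_of_nonneg_left h2 hm
  unfold MM Mh
  rw [abs_le] at h1 h3 h4 ⊢
  constructor
  · linarith [h1.1, h3.2, h4.2]
  · linarith [h1.2, h3.1, h4.1]

/-- the main part of the contribution of the density -/
noncomputable def Dh (S : Sy ι X) (φ : X → Fin N → ℝ) (A : (ι → ℝ) → Matrix (Fin N) (Fin N) ℝ)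
    (j : ℕ) : ℝ :=
  RR S φ (min (S.K + 1) j) * TT S φ A (min (S.K + 1) j) -
    ∑ i ∈ Finset.range (S.K + 1), S.p i * (RR S φ (min i j) * TT S φ A (min i j))

lemma DD_le (hC : Ctx S D g φ c B w) (hA : LMat S A α) {j : ℕ} (hj : j ≤ S.K + 1) :
    |(LL S D g φ A (S.K + 1) j j -
        ∑ i ∈ Finset.range (S.K + 1), S.p i * LL S D g φ A i j j) - c * Dh S φ A j| ≤
      er S φ c α w (min (S.K + 1) j) +
      ∑ i ∈ Finset.range (S.K + 1), S.p i * er S φ c α w (min i j) := by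
  have hS := hC.reg.toReg
  have h1 := LL_le hC hA (i := S.K + 1) le_rfl hj hj
  have h3 := sum_err hS (s := Finset.range (S.K + 1)) (fun i hi => by
    have := Finset.mem_range.1 hi
    omega) (f := fun i => LL S D g φ A i j j)
    (h := fun i => RR S φ (min i j) * TT S φ A (min i j))
    (e := fun i => er S φ c α w (min i j)) (c := c) (fun i hi => LL_le hC hA (by
    have := Finset.mem_range.1 hi
    omega) hj hj)
  unfold Dh
  rw [abs_le] at h1 h3 ⊢
  constructor
  · linarith [h1.1, h3.2]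
  · linarith [h1.2, h3.1]

/-- The hierarchical product with the matrix of the overlaps. -/
noncomputable def HH (S : Sy ι X) (φ : X → Fin N → ℝ) (A : (ι → ℝ) → Matrix (Fin N) (Fin N) ℝ)
    (j : ℕ) : ℝ :=
  if j ≤ S.K then
    RR S φ j * (TT S φ A (S.K + 1) -
      ∑ i ∈ Finset.Ico (j + 1) (S.K + 1), S.p i * TT S φ A i - S.m (j + 1) * TT S φ A j) +
    (1 - ∑ i ∈ Finset.Ico j (S.K + 1), S.p i * RR S φ i) * TT S φ A j -
    ∑ i ∈ Finset.range j, S.p i * (RR S φ i * TT S φ A i)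
  else TT S φ A (S.K + 1) - ∑ i ∈ Finset.range (S.K + 1), S.p i * (RR S φ i * TT S φ A i)

lemma RR_top (S : Sy ι X) (φ : X → Fin N → ℝ) : RR S φ (S.K + 1) = 1 := by
  unfold RR
  rw [if_neg (by omega)]

/-- the error at the level `j` -/
noncomputable def ej (S : Sy ι X) (φ : X → Fin N → ℝ) (c : ℝ) (α w : (ι → ℝ) → ℝ) (j : ℕ) : ℝ :=
  7 * er S φ c α w j + 2 * ∑ i ∈ Finset.range (S.K + 1), S.p i * er S φ c α w i

lemma main_le (hC : Ctx S D g φ c B w) (hA : LMat S A α) {j : ℕ} (hj : j ≤ S.K + 1) :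
    |dl S D g φ A j + (LL S D g φ A (S.K + 1) j j -
        ∑ i ∈ Finset.range (S.K + 1), S.p i * LL S D g φ A i j j) - c * HH S φ A j| ≤
      ej S φ c α w j := by
  have hS := hC.reg.toReg
  have hD := DD_le hC hA hj
  have hsig0 : 0 ≤ ∑ i ∈ Finset.range (S.K + 1), S.p i * er S φ c α w i :=
    sum_nonneg fun i hi => mul_nonneg (p_nonneg hS (Nat.lt_succ_iff.1 (Finset.mem_range.1 hi)))
      (er_nonneg _ _ _ _)
  rcases le_or_gt j S.K with hjK | hjK
  · have h1 := MM_le hC hA (a := S.K + 1) (b := j) hjK le_rfl hj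
    have h2 := MM_le hC hA (a := j) (b := S.K + 1) hjK hj le_rfl
    have e1 : Mh S φ A j (S.K + 1) j = TT S φ A j -
        ∑ i ∈ Finset.Ico (j + 1) (S.K + 1), S.p i * RR S φ i * TT S φ A j -
        S.m (j + 1) * (RR S φ j * TT S φ A j) := by
      unfold Mh
      rw [min_self, min_eq_right hj, RR_top, one_mul, min_eq_left hj, min_self]
      congr 2
      refine sum_congr rfl fun i hi => ?_
      have hi' := Finset.mem_Ico.1 hi
      rw [min_eq_left (by omega), min_eq_right (by omega)]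
      ring
    have e2 : Mh S φ A j j (S.K + 1) = RR S φ j * TT S φ A (S.K + 1) -
        RR S φ j * ∑ i ∈ Finset.Ico (j + 1) (S.K + 1), S.p i * TT S φ A i -
        S.m (j + 1) * (RR S φ j * TT S φ A j) := by
      unfold Mh
      rw [min_self, min_eq_right hj, min_eq_left hj, min_self, mul_sum]
      congr 2
      refine sum_congr rfl fun i hi => ?_
      have hi' := Finset.mem_Ico.1 hi
      rw [min_eq_right (by omega), min_eq_left (by omega)]
      ring
    have e3 : Dh S φ A j = RR S φ j * TT S φ A j -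
        (∑ i ∈ Finset.range j, S.p i * (RR S φ i * TT S φ A i) +
          (1 - S.m j) * (RR S φ j * TT S φ A j)) := by
      unfold Dh
      rw [min_eq_right hj, ← Finset.sum_range_add_sum_Ico _ hj]
      congr 2
      · refine sum_congr rfl fun i hi => ?_
        have hi' := Finset.mem_range.1 hi
        rw [min_eq_left (by omega)]
      · rw [← hS.mK, ← sum_p_Ico S hj, sum_mul]
        refine sum_congr rfl fun i hi => ?_
        have hi' := Finset.mem_Ico.1 hi
        rw [min_eq_right (by omega)]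
    have e4 : HH S φ A j = Mh S φ A j (S.K + 1) j + Mh S φ A j j (S.K + 1) + Dh S φ A j := by
      rw [e1, e2, e3]
      unfold HH
      rw [if_pos hjK, Finset.sum_eq_sum_Ico_succ_bot (by omega : j < S.K + 1), ← sum_mul]
      have : S.p j = S.m (j + 1) - S.m j := rfl
      rw [this]
      ring
    -- the errors
    have b1 : ∑ i ∈ Finset.Ico (j + 1) (S.K + 1), S.p i * er S φ c α w (min i (S.K + 1)) ≤
        ∑ i ∈ Finset.range (S.K + 1), S.p i * er S φ c α w i := by
      have : ∑ i ∈ Finset.Ico (j + 1) (S.K + 1), S.p i * er S φ c α w (min i (S.K + 1)) =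
          ∑ i ∈ Finset.Ico (j + 1) (S.K + 1), S.p i * er S φ c α w i := by
        refine sum_congr rfl fun i hi => ?_
        have hi' := Finset.mem_Ico.1 hi
        rw [min_eq_left (by omega)]
      rw [this]
      refine Finset.sum_le_sum_of_subset_of_nonneg (fun i hi => ?_) fun i hi _ => ?_
      · have hi' := Finset.mem_Ico.1 hi
        exact Finset.mem_range.2 (by omega)
      · exact mul_nonneg (p_nonneg hS (Nat.lt_succ_iff.1 (Finset.mem_range.1 hi)))
          (er_nonneg _ _ _ _)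
    have hm1 : 0 ≤ S.m (j + 1) := (hS.m_pos (l := j + 1) (by omega) (by omega)).le
    have hm2 : S.m (j + 1) ≤ 1 := hS.m_le_one (by omega)
    have hmj0 : 0 ≤ S.m j := by
      rw [← hS.m0]
      exact hS.m_mono (Nat.zero_le _) (by omega)
    have hej := er_nonneg (S := S) (φ := φ) c α w j
    have b2 : ∑ i ∈ Finset.Ico (j + 1) (S.K + 1), S.p i * er S φ c α w (min i j) ≤
        er S φ c α w j := by
      have : ∑ i ∈ Finset.Ico (j + 1) (S.K + 1), S.p i * er S φ c α w (min i j) =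
          (S.m (S.K + 1) - S.m (j + 1)) * er S φ c α w j := by
        rw [← sum_p_Ico S (by omega), sum_mul]
        refine sum_congr rfl fun i hi => ?_
        have hi' := Finset.mem_Ico.1 hi
        rw [min_eq_right (by omega)]
      rw [this, hS.mK]
      nlinarith
    have b3 : ∑ i ∈ Finset.range (S.K + 1), S.p i * er S φ c α w (min i j) ≤
        ∑ i ∈ Finset.range (S.K + 1), S.p i * er S φ c α w i + er S φ c α w j := by
      rw [← Finset.sum_range_add_sum_Ico _ hj, ← Finset.sum_range_add_sum_Ico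
        (fun i => S.p i * er S φ c α w i) hj]
      have c1 : ∑ i ∈ Finset.range j, S.p i * er S φ c α w (min i j) =
          ∑ i ∈ Finset.range j, S.p i * er S φ c α w i := by
        refine sum_congr rfl fun i hi => ?_
        have hi' := Finset.mem_range.1 hi
        rw [min_eq_left (by omega)]
      have c2 : ∑ i ∈ Finset.Ico j (S.K + 1), S.p i * er S φ c α w (min i j) =
          (S.m (S.K + 1) - S.m j) * er S φ c α w j := by
        rw [← sum_p_Ico S (by omega), sum_mul]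
        refine sum_congr rfl fun i hi => ?_
        have hi' := Finset.mem_Ico.1 hi
        rw [min_eq_right (by omega)]
      have c3 : 0 ≤ ∑ i ∈ Finset.Ico j (S.K + 1), S.p i * er S φ c α w i :=
        sum_nonneg fun i hi => mul_nonneg (p_nonneg hS (by
          have hi' := Finset.mem_Ico.1 hi
          omega)) (er_nonneg _ _ _ _)
      rw [c1, c2, hS.mK]
      nlinarith
    have b4 := er_top_le (S := S) (φ := φ) c α w j
    have b5 : S.m (j + 1) * er S φ c α w j ≤ er S φ c α w j := by nlinarith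
    rw [min_self, min_eq_left hj] at h1
    rw [min_eq_right hj, min_self] at h2
    rw [min_eq_right hj] at hD
    unfold dl ej
    rw [if_pos hjK, e4]
    rw [abs_le] at h1 h2 hD ⊢
    constructor
    · linarith [h1.1, h2.1, hD.1]
    · linarith [h1.2, h2.2, hD.2]
  · have hjK' : j = S.K + 1 := by omega
    subst hjK'
    have e1 : Dh S φ A (S.K + 1) = HH S φ A (S.K + 1) := by
      unfold Dh HH
      rw [min_self, RR_top, one_mul, if_neg (by omega)]
      congr 1
      refine sum_congr rfl fun i hi => ?_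
      have hi' := Finset.mem_range.1 hi
      rw [min_eq_left (by omega)]
    have e2 : ∑ i ∈ Finset.range (S.K + 1), S.p i * er S φ c α w (min i (S.K + 1)) =
        ∑ i ∈ Finset.range (S.K + 1), S.p i * er S φ c α w i := by
      refine sum_congr rfl fun i hi => ?_
      have hi' := Finset.mem_range.1 hi
      rw [min_eq_left (by omega)]
    rw [min_self, e1, e2] at hD
    unfold dl ej
    rw [if_neg (by omega), zero_add]
    have := er_nonneg (S := S) (φ := φ) c α w (S.K + 1)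
    linarith

/-! ### The trace terms -/

/-- normalised traces -/
noncomputable def tr (g : Ix N → ι) (s : ℕ) (z : ι → ℝ) : ℝ := 1 / N * (UU g s z).trace

/-- the error of the trace terms -/
noncomputable def ge (S : Sy ι X) (g : Ix N → ι) (om : (ι → ℝ) → ℝ) : ℕ → ℝ
  | 0 => 0
  | p + 1 => (p + 1) / N * S.Ex (fun z _ => om z ^ p) +
      ∑ s ∈ Finset.range p, √(S.Ex fun z _ => tr g (s + 1) z ^ 2) *
        √(S.Ex fun z _ => (om z ^ (p - (s + 1))) ^ 2)

/-- the quadratic form is bounded -/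
lemma quad_le (hS : S.Reg) (hN : 0 < N) (hφ : ∀ x, ∑ i, φ x i ^ 2 = N)
    {M : Matrix (Fin N) (Fin N) ℝ} {a : ℝ} (hM : OpB M a) (ha : 0 ≤ a) (j : ℕ) (z : ι → ℝ)
    (x : X) : |1 / (N : ℝ) * (yv S φ j z x ⬝ᵥ M *ᵥ yv S φ j z x)| ≤ a := by
  have hN' : (0 : ℝ) < N := by exact_mod_cast hN
  rw [abs_mul, abs_of_pos (by positivity), one_div, inv_mul_le_iff₀ hN']
  refine (hM.abs_dot_le _ _).trans ?_
  have := nv_yv (φ := φ) hS hφ j z x
  calc a * (nv (yv S φ j z x) * nv (yv S φ j z x)) = a * nv (yv S φ j z x) ^ 2 := by ring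
    _ ≤ a * N := mul_le_mul_of_nonneg_left this ha
    _ = N * a := by ring

lemma goe_le (hC : Ctx S D g φ c B w) (ho : OM g om) (p j : ℕ) :
    |1 / N * S.Ex (fun z x => ∑ e,
        Me (yv S φ j z x) (DU (WW g z) (Em N e) (p + 1) *ᵥ yv S φ j z x) e) -
      TT S φ (UU g p) j| ≤ ge S g om (p + 1) := by
  have hS := hC.reg.toReg
  have hN' : (0 : ℝ) < N := by exact_mod_cast hC.N0
  have hU : ∀ s, LMat S (UU g s) (fun z => om z ^ s) := lmat_UU hC.lev ho
  have nQ : ∀ {M : (ι → ℝ) → Matrix (Fin N) (Fin N) ℝ}, EGM M →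
      Nh (fun z x => yv S φ j z x ⬝ᵥ M z *ᵥ yv S φ j z x) := fun hM =>
    (nhv_yv hS j).dot ((nhv_yv hS j).mulVec hM)
  have eT : ∀ s, EG (tr g s : (ι → ℝ) → ℝ) := fun s => ((egm_UU g s).trace).const_mul _
  -- the identity
  have e1 : (fun z x => ∑ e,
        Me (yv S φ j z x) (DU (WW g z) (Em N e) (p + 1) *ᵥ yv S φ j z x) e) = fun z x =>
      (∑ s ∈ range (p + 1), 1 / N * (yv S φ j z x ⬝ᵥ (UU g s z * UU g (p - s) z) *ᵥ
        yv S φ j z x) + ∑ s ∈ range p, tr g (s + 1) z *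
        (yv S φ j z x ⬝ᵥ UU g (p - (s + 1)) z *ᵥ yv S φ j z x)) +
      yv S φ j z x ⬝ᵥ UU g p z *ᵥ yv S φ j z x := by
    funext z x
    have hT : (WW g z)ᵀ = WW g z := Wm_transpose _
    rw [sum_Me_DU hC.N0 hT]
    simp only [Nat.add_sub_cancel]
    rw [sum_add_distrib, sum_range_succ' (fun s => (Um (WW g z) s).trace *
      (yv S φ j z x ⬝ᵥ Um (WW g z) (p - s) *ᵥ yv S φ j z x)) p, mul_add, mul_add, mul_sum,
      mul_sum, add_assoc]
    congr 2
    · refine sum_congr rfl fun s _ => ?_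
      unfold tr UU
      ring
    · simp only [Um_zero, Matrix.trace_one, Fintype.card_fin, Nat.sub_zero]
      unfold UU
      field_simp
  have n1 : Nh (fun z x => ∑ s ∈ range (p + 1), 1 / N * (yv S φ j z x ⬝ᵥ
      (UU g s z * UU g (p - s) z) *ᵥ yv S φ j z x)) :=
    Nh.sum _ fun s _ => Nh.const_mul _ (nQ ((egm_UU g s).mul (egm_UU g (p - s))))
  have n2 : ∀ s ∈ range p, Nh (fun z x => tr g (s + 1) z *
      (yv S φ j z x ⬝ᵥ UU g (p - (s + 1)) z *ᵥ yv S φ j z x)) := fun s _ =>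
    Nh.mul (Nh.fst (eT _)) (nQ (egm_UU g _))
  have e3 : TT S φ (UU g p) j =
      1 / N * S.Ex (fun z x => yv S φ j z x ⬝ᵥ UU g p z *ᵥ yv S φ j z x) := by
    unfold TT
    congr 2
    funext z x
    rw [dotProduct_comm]
  rw [e1, hS.Ex_add (Nh.add n1 (Nh.sum _ n2)) (nQ (egm_UU g p)), hS.Ex_add n1 (Nh.sum _ n2), e3,
    mul_add, add_sub_cancel_right, mul_add]
  refine (abs_add_le _ _).trans (add_le_add ?_ ?_)
  · -- the terms without trace
    rw [abs_mul, abs_of_pos (by positivity : (0 : ℝ) < 1 / N)]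
    have h1 : |S.Ex (fun z x => ∑ s ∈ range (p + 1), 1 / N * (yv S φ j z x ⬝ᵥ
        (UU g s z * UU g (p - s) z) *ᵥ yv S φ j z x))| ≤
        S.Ex (fun z _ => (p + 1) * om z ^ p) := by
      refine (hS.abs_Ex_le n1).trans ?_
      refine hS.Ex_mono (Nh.abs n1) (Nh.const_mul _ (Nh.fst (ho.eg.pow p))) fun z x => ?_
      refine (abs_sum_le_sum_abs _ _).trans ?_
      have h2 : ∀ s ∈ range (p + 1), |1 / (N : ℝ) * (yv S φ j z x ⬝ᵥ
          (UU g s z * UU g (p - s) z) *ᵥ yv S φ j z x)| ≤ om z ^ p := by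
        intro s hs
        have hs' := Finset.mem_range.1 hs
        have h3 := ((hU s).op z).mul ((hU s).nn z) ((hU (p - s)).op z)
        rw [← pow_add, show s + (p - s) = p by omega] at h3
        exact quad_le hS hC.N0 hC.norm h3 ((hU p).nn z) j z x
      refine (sum_le_sum h2).trans (le_of_eq ?_)
      rw [sum_const, card_range, nsmul_eq_mul]
      push_cast
      ring
    rw [Sy.Ex_const_mul] at h1
    calc 1 / (N : ℝ) * |S.Ex (fun z x => ∑ s ∈ range (p + 1), 1 / N * (yv S φ j z x ⬝ᵥ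
        (UU g s z * UU g (p - s) z) *ᵥ yv S φ j z x))| ≤
        1 / N * ((p + 1) * S.Ex (fun z _ => om z ^ p)) :=
          mul_le_mul_of_nonneg_left h1 (by positivity)
      _ = _ := by ring
  · rw [hS.Ex_sum _ n2, mul_sum]
    refine (abs_sum_le_sum_abs _ _).trans (sum_le_sum fun s _ => ?_)
    rw [← Sy.Ex_const_mul]
    have e2 : (fun z x => 1 / (N : ℝ) * (tr g (s + 1) z *
        (yv S φ j z x ⬝ᵥ UU g (p - (s + 1)) z *ᵥ yv S φ j z x))) = fun z x =>
        tr g (s + 1) z * (1 / N * (yv S φ j z x ⬝ᵥ UU g (p - (s + 1)) z *ᵥ yv S φ j z x)) := by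
      funext z x
      ring
    rw [e2]
    have n3 : Nh (fun z x => 1 / (N : ℝ) * (yv S φ j z x ⬝ᵥ UU g (p - (s + 1)) z *ᵥ
        yv S φ j z x)) := Nh.const_mul _ (nQ (egm_UU g _))
    refine (Ex_abs_cs hS (Nh.fst (eT _)) n3).trans ?_
    refine mul_le_mul_of_nonneg_left (Real.sqrt_le_sqrt ?_) (Real.sqrt_nonneg _)
    refine hS.Ex_mono (Nh.pow n3 2) (Nh.fst ((hU _).ega.pow 2)) fun z x => ?_
    rw [← sq_abs]
    exact pow_le_pow_left₀ (abs_nonneg _) (quad_le hS hC.N0 hC.norm ((hU _).op z)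
      ((hU _).nn z) j z x) 2

/-- **The recursion.** -/
theorem rec_le (hC : Ctx S D g φ c B w) (ho : OM g om) (p : ℕ) {j : ℕ} (hj : j ≤ S.K + 1) :
    |TT S φ (UU g (p + 1)) j - c * HH S φ (UU g p) j| ≤
      ej S φ c (fun z => om z ^ p) w j + ge S g om p := by
  have hS := hC.reg.toReg
  have nQ : ∀ {M : (ι → ℝ) → Matrix (Fin N) (Fin N) ℝ}, EGM M →
      Nh (fun z x => yv S φ j z x ⬝ᵥ M z *ᵥ yv S φ j z x) := fun hM =>
    (nhv_yv hS j).dot ((nhv_yv hS j).mulVec hM)
  have eTT : ∀ s, TT S φ (UU g s) j =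
      1 / N * S.Ex (fun z x => yv S φ j z x ⬝ᵥ UU g s z *ᵥ yv S φ j z x) := by
    intro s
    unfold TT
    congr 2
    funext z x
    rw [dotProduct_comm]
  have h1 := exact_id hC p hj
  have h2 := main_le hC (lmat_UU hC.lev ho p) hj
  match p with
  | 0 =>
    have e1 : (fun z x => yv S φ j z x ⬝ᵥ WW g z *ᵥ (UU g 0 z *ᵥ yv S φ j z x)) =
        fun z x => yv S φ j z x ⬝ᵥ UU g (0 + 1) z *ᵥ yv S φ j z x := by
      funext z x
      unfold UU
      rw [Um_zero, one_mulVec, zero_add, Um_one]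
    have e2 : (fun z x => ∑ e, Me (yv S φ j z x)
        (DU (WW g z) (Em N e) 0 *ᵥ yv S φ j z x) e) = fun (_ : ι → ℝ) (_ : X) => (0 : ℝ) := by
      funext z x
      refine sum_eq_zero fun e _ => ?_
      simp [DU, Me]
    rw [e1, ← eTT, e2, hS.Ex_const, mul_zero, add_zero] at h1
    rw [h1]
    unfold ge
    rw [add_zero]
    exact h2
  | p + 1 =>
    have e1 : (fun z x => yv S φ j z x ⬝ᵥ WW g z *ᵥ (UU g (p + 1) z *ᵥ yv S φ j z x)) =
        fun z x => yv S φ j z x ⬝ᵥ UU g (p + 1 + 1) z *ᵥ yv S φ j z x +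
          yv S φ j z x ⬝ᵥ UU g p z *ᵥ yv S φ j z x := by
      funext z x
      unfold UU
      rw [mulVec_mulVec, mul_Um_succ, add_mulVec, dotProduct_add]
    rw [e1, hS.Ex_add (nQ (egm_UU g _)) (nQ (egm_UU g _)), mul_add, ← eTT, ← eTT] at h1
    have h3 := goe_le hC ho p j
    rw [abs_le] at h2 h3 ⊢
    constructor
    · linarith [h2.1, h3.1]
    · linarith [h2.2, h3.2]

end Vale.Agent.P146.Sk.Rec
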