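import Vale.Agent.P146.Sk.Goe

/-!
# P146, module IBPW: linear algebra of the symmetric product of two vectors
-/

open Finset Matrix

namespace Vale.Agent.P146.Sk

set_option linter.all false

variable {N : ℕ}

/-- The symmetric product of two vectors, normalised as the derivative of `u ⬝ W v`. -/
noncomputable def Me (u v : Fin N → ℝ) (e : Ix N) : ℝ :=
  (u e.1 * v e.2 + u e.2 * v e.1) / √(2 * (N : ℝ))

/-- The Euclidean norm. -/
noncomputable def nv (v : Fin N → ℝ) : ℝ := ‖(WithLp.toLp 2 v : EuclideanSpace ℝ (Fin N))‖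

lemma nv_nonneg (v : Fin N → ℝ) : 0 ≤ nv v := norm_nonneg _

lemma nv_sq (v : Fin N → ℝ) : nv v ^ 2 = ∑ i, v i ^ 2 := by
  unfold nv
  rw [EuclideanSpace.norm_sq_eq]
  simp

lemma dot_self_eq (v : Fin N → ℝ) : v ⬝ᵥ v = nv v ^ 2 := by
  rw [nv_sq, dotProduct]
  exact sum_congr rfl fun i _ => by ring

lemma nv_add_le (u v : Fin N → ℝ) : nv (u + v) ≤ nv u + nv v := by
  unfold nv
  rw [WithLp.toLp_add]
  exact norm_add_le _ _

lemma nv_sub_le (u v : Fin N → ℝ) : nv (u - v) ≤ nv u + nv v := by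
  unfold nv
  rw [WithLp.toLp_sub]
  exact norm_sub_le _ _

lemma abs_dot_le (u v : Fin N → ℝ) : |u ⬝ᵥ v| ≤ nv u * nv v := by
  have h := abs_real_inner_le_norm (WithLp.toLp 2 u : EuclideanSpace ℝ (Fin N)) (WithLp.toLp 2 v)
  have e : inner ℝ (WithLp.toLp 2 u : EuclideanSpace ℝ (Fin N)) (WithLp.toLp 2 v) = u ⬝ᵥ v := by
    rw [EuclideanSpace.inner_toLp_toLp]
    simp [dotProduct, mul_comm]
  rw [e] at h
  exact h

/-- bounded operators -/
def OpB (A : Matrix (Fin N) (Fin N) ℝ) (c : ℝ) : Prop := ∀ v, nv (A *ᵥ v) ≤ c * nv v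

lemma OpB.mono {A : Matrix (Fin N) (Fin N) ℝ} {c d : ℝ} (h : OpB A c) (hc : c ≤ d) : OpB A d :=
  fun v => (h v).trans (mul_le_mul_of_nonneg_right hc (nv_nonneg v))

lemma OpB.mul {A B : Matrix (Fin N) (Fin N) ℝ} {c d : ℝ} (hc : 0 ≤ c) (hA : OpB A c)
    (hB : OpB B d) : OpB (A * B) (c * d) := fun v => by
  rw [← mulVec_mulVec, mul_assoc]
  exact (hA _).trans (mul_le_mul_of_nonneg_left (hB v) hc)

lemma OpB.sub {A B : Matrix (Fin N) (Fin N) ℝ} {c d : ℝ} (hA : OpB A c)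
    (hB : OpB B d) : OpB (A - B) (c + d) := fun v => by
  rw [sub_mulVec, add_mul]
  exact (nv_sub_le _ _).trans (add_le_add (hA v) (hB v))

lemma OpB.one : OpB (1 : Matrix (Fin N) (Fin N) ℝ) 1 := fun v => by
  rw [one_mulVec, one_mul]

lemma OpB.um {W : Matrix (Fin N) (Fin N) ℝ} {w : ℝ} (h0 : 0 ≤ w) (hW : OpB W w) (p : ℕ) :
    OpB (Um W p) ((1 + w) ^ p) := by
  induction p using Nat.strong_induction_on with
  | _ p ih =>
    match p with
    | 0 => simpa using OpB.one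
    | 1 => exact OpB.mono hW (by linarith)
    | p + 2 =>
      rw [Um_add_two]
      have h1 := (hW.mul h0 (ih (p + 1) (by omega))).sub (ih p (by omega))
      refine h1.mono ?_
      have h2 : (1 + w) ^ p ≤ (1 + w) ^ (p + 1) := pow_le_pow_right₀ (by linarith) (by omega)
      calc w * (1 + w) ^ (p + 1) + (1 + w) ^ p ≤ w * (1 + w) ^ (p + 1) + (1 + w) ^ (p + 1) := by
            linarith
        _ = (1 + w) ^ (p + 2) := by ring

lemma OpB.abs_dot_le {A : Matrix (Fin N) (Fin N) ℝ} {c : ℝ} (hA : OpB A c) (u v : Fin N → ℝ) :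
    |u ⬝ᵥ A *ᵥ v| ≤ c * (nv u * nv v) := by
  refine (Sk.abs_dot_le u _).trans ?_
  calc nv u * nv (A *ᵥ v) ≤ nv u * (c * nv v) := mul_le_mul_of_nonneg_left (hA v) (nv_nonneg u)
    _ = _ := by ring

lemma sum_Me_z (z : Ix N → ℝ) (u v : Fin N → ℝ) :
    ∑ e, z e * Me u v e = u ⬝ᵥ Wm N z *ᵥ v := by
  rw [Fintype.sum_prod_type]
  have h1 : ∀ a b : Fin N, z (a, b) * Me u v (a, b) =
      (z (a, b) * (u a * v b)) / √(2 * (N : ℝ)) + (z (a, b) * (u b * v a)) / √(2 * (N : ℝ)) := by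
    intro a b
    simp only [Me]
    ring
  simp only [h1, sum_add_distrib]
  rw [sum_comm (f := fun a b => (z (a, b) * (u b * v a)) / √(2 * (N : ℝ)))]
  rw [← sum_add_distrib]
  simp only [dotProduct, mulVec, Wm, Matrix.of_apply, mul_sum]
  refine sum_congr rfl fun a _ => ?_
  rw [← sum_add_distrib]
  refine sum_congr rfl fun b _ => ?_
  ring

lemma sqrt_mul_sqrt_two (hN : 0 < N) : √(2 * (N : ℝ)) * √(2 * (N : ℝ)) = 2 * N := by
  have : (0 : ℝ) < N := by exact_mod_cast hN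
  exact Real.mul_self_sqrt (by positivity)

lemma sum_prod_dot (u v x y : Fin N → ℝ) :
    ∑ a : Fin N, ∑ b : Fin N, (u a * v b) * (x a * y b) = (u ⬝ᵥ x) * (v ⬝ᵥ y) := by
  simp only [dotProduct]
  rw [sum_mul_sum]
  exact sum_congr rfl fun a _ => sum_congr rfl fun b _ => by ring

lemma sum_Me_mul (hN : 0 < N) (u v x : Fin N → ℝ) :
    ∑ e : Ix N, Me u v e * (x e.1 * x e.2 / √(2 * (N : ℝ))) =
      1 / N * ((u ⬝ᵥ x) * (v ⬝ᵥ x)) := by
  have hN' : (0 : ℝ) < N := by exact_mod_cast hN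
  rw [Fintype.sum_prod_type]
  have h1 : ∀ a b : Fin N, Me u v (a, b) * (x a * x b / √(2 * (N : ℝ))) =
      1 / (2 * N) * ((u a * v b) * (x a * x b)) + 1 / (2 * N) * ((v a * u b) * (x a * x b)) := by
    intro a b
    simp only [Me]
    rw [div_mul_div_comm, sqrt_mul_sqrt_two hN]
    field_simp
  simp only [h1, sum_add_distrib, ← mul_sum, sum_prod_dot]
  field_simp
  ring

lemma sum_Me_sq (hN : 0 < N) (u v : Fin N → ℝ) :
    ∑ e : Ix N, Me u v e ^ 2 ≤ 2 / N * (nv u ^ 2 * nv v ^ 2) := by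
  have hN' : (0 : ℝ) < N := by exact_mod_cast hN
  rw [Fintype.sum_prod_type]
  have h1 : ∀ a b : Fin N, Me u v (a, b) ^ 2 ≤
      1 / N * ((u a * v b) * (u a * v b)) + 1 / N * ((v a * u b) * (v a * u b)) := by
    intro a b
    simp only [Me]
    rw [div_pow, Real.sq_sqrt (by positivity), div_le_iff₀ (by positivity)]
    have e : (1 / (N : ℝ) * ((u a * v b) * (u a * v b)) + 1 / N * ((v a * u b) * (v a * u b))) *
        (2 * N) = 2 * ((u a * v b) ^ 2 + (v a * u b) ^ 2) := by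
      field_simp
    rw [e]
    nlinarith [sq_nonneg (u a * v b - v a * u b)]
  refine (sum_le_sum fun a _ => sum_le_sum fun b _ => h1 a b).trans (le_of_eq ?_)
  simp only [sum_add_distrib, ← mul_sum, sum_prod_dot, dot_self_eq]
  ring

lemma sum_Me_DU (hN : 0 < N) {W : Matrix (Fin N) (Fin N) ℝ} (hW : Wᵀ = W) (y : Fin N → ℝ)
    (p : ℕ) : ∑ e : Ix N, Me y (DU W (Em N e) p *ᵥ y) e =
      1 / N * ∑ s ∈ range p, (y ⬝ᵥ (Um W s * Um W (p - 1 - s)) *ᵥ y +
        (Um W s).trace * (y ⬝ᵥ Um W (p - 1 - s) *ᵥ y)) := by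
  have hN' : (0 : ℝ) < N := by exact_mod_cast hN
  -- the symmetrization
  have h1 : ∀ e : Ix N, Me y (DU W (Em N e) p *ᵥ y) e =
      ∑ s ∈ range p, Me y ((Um W s * Em N e * Um W (p - 1 - s)) *ᵥ y) e := by
    intro e
    rw [DU_eq]
    simp only [Me, sum_mulVec, Finset.sum_apply, mul_sum, ← sum_add_distrib, sum_div]
  simp only [h1]
  rw [sum_comm, mul_sum]
  refine sum_congr rfl fun s _ => ?_
  set A := Um W s with hA
  set B := Um W (p - 1 - s) with hB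
  have hAT : Aᵀ = A := Um_transpose hW s
  have h2 : ∀ (e : Ix N) (i : Fin N), ((A * Em N e * B) *ᵥ y) i =
      (A i e.1 * (B *ᵥ y) e.2 + A i e.2 * (B *ᵥ y) e.1) / √(2 * (N : ℝ)) := by
    intro e i
    simp only [mulVec, dotProduct, mul_Em_mul, mul_sum, ← sum_add_distrib, sum_div]
    exact sum_congr rfl fun j _ => by ring
  rw [Fintype.sum_prod_type]
  have h3 : ∀ a b : Fin N, Me y ((A * Em N (a, b) * B) *ᵥ y) (a, b) =
      1 / (2 * N) * (y a * A b a * (B *ᵥ y) b + y a * (B *ᵥ y) a * A b b) +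
      1 / (2 * N) * (y b * A a b * (B *ᵥ y) a + y b * (B *ᵥ y) b * A a a) := by
    intro a b
    simp only [Me, h2]
    rw [mul_div_assoc', mul_div_assoc', ← add_div, div_div, sqrt_mul_sqrt_two hN]
    field_simp
    ring
  simp only [h3, sum_add_distrib, ← mul_sum]
  have h4 : ∑ a : Fin N, ∑ b : Fin N, y a * A b a * (B *ᵥ y) b = y ⬝ᵥ (A * B) *ᵥ y := by
    rw [← mulVec_mulVec]
    simp only [dotProduct, mulVec, mul_sum]
    refine sum_congr rfl fun a _ => sum_congr rfl fun b _ => ?_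
    rw [show A b a = A a b from congrFun (congrFun hAT a) b]
    exact sum_congr rfl fun c _ => by ring
  have h5 : ∑ a : Fin N, y a * (B *ᵥ y) a * ∑ b, A b b = A.trace * (y ⬝ᵥ B *ᵥ y) := by
    rw [← sum_mul, mul_comm]
    rfl
  have h5' : ∑ a : Fin N, ∑ b : Fin N, y a * (B *ᵥ y) a * A b b = A.trace * (y ⬝ᵥ B *ᵥ y) := by
    rw [← h5]
    exact sum_congr rfl fun a _ => (mul_sum _ _ _).symm
  have h6 : ∑ a : Fin N, ∑ b : Fin N, y b * A a b * (B *ᵥ y) a = y ⬝ᵥ (A * B) *ᵥ y := by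
    rw [← h4]
    exact sum_comm
  have h7 : ∑ a : Fin N, ∑ b : Fin N, y b * (B *ᵥ y) b * A a a = A.trace * (y ⬝ᵥ B *ᵥ y) := by
    rw [← h5']
    exact sum_comm
  rw [h4, h5, h6, h7]
  field_simp
  ring

end Vale.Agent.P146.Sk
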