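import Mathlib

/-!
# P146, module GOE/VAR: Chebyshev polynomials of the second kind of a square matrix
-/

open Finset Matrix

namespace Vale.Agent.P146.Sk

set_option linter.all false

variable {N : ℕ}

/-- `U_0 = 1`, `U_1 = W`, `U_{p+2} = W U_{p+1} - U_p`. -/
def Um (W : Matrix (Fin N) (Fin N) ℝ) : ℕ → Matrix (Fin N) (Fin N) ℝ
  | 0 => 1
  | 1 => W
  | p + 2 => W * Um W (p + 1) - Um W p

@[simp] lemma Um_zero (W : Matrix (Fin N) (Fin N) ℝ) : Um W 0 = 1 := rfl
@[simp] lemma Um_one (W : Matrix (Fin N) (Fin N) ℝ) : Um W 1 = W := rfl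
lemma Um_add_two (W : Matrix (Fin N) (Fin N) ℝ) (p : ℕ) :
    Um W (p + 2) = W * Um W (p + 1) - Um W p := rfl

lemma mul_Um_succ (W : Matrix (Fin N) (Fin N) ℝ) (p : ℕ) :
    W * Um W (p + 1) = Um W (p + 2) + Um W p := by
  rw [Um_add_two]; abel

lemma Um_comm_W (W : Matrix (Fin N) (Fin N) ℝ) (p : ℕ) : W * Um W p = Um W p * W := by
  induction p using Nat.strong_induction_on with
  | _ p ih =>
    match p with
    | 0 => simp
    | 1 => simp
    | p + 2 =>
      rw [Um_add_two, mul_sub, sub_mul, ih p (by omega), mul_assoc W (Um W (p + 1)) W,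
        ← ih (p + 1) (by omega)]

lemma Um_transpose {W : Matrix (Fin N) (Fin N) ℝ} (hW : Wᵀ = W) (p : ℕ) :
    (Um W p)ᵀ = Um W p := by
  induction p using Nat.strong_induction_on with
  | _ p ih =>
    match p with
    | 0 => simp
    | 1 => simpa using hW
    | p + 2 =>
      rw [Um_add_two, transpose_sub, transpose_mul, ih p (by omega), ih (p + 1) (by omega), hW,
        ← Um_comm_W]

/-- the product formula -/
theorem Um_mul (W : Matrix (Fin N) (Fin N) ℝ) (a b : ℕ) (hab : a ≤ b) :
    Um W a * Um W b = ∑ j ∈ range (a + 1), Um W (b - a + 2 * j) := by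
  induction a using Nat.strong_induction_on generalizing b with
  | _ a ih =>
    match a with
    | 0 => simp
    | 1 =>
      obtain ⟨c, rfl⟩ : ∃ c, b = c + 1 := ⟨b - 1, by omega⟩
      rw [Um_one, mul_Um_succ, sum_range_succ, sum_range_one, add_comm]
      congr 1
    | a + 2 =>
      have h1 := ih (a + 1) (by omega) b (by omega)
      have h0 := ih a (by omega) b (by omega)
      rw [Um_add_two, sub_mul, mul_assoc, h1, h0, mul_sum]
      have h2 : ∀ j ∈ range (a + 1 + 1), W * Um W (b - (a + 1) + 2 * j) =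
          Um W (b - a + 2 * j) + Um W (b - (a + 2) + 2 * j) := by
        intro j _
        obtain ⟨c, hc⟩ : ∃ c, b = a + 2 + c := ⟨b - (a + 2), by omega⟩
        have e1 : b - (a + 1) + 2 * j = (c + 2 * j) + 1 := by omega
        have e2 : b - a + 2 * j = (c + 2 * j) + 2 := by omega
        have e3 : b - (a + 2) + 2 * j = c + 2 * j := by omega
        rw [e1, e2, e3, mul_Um_succ]
      rw [sum_congr rfl h2, sum_add_distrib, sum_range_succ (n := a + 1),
        sum_range_succ (fun j => Um W (b - (a + 2) + 2 * j)) (a + 2)]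
      have e4 : b - a + 2 * (a + 1) = b - (a + 2) + 2 * (a + 2) := by omega
      rw [e4]
      abel

lemma Um_commute (W : Matrix (Fin N) (Fin N) ℝ) (a b : ℕ) : Um W a * Um W b = Um W b * Um W a := by
  induction a using Nat.strong_induction_on with
  | _ a ih =>
    match a with
    | 0 => simp
    | 1 => simpa using Um_comm_W W b
    | a + 2 =>
      rw [Um_add_two, sub_mul, mul_sub, ih a (by omega), mul_assoc, ih (a + 1) (by omega),
        ← mul_assoc, Um_comm_W, mul_assoc]

/-- the derivative of `U_p` in the direction `F` -/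
def DU (W F : Matrix (Fin N) (Fin N) ℝ) : ℕ → Matrix (Fin N) (Fin N) ℝ
  | 0 => 0
  | 1 => F
  | p + 2 => F * Um W (p + 1) + W * DU W F (p + 1) - DU W F p

theorem DU_eq (W F : Matrix (Fin N) (Fin N) ℝ) (p : ℕ) :
    DU W F p = ∑ s ∈ range p, Um W s * F * Um W (p - 1 - s) := by
  induction p using Nat.strong_induction_on with
  | _ p ih =>
    match p with
    | 0 => simp [DU]
    | 1 => simp [DU]
    | p + 2 =>
      have h1 := ih (p + 1) (by omega)
      have h0 := ih p (by omega)
      rw [DU, h1, h0, mul_sum]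
      rw [sum_range_succ' (fun s => W * (Um W s * F * Um W (p + 1 - 1 - s))) p]
      rw [sum_range_succ' (fun s => Um W s * F * Um W (p + 2 - 1 - s)) (p + 1),
        sum_range_succ' (fun s => Um W (s + 1) * F * Um W (p + 2 - 1 - (s + 1))) p]
      have h2 : ∀ s ∈ range p, W * (Um W (s + 1) * F * Um W (p + 1 - 1 - (s + 1))) =
          Um W (s + 1 + 1) * F * Um W (p + 2 - 1 - (s + 1 + 1)) +
            Um W s * F * Um W (p - 1 - s) := by
        intro s hs
        rw [mem_range] at hs
        have e1 : p + 1 - 1 - (s + 1) = p - 1 - s := by omega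
        have e2 : p + 2 - 1 - (s + 1 + 1) = p - 1 - s := by omega
        rw [e1, e2, ← mul_assoc, ← mul_assoc, mul_Um_succ, add_mul, add_mul]
      rw [sum_congr rfl h2, sum_add_distrib]
      simp only [Um_zero, one_mul, Um_one, zero_add, add_tsub_cancel_right, tsub_zero]
      have e3 : p + 2 - 1 = p + 1 := by omega
      rw [e3]
      simp only [Nat.add_sub_cancel]
      rw [← mul_assoc]
      abel

end Vale.Agent.P146.Sk
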