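import Vale.Agent.P146.Sk.Tp

/-!
# P146, module GOE: `L²` convergence of the normalized traces
-/

open MeasureTheory ProbabilityTheory Finset Matrix Filter Topology Polynomial

namespace Vale.Agent.P146.Sk

open Vale.Agent.P157.Lv

set_option linter.all false

/-- `L²` convergence to a constant -/
structure L2c (f : ∀ N : ℕ, (Ix N → ℝ) → ℝ) (a : ℝ) : Prop where
  eg : ∀ N, EG (f N)
  lim : Tendsto (fun N => ∫ z, (f N z - a) ^ 2 ∂(gI (Ix N))) atTop (𝓝 0)

variable {f g : ∀ N : ℕ, (Ix N → ℝ) → ℝ} {a b : ℝ}

lemma L2c.add (hf : L2c f a) (hg : L2c g b) : L2c (fun N z => f N z + g N z) (a + b) := by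
  refine ⟨fun N => (hf.eg N).add (hg.eg N), ?_⟩
  have h1 := (hf.lim.const_mul 2).add (hg.lim.const_mul 2)
  simp only [mul_zero, add_zero] at h1
  refine squeeze_zero (fun N => integral_nonneg fun z => sq_nonneg _) (fun N => ?_) h1
  rw [← integral_const_mul, ← integral_const_mul, ← integral_add]
  · refine integral_mono ((((hf.eg N).add (hg.eg N)).sub (EG.const _)).pow 2).integrable
      (((((hf.eg N).sub (EG.const _)).pow 2).const_mul 2).add
        ((((hg.eg N).sub (EG.const _)).pow 2).const_mul 2)).integrable fun z => ?_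
    simp only
    nlinarith [sq_nonneg ((f N z - a) - (g N z - b))]
  · exact ((((hf.eg N).sub (EG.const _)).pow 2).const_mul 2).integrable
  · exact ((((hg.eg N).sub (EG.const _)).pow 2).const_mul 2).integrable

lemma L2c.const_mul (hf : L2c f a) (c : ℝ) : L2c (fun N z => c * f N z) (c * a) := by
  refine ⟨fun N => (hf.eg N).const_mul c, ?_⟩
  have h1 := hf.lim.const_mul (c ^ 2)
  rw [mul_zero] at h1
  refine h1.congr fun N => ?_
  rw [← integral_const_mul]
  congr 1
  funext z
  ring

lemma L2c.const (c : ℝ) : L2c (fun N _ => c) c := by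
  refine ⟨fun N => EG.const c, ?_⟩
  simp

lemma L2c.sub (hf : L2c f a) (hg : L2c g b) : L2c (fun N z => f N z - g N z) (a - b) := by
  have h := hf.add (hg.const_mul (-1))
  have e1 : (fun (N : ℕ) (z : Ix N → ℝ) => f N z + -1 * g N z) = fun N z => f N z - g N z := by
    funext N z; ring
  rw [e1] at h
  have e2 : a + -1 * b = a - b := by ring
  rwa [e2] at h

lemma L2c.sum {κ : Type*} (s : Finset κ) {f : κ → ∀ N : ℕ, (Ix N → ℝ) → ℝ} {a : κ → ℝ}
    (h : ∀ k ∈ s, L2c (f k) (a k)) : L2c (fun N z => ∑ k ∈ s, f k N z) (∑ k ∈ s, a k) := by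
  classical
  induction s using Finset.induction_on with
  | empty => simpa using L2c.const 0
  | insert k s hk ih =>
    simp only [Finset.sum_insert hk]
    exact (h k (Finset.mem_insert_self _ _)).add
      (ih fun j hj => h j (Finset.mem_insert_of_mem hj))

/-- expectations of products converge -/
lemma L2c.mul_int (hf : L2c f a) (hg : L2c g b) :
    Tendsto (fun N => ∫ z, f N z * g N z ∂(gI (Ix N))) atTop (𝓝 (a * b)) := by
  have key : ∀ {f : ∀ N : ℕ, (Ix N → ℝ) → ℝ} {a : ℝ}, L2c f a →
      Tendsto (fun N => ∫ z, |f N z - a| ∂(gI (Ix N))) atTop (𝓝 0) := by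
    intro f a hf
    have h1 : Tendsto (fun N => √(∫ z, (f N z - a) ^ 2 ∂(gI (Ix N)))) atTop (𝓝 0) := by
      have := (Real.continuous_sqrt.tendsto 0).comp hf.lim
      rwa [Real.sqrt_zero] at this
    exact squeeze_zero (fun N => integral_nonneg fun z => abs_nonneg _)
      (fun N => Sy.cc_abs_le ((hf.eg N).sub (EG.const a)) le_rfl) h1
  rw [tendsto_iff_norm_sub_tendsto_zero]
  have h1 : Tendsto (fun N => (∫ z, (f N z - a) ^ 2 ∂(gI (Ix N))) +
      (∫ z, (g N z - b) ^ 2 ∂(gI (Ix N))) + (|b| * (∫ z, |f N z - a| ∂(gI (Ix N))) +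
      |a| * ∫ z, |g N z - b| ∂(gI (Ix N)))) atTop (𝓝 0) := by
    have := (hf.lim.add hg.lim).add (((key hf).const_mul |b|).add ((key hg).const_mul |a|))
    simpa using this
  refine squeeze_zero (fun N => norm_nonneg _) (fun N => ?_) h1
  have ef := (hf.eg N).sub (EG.const a)
  have eg := (hg.eg N).sub (EG.const b)
  have h2 : (∫ z, f N z * g N z ∂(gI (Ix N))) - a * b =
      ∫ z, (f N z * g N z - a * b) ∂(gI (Ix N)) := by
    rw [integral_sub ((hf.eg N).mul (hg.eg N)).integrable (integrable_const _), integral_const,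
      probReal_univ, one_smul]
  rw [h2, Real.norm_eq_abs]
  refine abs_integral_le_integral_abs.trans ?_
  have h3 : ∫ z, |f N z * g N z - a * b| ∂(gI (Ix N)) ≤
      ∫ z, (((f N z - a) ^ 2 + (g N z - b) ^ 2) + (|b| * |f N z - a| + |a| * |g N z - b|))
        ∂(gI (Ix N)) := by
    refine integral_mono (((hf.eg N).mul (hg.eg N)).sub (EG.const _)).abs.integrable
      (((ef.pow 2).add (eg.pow 2)).add ((ef.abs.const_mul _).add (eg.abs.const_mul _))).integrable
      fun z => ?_
    simp only
    have e1 : f N z * g N z - a * b = (f N z - a) * (g N z - b) + (b * (f N z - a) +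
      a * (g N z - b)) := by ring
    rw [e1]
    refine (abs_add_le _ _).trans (add_le_add ?_ ((abs_add_le _ _).trans ?_))
    · rw [abs_mul]
      nlinarith [sq_abs (f N z - a), sq_abs (g N z - b), sq_nonneg (|f N z - a| - |g N z - b|),
        abs_nonneg (f N z - a), abs_nonneg (g N z - b)]
    · rw [abs_mul, abs_mul]
  refine h3.trans (le_of_eq ?_)
  rw [integral_add ((ef.pow 2).add (eg.pow 2)).integrable
    ((ef.abs.const_mul _).add (eg.abs.const_mul _)).integrable,
    integral_add (ef.pow 2).integrable (eg.pow 2).integrable,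
    integral_add (ef.abs.const_mul _).integrable (eg.abs.const_mul _).integrable,
    integral_const_mul, integral_const_mul]

lemma L2c.int (hf : L2c f a) : Tendsto (fun N => ∫ z, f N z ∂(gI (Ix N))) atTop (𝓝 a) := by
  have h := hf.mul_int (L2c.const 1)
  simpa using h

/-- from the convergence of the variance and of the mean -/
lemma L2c.of_mean (he : ∀ N, EG (f N))
    (hv : Tendsto (fun N => ∫ z, (f N z - ∫ w, f N w ∂(gI (Ix N))) ^ 2 ∂(gI (Ix N))) atTop (𝓝 0))
    (hm : Tendsto (fun N => ∫ z, f N z ∂(gI (Ix N))) atTop (𝓝 a)) : L2c f a := by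
  refine ⟨he, ?_⟩
  have h1 : Tendsto (fun N => (∫ z, (f N z - ∫ w, f N w ∂(gI (Ix N))) ^ 2 ∂(gI (Ix N))) +
      ((∫ z, f N z ∂(gI (Ix N))) - a) ^ 2) atTop (𝓝 0) := by
    have := hv.add ((hm.sub_const a).pow 2)
    simpa using this
  refine h1.congr fun N => ?_
  obtain ⟨m, hm⟩ : ∃ m, m = ∫ z, f N z ∂(gI (Ix N)) := ⟨_, rfl⟩
  rw [← hm]
  have h2 : ∀ z, (f N z - a) ^ 2 = (f N z - m) ^ 2 + (2 * (m - a) * (f N z - m) + (m - a) ^ 2) := by
    intro z; ring
  simp only [h2]
  have e1 := (he N).sub (EG.const m)
  rw [integral_add (e1.pow 2).integrable ((e1.const_mul _).add (EG.const _)).integrable,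
    integral_add (e1.const_mul _).integrable (EG.const _).integrable, integral_const_mul,
    integral_sub (he N).integrable (integrable_const _), ← hm]
  simp

theorem tau_conv (p : ℕ) : L2c (fun N => tp N (Sp p)) (if p = 0 then 1 else 0) := by
  have hv : ∀ p, Tendsto (fun N : ℕ => ∫ z, (tp N (Sp p) z - ∫ w, tp N (Sp p) w ∂(gI (Ix N))) ^ 2
      ∂(gI (Ix N))) atTop (𝓝 0) := by
    intro p
    obtain ⟨C, hC, h⟩ := var_tp p
    have h1 : Tendsto (fun N : ℕ => C / (N : ℝ) ^ 2) atTop (𝓝 0) :=
      tendsto_const_nhds.div_atTop ((tendsto_pow_atTop two_ne_zero).comp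
        tendsto_natCast_atTop_atTop)
    refine squeeze_zero' (Eventually.of_forall fun N => integral_nonneg fun z => sq_nonneg _) ?_ h1
    filter_upwards [eventually_gt_atTop 0] with N hN
    exact h N hN
  have hX : ∀ p, X * Sp (p + 1) = Sp (p + 2) + Sp p := fun p => by rw [Sp]; ring
  induction p using Nat.strong_induction_on with
  | _ p ih =>
    refine L2c.of_mean (fun N => eg_tp _) (hv p) ?_
    match p with
    | 0 =>
      refine tendsto_const_nhds.congr' ?_
      filter_upwards [eventually_gt_atTop 0] with N hN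
      have hN' : (N : ℝ) ≠ 0 := by positivity
      simp [tp, Sp, Matrix.trace_one, hN']
    | 1 =>
      refine tendsto_const_nhds.congr' ?_
      filter_upwards with N
      have h1 : ∀ z : Ix N → ℝ, tp N (Sp 1) z =
          (N : ℝ)⁻¹ * ∑ i : Fin N, (√(2 * (N : ℝ)))⁻¹ * (z (i, i) + z (i, i)) := by
        intro z
        simp only [tp, Sp, aeval_X, Matrix.trace, Matrix.diag_apply, Wm, Matrix.of_apply]
        rw [div_eq_inv_mul]
        congr 1
        refine sum_congr rfl fun i _ => ?_
        rw [div_eq_inv_mul]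
      simp only [h1]
      rw [integral_const_mul, integral_finsetSum _ fun i _ =>
        (((EG.coord (i, i)).add (EG.coord (i, i))).const_mul _).integrable]
      have h2 : ∀ e : Ix N, ∫ z, z e ∂(gI (Ix N)) = 0 := by
        intro e
        have := PD.stein (PD.const (e := e) (1 : ℝ)) (EG.const 1) (EG.const 0)
        simpa using this
      simp [integral_const_mul, integral_add (EG.coord _).integrable (EG.coord _).integrable, h2]
    | p + 2 =>
      have h1 : ∀ N : ℕ, 0 < N → ∫ z, tp N (Sp (p + 2)) z ∂(gI (Ix N)) =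
          ∑ s ∈ range (p + 1), (∫ z, tp N (Sp s) z * tp N (Sp (p - s)) z ∂(gI (Ix N)) +
            (1 / (N : ℝ)) * ∫ z, tp N (Sp s * Sp (p - s)) z ∂(gI (Ix N))) -
            ∫ z, tp N (Sp p) z ∂(gI (Ix N)) := by
        intro N hN
        have hN' : (N : ℝ) ≠ 0 := by positivity
        have h2 := ibp_trace (N := N) (A := fun z => Um (Wm N z) (p + 1)) (egm_Um _)
          (p := p + 1) (P := fun s z => Um (Wm N z) s)
          (Q := fun s z => Um (Wm N z) (p + 1 - 1 - s)) (fun s => egm_Um s) (fun s => egm_Um _)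
          (fun s z => Um_transpose (Wm_transpose z) s)
          (fun s z => Um_transpose (Wm_transpose z) _)
          (fun e => (pdm_Um e (p + 1)).congr fun z => DU_eq _ _ _)
        have h3 : ∀ z, tp N (Sp (p + 2)) z = (N : ℝ)⁻¹ * (Wm N z * Um (Wm N z) (p + 1)).trace -
            tp N (Sp p) z := by
          intro z
          have h4 : Sp (p + 2) = X * Sp (p + 1) - Sp p := rfl
          rw [h4, tp_sub]
          unfold tp
          rw [map_mul, aeval_X, ← Um_eq_aeval, div_eq_inv_mul]
        simp only [h3]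
        rw [integral_sub (((egm_Wm.mul (egm_Um _)).trace).const_mul _).integrable
          (eg_tp _).integrable, integral_const_mul, h2, mul_sum, mul_sum]
        congr 1
        refine sum_congr rfl fun s _ => ?_
        rw [Nat.add_sub_cancel, integral_add ((egm_Um s).trace.mul (egm_Um _).trace).integrable
          ((egm_Um s).mul (egm_Um _)).trace.integrable, mul_add, mul_add]
        simp only [tp, map_mul, ← Um_eq_aeval]
        congr 1
        · rw [← integral_const_mul, ← integral_const_mul]
          congr 1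
          funext z
          field_simp
        · rw [integral_div]
          field_simp
      have h5 : Tendsto (fun N : ℕ => ∑ s ∈ range (p + 1),
          (∫ z, tp N (Sp s) z * tp N (Sp (p - s)) z ∂(gI (Ix N)) +
            (1 / (N : ℝ)) * ∫ z, tp N (Sp s * Sp (p - s)) z ∂(gI (Ix N))) -
            ∫ z, tp N (Sp p) z ∂(gI (Ix N))) atTop
          (𝓝 (∑ s ∈ range (p + 1), ((if s = 0 then 1 else 0) * (if p - s = 0 then 1 else 0) + 0) -
            (if p = 0 then (1 : ℝ) else 0))) := by
        refine Tendsto.sub (tendsto_finsetSum _ fun s hs => ?_) (ih p (by omega)).int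
        rw [mem_range] at hs
        refine Tendsto.add ((ih s (by omega)).mul_int (ih (p - s) (by omega))) ?_
        obtain ⟨C, hC, h⟩ := tp_int_bound' (Sp s * Sp (p - s))
        have h6 : Tendsto (fun N : ℕ => (1 / (N : ℝ)) * C) atTop (𝓝 0) := by
          have := tendsto_one_div_atTop_nhds_zero_nat (𝕜 := ℝ)
          simpa using this.mul_const C
        refine squeeze_zero_norm' ?_ h6
        filter_upwards [eventually_gt_atTop 0] with N hN
        rw [norm_mul, Real.norm_eq_abs, Real.norm_eq_abs, abs_of_nonneg (by positivity)]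
        exact mul_le_mul_of_nonneg_left (h N hN) (by positivity)
      have h7 : (∑ s ∈ range (p + 1), ((if s = 0 then (1 : ℝ) else 0) *
          (if p - s = 0 then 1 else 0) + 0) - (if p = 0 then (1 : ℝ) else 0)) =
          if p + 2 = 0 then 1 else 0 := by
        simp only [add_zero]
        rw [sum_range_succ']
        simp
      rw [h7] at h5
      refine h5.congr' ?_
      filter_upwards [eventually_gt_atTop 0] with N hN
      exact (h1 N hN).symm

/-- orthogonality of the Chebyshev polynomials in the limit -/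
theorem tau_conv_mul (a b : ℕ) : L2c (fun N => tp N (Sp a * Sp b)) (if a = b then 1 else 0) := by
  wlog hab : a ≤ b generalizing a b
  · have h := this b a (by omega)
    rw [mul_comm] at h
    have e : (if b = a then (1 : ℝ) else 0) = if a = b then 1 else 0 := by
      by_cases h : a = b
      · simp [h]
      · simp [h, Ne.symm h]
    rwa [e] at h
  have h := L2c.sum (range (a + 1)) (f := fun j N => tp N (Sp (b - a + 2 * j)))
    (a := fun j => if b - a + 2 * j = 0 then 1 else 0) fun j _ => tau_conv _
  have e1 : (fun (N : ℕ) (z : Ix N → ℝ) => ∑ j ∈ range (a + 1), tp N (Sp (b - a + 2 * j)) z) =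
      fun N => tp N (Sp a * Sp b) := by
    funext N z
    rw [Sp_mul a b hab, tp_sum]
  have e2 : (∑ j ∈ range (a + 1), if b - a + 2 * j = 0 then (1 : ℝ) else 0) =
      if a = b then 1 else 0 := by
    rw [sum_range_succ']
    by_cases h : a = b
    · subst h; simp
    · have h1 : b - a ≠ 0 := by omega
      simp [h, h1]
  rw [e1, e2] at h
  exact h

end Vale.Agent.P146.Sk
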