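import Vale.Agent.P146.Sk.Lam

/-!
# P146, module VAR: the vector field `v = g(W) / √(2N)` and its divergence
-/

open MeasureTheory ProbabilityTheory Finset Matrix Filter Topology Polynomial

namespace Vale.Agent.P146.Sk

open Vale.Agent.P157.Lv

set_option linter.all false

variable {N : ℕ}

lemma aeval_symm (q : ℝ[X]) (z : Ix N → ℝ) (i j : Fin N) :
    (aeval (Wm N z) q) i j = (aeval (Wm N z) q) j i := by
  rw [aeval_eq_sum_range]
  simp only [Matrix.sum_apply, Matrix.smul_apply]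
  refine sum_congr rfl fun k _ => ?_
  have h1 := pow_transpose z k
  conv_lhs => rw [← h1]
  rfl

lemma trace_Em_mul (B : Matrix (Fin N) (Fin N) ℝ) (e : Ix N) :
    (Em N e * B).trace = (B e.2 e.1 + B e.1 e.2) / √(2 * (N : ℝ)) := by
  have h := mul_Em_mul (1 : Matrix (Fin N) (Fin N) ℝ) B e
  simp only [one_mul] at h
  simp only [Matrix.trace, Matrix.diag_apply, h, Matrix.one_apply]
  rw [← sum_div, sum_add_distrib]
  simp only [ite_mul, one_mul, zero_mul, sum_ite_eq', mem_univ, if_true]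

/-- derivative of the trace of a polynomial of `W` -/
theorem pd_T (e : Ix N) (q : ℝ[X]) : PD e (fun z => (aeval (Wm N z) q).trace)
    (fun z => (2 / √(2 * (N : ℝ))) * (aeval (Wm N z) (derivative q)) e.1 e.2) := by
  induction q using Polynomial.induction_on' with
  | add p q hp hq =>
    have h := hp.add hq
    simp only [← Matrix.trace_add, ← map_add] at h
    refine h.congr fun z => ?_
    rw [derivative_add, map_add, Matrix.add_apply, mul_add]
  | monomial n a =>
    have h := ((pdm_pow e n).trace).const_mul a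
    have e1 : (fun z : Ix N → ℝ => (aeval (Wm N z) (monomial n a)).trace) =
        fun z => a * ((Wm N z) ^ n).trace := by
      funext z
      rw [aeval_monomial, Matrix.trace, Matrix.trace, mul_sum]
      refine sum_congr rfl fun i _ => ?_
      rw [← Algebra.smul_def]
      rfl
    rw [e1]
    refine h.congr fun z => ?_
    rw [derivative_monomial, aeval_monomial, ← Algebra.smul_def, Matrix.smul_apply, smul_eq_mul,
      Matrix.trace_sum]
    have h2 : ∀ s ∈ range n, ((Wm N z) ^ s * Em N e * (Wm N z) ^ (n - 1 - s)).trace =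
        2 * ((Wm N z) ^ (n - 1)) e.1 e.2 / √(2 * (N : ℝ)) := by
      intro s hs
      rw [mem_range] at hs
      rw [mul_assoc, Matrix.trace_mul_comm, mul_assoc, ← pow_add, trace_Em_mul]
      rw [show n - 1 - s + s = n - 1 by omega]
      have h3 : ((Wm N z) ^ (n - 1)) e.2 e.1 = ((Wm N z) ^ (n - 1)) e.1 e.2 := by
        have h1 := pow_transpose z (n - 1)
        conv_lhs => rw [← h1]
        rfl
      rw [h3]
      ring
    rw [sum_congr rfl h2, sum_const, card_range, nsmul_eq_mul]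
    ring

lemma sum_aeval_mul (q r : ℝ[X]) (z : Ix N → ℝ) :
    ∑ e : Ix N, (aeval (Wm N z) q) e.1 e.2 * (aeval (Wm N z) r) e.1 e.2 =
      (aeval (Wm N z) (q * r)).trace := by
  rw [map_mul, trace_mul_eq_sum]
  refine sum_congr rfl fun e _ => ?_
  rw [aeval_symm r z e.2 e.1]

/-- the polynomial `g = ∑ γ_i S_{i+1}` -/
noncomputable def gp (I : Finset ℕ) (γ : ℕ → ℝ) : ℝ[X] := ∑ i ∈ I, C (γ i) * Sp (i + 1)

/-- the divergence -/
noncomputable def dv (N : ℕ) (I : Finset ℕ) (γ : ℕ → ℝ) (z : Ix N → ℝ) : ℝ :=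
  (1 / 2) * ((aeval (Wm N z) (X * gp I γ)).trace - (1 / (N : ℝ)) * ∑ i ∈ I, γ i *
    ∑ s ∈ range (i + 1), ((aeval (Wm N z) (Sp s)).trace * (aeval (Wm N z) (Sp (i - s))).trace +
      (aeval (Wm N z) (Sp s * Sp (i - s))).trace))

variable {I : Finset ℕ} {γ : ℕ → ℝ}

lemma eg_T (q : ℝ[X]) : EG (fun z => (aeval (Wm N z) q).trace) := (egm_aeval q).trace

lemma eg_dv : EG (dv N I γ) := by
  refine ((eg_T _).sub ((EG.sum _ fun i _ => (EG.sum _ fun s _ =>
    ((eg_T _).mul (eg_T _)).add (eg_T _)).const_mul (γ i)).const_mul _)).const_mul _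

/-- the derivative of the entries of `g(W)` -/
noncomputable def DG (N : ℕ) (I : Finset ℕ) (γ : ℕ → ℝ) (e : Ix N) (z : Ix N → ℝ) :
    Matrix (Fin N) (Fin N) ℝ := ∑ i ∈ I, γ i • DU (Wm N z) (Em N e) (i + 1)

lemma pdm_g (e : Ix N) : PDM e (fun z => aeval (Wm N z) (gp I γ)) (DG N I γ e) := by
  intro a b
  have h := PD.sum (e := e) I (H := fun i z => γ i * Um (Wm N z) (i + 1) a b)
    (H' := fun i z => γ i * DU (Wm N z) (Em N e) (i + 1) a b)
    fun i _ => (pdm_Um e (i + 1) a b).const_mul (γ i)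
  have e1 : (fun z : Ix N → ℝ => (aeval (Wm N z) (gp I γ)) a b) =
      fun z => ∑ i ∈ I, γ i * Um (Wm N z) (i + 1) a b := by
    funext z
    rw [gp, map_sum, Matrix.sum_apply]
    refine sum_congr rfl fun i _ => ?_
    rw [← smul_eq_C_mul, map_smul, Matrix.smul_apply, smul_eq_mul, Um_eq_aeval]
  rw [e1]
  refine h.congr fun z => ?_
  rw [DG, Matrix.sum_apply]
  rfl

lemma egm_DG (e : Ix N) : EGM (DG N I γ e) := by
  intro a b
  simp only [DG, Matrix.sum_apply, Matrix.smul_apply, smul_eq_mul]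
  exact EG.sum _ fun i _ => (egm_DU _ _ a b).const_mul _

lemma sum_DU (z : Ix N → ℝ) (p : ℕ) : ∑ e : Ix N, (DU (Wm N z) (Em N e) p) e.1 e.2 =
    (1 / √(2 * (N : ℝ))) * ∑ s ∈ range p, ((aeval (Wm N z) (Sp s)).trace *
      (aeval (Wm N z) (Sp (p - 1 - s))).trace +
      (aeval (Wm N z) (Sp s * Sp (p - 1 - s))).trace) := by
  simp only [DU_eq, Matrix.sum_apply]
  rw [sum_comm, mul_sum]
  refine sum_congr rfl fun s _ => ?_
  simp only [mul_Em_mul]
  rw [← sum_div, sum_add_distrib, Um_eq_aeval, Um_eq_aeval, sum_aeval_mul, trace_mul_trace]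
  have h : ∀ e : Ix N, (aeval (Wm N z) (Sp (p - 1 - s))) e.2 e.2 *
      (aeval (Wm N z) (Sp s)) e.1 e.1 = (aeval (Wm N z) (Sp s)) e.1 e.1 *
      (aeval (Wm N z) (Sp (p - 1 - s))) e.2 e.2 := fun e => mul_comm _ _
  ring

lemma dv_eq (hN : 0 < N) (z : Ix N → ℝ) :
    ∑ e : Ix N, (z e * ((1 / √(2 * (N : ℝ))) * (aeval (Wm N z) (gp I γ)) e.1 e.2) -
      (1 / √(2 * (N : ℝ))) * (DG N I γ e z) e.1 e.2) = dv N I γ z := by
  have hN' : (0 : ℝ) < N := by exact_mod_cast hN
  set c : ℝ := √(2 * (N : ℝ)) with hc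
  have hc0 : 0 < c := Real.sqrt_pos.2 (by positivity)
  have hc2 : c * c = 2 * N := Real.mul_self_sqrt (by positivity)
  rw [sum_sub_distrib, ← mul_sum]
  have h1 : ∑ e : Ix N, (DG N I γ e z) e.1 e.2 = ∑ i ∈ I, γ i *
      ((1 / c) * ∑ s ∈ range (i + 1), ((aeval (Wm N z) (Sp s)).trace *
      (aeval (Wm N z) (Sp (i - s))).trace + (aeval (Wm N z) (Sp s * Sp (i - s))).trace)) := by
    simp only [DG, Matrix.sum_apply, Matrix.smul_apply, smul_eq_mul]
    rw [sum_comm]
    refine sum_congr rfl fun i _ => ?_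
    rw [← mul_sum, sum_DU, ← hc]
    simp only [Nat.add_sub_cancel]
  have h2 : ∑ e : Ix N, z e * (1 / c * (aeval (Wm N z) (gp I γ)) e.1 e.2) =
      (1 / 2) * (aeval (Wm N z) (X * gp I γ)).trace := by
    rw [map_mul, aeval_X, trace_mul_eq_sum]
    have h3 : ∀ e : Ix N, Wm N z e.1 e.2 * (aeval (Wm N z) (gp I γ)) e.2 e.1 =
        (1 / c) * (z (e.1, e.2) * (aeval (Wm N z) (gp I γ)) e.1 e.2) +
        (1 / c) * (z (e.2, e.1) * (aeval (Wm N z) (gp I γ)) e.2 e.1) := by
      intro e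
      rw [aeval_symm (gp I γ) z e.1 e.2]
      simp only [Wm, Matrix.of_apply, ← hc]
      ring
    simp only [h3]
    rw [sum_add_distrib, sum_Ix_swap (fun i j => (1 / c) * (z (i, j) *
      (aeval (Wm N z) (gp I γ)) i j)), ← two_mul, ← mul_assoc]
    norm_num
    refine sum_congr rfl fun e _ => ?_
    ring
  rw [h1, h2, dv, mul_sub]
  congr 1
  rw [mul_sum, mul_sum, mul_sum]
  refine sum_congr rfl fun i _ => ?_
  have h4 : (1 / c) * (1 / c) = (1 / 2) * (1 / (N : ℝ)) := by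
    rw [one_div_mul_one_div, hc2]
    field_simp
  generalize (∑ s ∈ range (i + 1), ((aeval (Wm N z) (Sp s)).trace *
      (aeval (Wm N z) (Sp (i - s))).trace + (aeval (Wm N z) (Sp s * Sp (i - s))).trace)) = Y
  linear_combination (γ i * Y) * h4

/-- integration by parts against the divergence -/
theorem ibp_dv (hN : 0 < N) {F : (Ix N → ℝ) → ℝ} {F' : Ix N → (Ix N → ℝ) → ℝ} (hF : EG F)
    (hFd : ∀ e, PD e F (F' e)) (hF' : ∀ e, EG (F' e)) :
    ∫ z, F z * dv N I γ z ∂(gI (Ix N)) = (1 / √(2 * (N : ℝ))) *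
      ∫ z, ∑ e : Ix N, F' e z * (aeval (Wm N z) (gp I γ)) e.1 e.2 ∂(gI (Ix N)) := by
  set c : ℝ := √(2 * (N : ℝ)) with hc
  have hg : ∀ e : Ix N, EG (fun z => (1 / c) * (aeval (Wm N z) (gp I γ)) e.1 e.2) := fun e =>
    (egm_aeval _ _ _).const_mul _
  have hw : ∀ e : Ix N, EG (fun z => (1 / c) * (DG N I γ e z) e.1 e.2) := fun e =>
    (egm_DG e _ _).const_mul _
  have hs : ∀ e : Ix N, ∫ z, z e * (F z * ((1 / c) * (aeval (Wm N z) (gp I γ)) e.1 e.2))
      ∂(gI (Ix N)) = ∫ z, (F' e z * ((1 / c) * (aeval (Wm N z) (gp I γ)) e.1 e.2) +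
        F z * ((1 / c) * (DG N I γ e z) e.1 e.2)) ∂(gI (Ix N)) := fun e =>
    PD.stein ((hFd e).mul ((pdm_g e e.1 e.2).const_mul _)) (hF.mul (hg e))
      (((hF' e).mul (hg e)).add (hF.mul (hw e)))
  have h1 : ∀ z, F z * dv N I γ z = ∑ e : Ix N, (z e * (F z * ((1 / c) *
      (aeval (Wm N z) (gp I γ)) e.1 e.2)) - F z * ((1 / c) * (DG N I γ e z) e.1 e.2)) := by
    intro z
    rw [← dv_eq hN, mul_sum]
    refine sum_congr rfl fun e _ => ?_
    rw [← hc]
    ring
  simp only [h1]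
  rw [integral_finsetSum _ fun e _ => (((EG.coord e).mul (hF.mul (hg e))).sub
    (hF.mul (hw e))).integrable]
  rw [integral_finsetSum _ fun e _ => ((hF' e).mul (egm_aeval _ _ _)).integrable, mul_sum]
  refine sum_congr rfl fun e _ => ?_
  rw [integral_sub ((EG.coord e).mul (hF.mul (hg e))).integrable (hF.mul (hw e)).integrable, hs e,
    integral_add ((hF' e).mul (hg e)).integrable (hF.mul (hw e)).integrable, add_sub_cancel_right,
    ← integral_const_mul]
  congr 1
  funext z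
  ring

/-- the derivative of the divergence in the direction of the vector field -/
noncomputable def Ddv (N : ℕ) (I : Finset ℕ) (γ : ℕ → ℝ) (z : Ix N → ℝ) : ℝ :=
  (1 / 2) * (tp N (derivative (X * gp I γ) * gp I γ) z - ∑ i ∈ I, γ i *
    ∑ s ∈ range (i + 1), (tp N (derivative (Sp s) * gp I γ) z * tp N (Sp (i - s)) z +
      tp N (Sp s) z * tp N (derivative (Sp (i - s)) * gp I γ) z +
      (1 / (N : ℝ)) * tp N (derivative (Sp s * Sp (i - s)) * gp I γ) z))

/-- the partial derivatives of the divergence -/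
noncomputable def pdv (N : ℕ) (I : Finset ℕ) (γ : ℕ → ℝ) (e : Ix N) (z : Ix N → ℝ) : ℝ :=
  (1 / 2) * ((2 / √(2 * (N : ℝ))) * (aeval (Wm N z) (derivative (X * gp I γ))) e.1 e.2 -
    (1 / (N : ℝ)) * ∑ i ∈ I, γ i *
    ∑ s ∈ range (i + 1), (((2 / √(2 * (N : ℝ))) * (aeval (Wm N z) (derivative (Sp s))) e.1 e.2 *
      (aeval (Wm N z) (Sp (i - s))).trace + (aeval (Wm N z) (Sp s)).trace *
      ((2 / √(2 * (N : ℝ))) * (aeval (Wm N z) (derivative (Sp (i - s)))) e.1 e.2)) +
      (2 / √(2 * (N : ℝ))) * (aeval (Wm N z) (derivative (Sp s * Sp (i - s)))) e.1 e.2))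

lemma pd_dv (e : Ix N) : PD e (dv N I γ) (pdv N I γ e) := by
  refine ((pd_T e _).sub ((PD.sum _ fun i _ => (PD.sum _ fun s _ =>
    ((pd_T e _).mul (pd_T e _)).add (pd_T e _)).const_mul (γ i)).const_mul _)).const_mul _

lemma eg_pdv (e : Ix N) : EG (pdv N I γ e) := by
  refine (((egm_aeval _ _ _).const_mul _).sub ((EG.sum _ fun i _ => (EG.sum _ fun s _ =>
    ((((egm_aeval _ _ _).const_mul _).mul (eg_T _)).add ((eg_T _).mul
      ((egm_aeval _ _ _).const_mul _))).add ((egm_aeval _ _ _).const_mul _)).const_mul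
        (γ i)).const_mul _)).const_mul _

lemma lin_aux (I : Finset ℕ) (γ : ℕ → ℝ) (f f' : ℕ → ℕ → ℝ) (A G k c1 : ℝ)
    (h : ∀ i s, f i s * G = k * f' i s) :
    (1 / 2) * (k * A - c1 * ∑ i ∈ I, γ i * ∑ s ∈ range (i + 1), f i s) * G =
      k * ((1 / 2) * (A * G - c1 * ∑ i ∈ I, γ i * ∑ s ∈ range (i + 1), f' i s)) := by
  have h1 : (∑ i ∈ I, γ i * ∑ s ∈ range (i + 1), f i s) * G =
      k * ∑ i ∈ I, γ i * ∑ s ∈ range (i + 1), f' i s := by
    rw [sum_mul, mul_sum]
    refine sum_congr rfl fun i _ => ?_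
    rw [mul_assoc, sum_mul, sum_congr rfl fun s _ => h i s, ← mul_sum]
    ring
  linear_combination (-(1 / 2) * c1) * h1

lemma sum_pdv (hN : 0 < N) (z : Ix N → ℝ) : (1 / √(2 * (N : ℝ))) *
    ∑ e : Ix N, pdv N I γ e z * (aeval (Wm N z) (gp I γ)) e.1 e.2 = Ddv N I γ z := by
  have hN' : (0 : ℝ) < N := by exact_mod_cast hN
  set c : ℝ := √(2 * (N : ℝ)) with hc
  have hc0 : 0 < c := Real.sqrt_pos.2 (by positivity)
  have hc2 : c * c = 2 * N := Real.mul_self_sqrt (by positivity)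
  have h4 : (1 / c) * (2 / c) = 1 / (N : ℝ) := by
    rw [div_mul_div_comm, hc2]
    field_simp
  have h1 : ∀ e : Ix N, pdv N I γ e z * (aeval (Wm N z) (gp I γ)) e.1 e.2 =
      (2 / c) * ((1 / 2) * ((aeval (Wm N z) (derivative (X * gp I γ))) e.1 e.2 *
        (aeval (Wm N z) (gp I γ)) e.1 e.2 -
      (1 / (N : ℝ)) * ∑ i ∈ I, γ i *
      ∑ s ∈ range (i + 1), ((aeval (Wm N z) (derivative (Sp s))) e.1 e.2 *
        (aeval (Wm N z) (gp I γ)) e.1 e.2 * (aeval (Wm N z) (Sp (i - s))).trace +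
        (aeval (Wm N z) (Sp s)).trace * ((aeval (Wm N z) (derivative (Sp (i - s)))) e.1 e.2 *
        (aeval (Wm N z) (gp I γ)) e.1 e.2) +
        (aeval (Wm N z) (derivative (Sp s * Sp (i - s)))) e.1 e.2 *
        (aeval (Wm N z) (gp I γ)) e.1 e.2))) := by
    intro e
    rw [pdv, ← hc]
    refine lin_aux I γ _ _ _ _ _ _ fun i s => ?_
    ring
  simp only [h1]
  rw [← mul_sum, ← mul_assoc, h4, ← mul_sum, sum_sub_distrib, ← mul_sum, Ddv]
  have h9 : ∑ e : Ix N, ∑ i ∈ I, γ i *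
      ∑ s ∈ range (i + 1), ((aeval (Wm N z) (derivative (Sp s))) e.1 e.2 *
        (aeval (Wm N z) (gp I γ)) e.1 e.2 * (aeval (Wm N z) (Sp (i - s))).trace +
        (aeval (Wm N z) (Sp s)).trace * ((aeval (Wm N z) (derivative (Sp (i - s)))) e.1 e.2 *
        (aeval (Wm N z) (gp I γ)) e.1 e.2) +
        (aeval (Wm N z) (derivative (Sp s * Sp (i - s)))) e.1 e.2 *
        (aeval (Wm N z) (gp I γ)) e.1 e.2) = ∑ i ∈ I, γ i * ∑ s ∈ range (i + 1),
        ((aeval (Wm N z) (derivative (Sp s) * gp I γ)).trace * (aeval (Wm N z) (Sp (i - s))).trace +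
        (aeval (Wm N z) (Sp s)).trace * (aeval (Wm N z) (derivative (Sp (i - s)) * gp I γ)).trace +
        (aeval (Wm N z) (derivative (Sp s * Sp (i - s)) * gp I γ)).trace) := by
    rw [sum_comm]
    refine sum_congr rfl fun i _ => ?_
    rw [← mul_sum, sum_comm]
    congr 1
    refine sum_congr rfl fun s _ => ?_
    rw [sum_add_distrib, sum_add_distrib, ← sum_mul, ← mul_sum, sum_aeval_mul, sum_aeval_mul,
      sum_aeval_mul]
  rw [h9, sum_aeval_mul]
  unfold tp
  rw [mul_left_comm, mul_sub]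
  congr 1
  rw [one_div_mul_eq_div]
  congr 1
  rw [mul_sum, mul_sum]
  refine sum_congr rfl fun i _ => ?_
  rw [mul_left_comm (1 / (N : ℝ)) (γ i), mul_left_comm (1 / (N : ℝ)) (γ i), mul_sum, mul_sum]
  congr 1
  refine sum_congr rfl fun s _ => ?_
  field_simp

/-- second moment of the divergence -/
theorem int_dv_sq (hN : 0 < N) :
    ∫ z, dv N I γ z * dv N I γ z ∂(gI (Ix N)) = ∫ z, Ddv N I γ z ∂(gI (Ix N)) := by
  rw [ibp_dv hN eg_dv (fun e => pd_dv e) (fun e => eg_pdv e), ← integral_const_mul]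
  congr 1
  funext z
  exact sum_pdv hN z

lemma Lam_Sp_gp {i : ℕ} (hi : i ∈ I) : Lam (Sp (i + 1) * gp I γ) = γ i := by
  rw [gp, mul_sum, Lam_sum]
  have h : ∀ j ∈ I, Lam (Sp (i + 1) * (C (γ j) * Sp (j + 1))) = if j = i then γ j else 0 := by
    intro j _
    rw [mul_left_comm, Lam_C_mul, Lam_Sp_mul]
    by_cases h : j = i
    · subst h; simp
    · have : ¬ (i + 1 = j + 1) := by omega
      rw [if_neg this, if_neg h, mul_zero]
  rw [sum_congr rfl h, sum_ite_eq' I i, if_pos hi]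

/-- limit of the second moment of the divergence -/
theorem lim_dv_sq : Tendsto (fun N : ℕ => ∫ z, dv N I γ z * dv N I γ z ∂(gI (Ix N))) atTop
    (𝓝 ((1 / 2) * ∑ i ∈ I, ((i : ℝ) + 2) * γ i ^ 2)) := by
  have h1 : Tendsto (fun N : ℕ => (1 / 2) * (∫ z, tp N (derivative (X * gp I γ) * gp I γ) z
      ∂(gI (Ix N)) - ∑ i ∈ I, γ i * ∑ s ∈ range (i + 1),
      ((∫ z, tp N (derivative (Sp s) * gp I γ) z * tp N (Sp (i - s)) z ∂(gI (Ix N)) +
      ∫ z, tp N (Sp s) z * tp N (derivative (Sp (i - s)) * gp I γ) z ∂(gI (Ix N))) +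
      (1 / (N : ℝ)) * ∫ z, tp N (derivative (Sp s * Sp (i - s)) * gp I γ) z ∂(gI (Ix N))))) atTop
      (𝓝 ((1 / 2) * (Lam (derivative (X * gp I γ) * gp I γ) - ∑ i ∈ I, γ i * ∑ s ∈ range (i + 1),
      ((Lam (derivative (Sp s) * gp I γ) * Lam (Sp (i - s)) +
        Lam (Sp s) * Lam (derivative (Sp (i - s)) * gp I γ)) + 0 *
          Lam (derivative (Sp s * Sp (i - s)) * gp I γ))))) := by
    refine ((Lam_spec _).int.sub (tendsto_finsetSum _ fun i _ => (tendsto_finsetSum _ fun s _ =>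
      (((Lam_spec _).mul_int (Lam_spec _)).add ((Lam_spec _).mul_int (Lam_spec _))).add
        ((tendsto_one_div_atTop_nhds_zero_nat (𝕜 := ℝ)).mul (Lam_spec _).int)).const_mul
          _)).const_mul _
  have h2 : (1 / 2) * (Lam (derivative (X * gp I γ) * gp I γ) - ∑ i ∈ I, γ i *
      ∑ s ∈ range (i + 1), ((Lam (derivative (Sp s) * gp I γ) * Lam (Sp (i - s)) +
        Lam (Sp s) * Lam (derivative (Sp (i - s)) * gp I γ)) + 0 *
          Lam (derivative (Sp s * Sp (i - s)) * gp I γ))) =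
      (1 / 2) * ∑ i ∈ I, ((i : ℝ) + 2) * γ i ^ 2 := by
    congr 1
    have h3 : ∀ i, ∑ s ∈ range (i + 1), ((Lam (derivative (Sp s) * gp I γ) * Lam (Sp (i - s)) +
        Lam (Sp s) * Lam (derivative (Sp (i - s)) * gp I γ)) + 0 *
          Lam (derivative (Sp s * Sp (i - s)) * gp I γ)) =
        2 * Lam (derivative (Sp i) * gp I γ) := by
      intro i
      simp only [zero_mul, add_zero, Lam_Sp]
      rw [sum_add_distrib, two_mul]
      congr 1
      · rw [sum_range_succ]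
        have : ∀ s ∈ range i, Lam (derivative (Sp s) * gp I γ) *
            (if i - s = 0 then (1 : ℝ) else 0) = 0 := by
          intro s hs
          rw [mem_range] at hs
          rw [if_neg (by omega), mul_zero]
        rw [sum_eq_zero this]
        simp
      · rw [sum_range_succ']
        simp
    simp only [h3]
    have h4 : Lam (derivative (X * gp I γ) * gp I γ) = ∑ i ∈ I, γ i *
        (Lam (derivative (Sp (i + 2)) * gp I γ) + Lam (derivative (Sp i) * gp I γ)) := by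
      have h5 : X * gp I γ = ∑ i ∈ I, C (γ i) * (Sp (i + 2) + Sp i) := by
        rw [gp, mul_sum]
        refine sum_congr rfl fun i _ => ?_
        rw [← X_mul_Sp]
        ring
      have h6 : derivative (X * gp I γ) * gp I γ = ∑ i ∈ I, C (γ i) *
          (derivative (Sp (i + 2)) * gp I γ + derivative (Sp i) * gp I γ) := by
        rw [h5, derivative_sum, sum_mul]
        refine sum_congr rfl fun i _ => ?_
        rw [derivative_C_mul, derivative_add]
        ring
      rw [h6, Lam_sum]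
      refine sum_congr rfl fun i _ => ?_
      rw [Lam_C_mul, Lam_add]
    rw [h4, ← sum_sub_distrib]
    refine sum_congr rfl fun i hi => ?_
    have h7 : Lam (derivative (Sp (i + 2)) * gp I γ) - Lam (derivative (Sp i) * gp I γ) =
        ((i : ℝ) + 2) * γ i := by
      rw [← Lam_sub, ← sub_mul, deriv_Sp_sub, mul_assoc, Lam_C_mul, Lam_Sp_gp hi]
    have h8 : γ i * (Lam (derivative (Sp (i + 2)) * gp I γ) + Lam (derivative (Sp i) * gp I γ)) -
        γ i * (2 * Lam (derivative (Sp i) * gp I γ)) = γ i *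
        (Lam (derivative (Sp (i + 2)) * gp I γ) - Lam (derivative (Sp i) * gp I γ)) := by ring
    rw [h8, h7]
    ring
  rw [h2] at h1
  refine h1.congr' ?_
  filter_upwards [eventually_gt_atTop 0] with N hN
  rw [int_dv_sq hN]
  unfold Ddv
  rw [integral_const_mul, integral_sub (eg_tp _).integrable (EG.sum _ fun i _ => (EG.sum _ fun s _ =>
    (((eg_tp _).mul (eg_tp _)).add ((eg_tp _).mul (eg_tp _))).add
      ((eg_tp _).const_mul _)).const_mul _).integrable,
    integral_finsetSum _ fun i _ => ((EG.sum _ fun s _ =>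
    (((eg_tp _).mul (eg_tp _)).add ((eg_tp _).mul (eg_tp _))).add
      ((eg_tp _).const_mul _)).const_mul _).integrable]
  congr 2
  refine sum_congr rfl fun i _ => ?_
  rw [integral_const_mul, integral_finsetSum _ fun s _ =>
    ((((eg_tp _).mul (eg_tp _)).add ((eg_tp _).mul (eg_tp _))).add
      ((eg_tp _).const_mul _)).integrable]
  congr 1
  refine sum_congr rfl fun s _ => ?_
  rw [integral_add (((eg_tp _).mul (eg_tp _)).add ((eg_tp _).mul (eg_tp _))).integrable
    ((eg_tp _).const_mul _).integrable, integral_add ((eg_tp _).mul (eg_tp _)).integrable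
    ((eg_tp _).mul (eg_tp _)).integrable, integral_const_mul]

end Vale.Agent.P146.Sk
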