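import Vale.Agent.P157.LvOpt

/-!
P146, generic systems: an arbitrary energy `E` of the level zero coordinates `ι₀` together with
fields of the levels `0, …, K` with the strengths `s`.
-/

open MeasureTheory ProbabilityTheory Filter Topology

namespace Vale.Agent.P146.Sk.Gen

set_option linter.unusedSectionVars false

open Vale.Agent.P157 Vale.Agent.P157.Lv
open Vale.Agent.P157.Par (Path Exponents topN lw)

/-- The coordinates: level zero coordinates `ι₀`, and the fields. -/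
abbrev GI (ι₀ : Type) (N K : ℕ) : Type := ι₀ ⊕ (Fin (K + 1) × Fin N)

/-- The levels. -/
def gl {ι₀ : Type} {N K : ℕ} : GI ι₀ N K → ℕ
  | Sum.inl _ => 0
  | Sum.inr p => p.1

/-- The coordinates of the field of the level `l`. -/
def gz {ι₀ : Type} {N K : ℕ} (l : ℕ) (i : Fin N) : GI ι₀ N K := Sum.inr (Fin.ofNat (K + 1) l, i)

/-- The level zero coordinates. -/
def r0 {ι₀ : Type} {N K : ℕ} (z : GI ι₀ N K → ℝ) : ι₀ → ℝ := fun e => z (Sum.inl e)

variable {ι₀ X : Type} {N K : ℕ}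

/-- The energy. -/
noncomputable def gH (E : (ι₀ → ℝ) → X → ℝ) (φ : X → Fin N → ℝ) (s : ℕ → ℝ) :
    (GI ι₀ N K → ℝ) → X → ℝ := fun z x =>
  E (r0 z) x + ∑ l ∈ Finset.range (K + 1), s l * ∑ i, z (gz l i) * φ x i

/-- The partial derivatives of the energy. -/
noncomputable def gD (D : ι₀ → (ι₀ → ℝ) → X → ℝ) (φ : X → Fin N → ℝ) (s : ℕ → ℝ) :
    GI ι₀ N K → (GI ι₀ N K → ℝ) → X → ℝ
  | Sum.inl e, z, x => D e (r0 z) x
  | Sum.inr p, _, x => s p.1 * φ x p.2

/-- The system. -/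
noncomputable def gS (K : ℕ) (m : ℕ → ℝ) (E : (ι₀ → ℝ) → X → ℝ) (φ : X → Fin N → ℝ)
    (s : ℕ → ℝ) : Sy (GI ι₀ N K) X := ⟨gl, K, m, gH E φ s⟩

/-- The extensive field of the level `j`. -/
noncomputable def gx (φ : X → Fin N → ℝ) (j : ℕ) : (GI ι₀ N K → ℝ) → X → ℝ :=
  fun z x => ∑ i, z (gz j i) * φ x i

variable [Fintype ι₀] [DecidableEq ι₀] [Fintype X] [DecidableEq X] [Nonempty X]

/-- Standing hypotheses. -/
structure GD (K : ℕ) (m : ℕ → ℝ) (E : (ι₀ → ℝ) → X → ℝ) (D : ι₀ → (ι₀ → ℝ) → X → ℝ)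
    (φ : X → Fin N → ℝ) : Prop where
  hm : Exponents K m
  lip : ∀ x, Lip fun z => E z x
  pd : ∀ e x, PD e (fun z => E z x) (fun z => D e z x)
  md : ∀ e x, Measurable fun z => D e z x
  bd : ∃ C : ℝ, ∀ e z x, |D e z x| ≤ C
  N0 : 0 < N
  norm : ∀ x, ∑ i, φ x i ^ 2 = N

/-- The free energy per spin. -/
noncomputable def gF (K : ℕ) (m : ℕ → ℝ) (E : (ι₀ → ℝ) → X → ℝ) (φ : X → Fin N → ℝ)
    (s : ℕ → ℝ) : ℝ := 1 / N * (gS K m E φ s).fe

variable {m : ℕ → ℝ} {E E' : (ι₀ → ℝ) → X → ℝ} {D D' : ι₀ → (ι₀ → ℝ) → X → ℝ}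
  {φ : X → Fin N → ℝ} {s : ℕ → ℝ}

omit [Fintype ι₀] [DecidableEq ι₀] in
lemma gl_gz {l : ℕ} (hl : l ≤ K) (i : Fin N) : gl (gz l i : GI ι₀ N K) = l := by
  show ((Fin.ofNat (K + 1) l : Fin (K + 1)) : ℕ) = l
  simp only [Fin.ofNat, Nat.mod_eq_of_lt (Nat.lt_succ_of_le hl)]

omit [Fintype ι₀] [DecidableEq ι₀] in
lemma gz_eq_iff {l : ℕ} (hl : l ≤ K) (i : Fin N) (p : Fin (K + 1) × Fin N) :
    (gz l i : GI ι₀ N K) = Sum.inr p ↔ l = (p.1 : ℕ) ∧ i = p.2 := by
  unfold gz
  rw [Sum.inr.injEq, Prod.ext_iff, Fin.ext_iff]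
  have : ((Fin.ofNat (K + 1) l : Fin (K + 1)) : ℕ) = l := by
    simp only [Fin.ofNat, Nat.mod_eq_of_lt (Nat.lt_succ_of_le hl)]
  simp only [this]

omit [DecidableEq ι₀] [Fintype X] [DecidableEq X] [Nonempty X] in
lemma norm_r0_le (z z' : GI ι₀ N K → ℝ) : ‖r0 z - r0 z'‖ ≤ ‖z - z'‖ := by
  refine (pi_norm_le_iff_of_nonneg (norm_nonneg _)).2 fun e => ?_
  exact norm_le_pi_norm (z - z') (Sum.inl e)

omit [DecidableEq ι₀] [Fintype X] [DecidableEq X] [Nonempty X] in
lemma Lip.r0 {F : (ι₀ → ℝ) → ℝ} (hF : Lip F) : Lip fun z : GI ι₀ N K → ℝ => F (Gen.r0 z) := by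
  obtain ⟨L, hL, h⟩ := hF
  exact ⟨L, hL, fun y y' => (h _ _).trans (mul_le_mul_of_nonneg_left (norm_r0_le y y') hL)⟩

omit [Fintype ι₀] [DecidableEq ι₀] in
lemma measurable_r0 : Measurable (r0 : (GI ι₀ N K → ℝ) → ι₀ → ℝ) :=
  measurable_pi_lambda _ fun _ => measurable_pi_apply _

omit [DecidableEq ι₀] [Fintype X] [DecidableEq X] [Nonempty X] in
lemma EG.r0 {F : (ι₀ → ℝ) → ℝ} (hF : EG F) : EG fun z : GI ι₀ N K → ℝ => F (Gen.r0 z) := by
  obtain ⟨C, a, hC, ha, hb⟩ := hF.bdd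
  refine ⟨hF.meas.comp measurable_r0, C, a, hC, ha, fun y => (hb _).trans ?_⟩
  have h1 : ‖Gen.r0 y‖ ≤ ‖y‖ := by
    have := norm_r0_le y 0
    rw [sub_zero] at this
    refine le_trans (le_of_eq ?_) this
    congr 1
    funext e
    simp [Gen.r0]
  gcongr

lemma r0_update_inl (z : GI ι₀ N K → ℝ) (e : ι₀) (t : ℝ) :
    r0 (Function.update z (Sum.inl e) t) = Function.update (r0 z) e t := by
  funext e'
  unfold r0
  by_cases h : e' = e
  · subst h
    rw [Function.update_self, Function.update_self]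
  · rw [Function.update_of_ne h, Function.update_of_ne (fun hc => h (Sum.inl_injective hc))]

lemma r0_update_inr (z : GI ι₀ N K → ℝ) (p : Fin (K + 1) × Fin N) (t : ℝ) :
    r0 (Function.update z (Sum.inr p) t) = r0 z := by
  funext e'
  unfold r0
  rw [Function.update_of_ne (fun hc => by cases hc)]

lemma PD.r0 {F F' : (ι₀ → ℝ) → ℝ} {e : ι₀} (hd : PD e F F') :
    PD (Sum.inl e) (fun z : GI ι₀ N K → ℝ => F (Gen.r0 z)) (fun z => F' (Gen.r0 z)) := by
  intro y x
  simp only [r0_update_inl]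
  exact hd (Gen.r0 y) x

/-- The fields. -/
lemma pd_fields (φ : X → Fin N → ℝ) (s : ℕ → ℝ) (x : X) (e : GI ι₀ N K) :
    PD e (fun z : GI ι₀ N K → ℝ => ∑ l ∈ Finset.range (K + 1), s l * ∑ i, z (gz l i) * φ x i)
      (fun _ => match e with
        | Sum.inl _ => 0
        | Sum.inr p => s p.1 * φ x p.2) := by
  have h1 : PD e (fun z : GI ι₀ N K → ℝ =>
      ∑ l ∈ Finset.range (K + 1), s l * ∑ i, z (gz l i) * φ x i)
      (fun _ => ∑ l ∈ Finset.range (K + 1), s l * ∑ i,
        (if (gz l i : GI ι₀ N K) = e then 1 else 0) * φ x i) := by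
    refine PD.sum _ fun l _ => PD.const_mul (PD.sum _ fun i _ => ?_) _
    refine ((PD.coord (e := e) (gz l i)).mul (PD.const (φ x i))).congr fun y => ?_
    ring
  refine h1.congr fun y => ?_
  cases e with
  | inl e =>
    simp [gz]
  | inr p =>
    simp only
    rw [Finset.sum_eq_single (p.1 : ℕ)]
    · rw [Finset.sum_eq_single p.2]
      · rw [if_pos ((gz_eq_iff (Nat.le_of_lt_succ p.1.2) p.2 p).2 ⟨rfl, rfl⟩), one_mul]
      · intro i _ hi
        rw [if_neg fun hc => hi ((gz_eq_iff (Nat.le_of_lt_succ p.1.2) i p).1 hc).2, zero_mul]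
      · intro h
        exact absurd (Finset.mem_univ _) h
    · intro l hl hne
      rw [Finset.mem_range] at hl
      rw [Finset.sum_eq_zero, mul_zero]
      intro i _
      rw [if_neg fun hc => hne ((gz_eq_iff (Nat.le_of_lt_succ hl) i p).1 hc).1, zero_mul]
    · intro h
      exact absurd (Finset.mem_range.2 p.1.2) h

theorem gS_regD (h : GD K m E D φ) (s : ℕ → ℝ) : (gS K m E φ s).RegD (gD D φ s) where
  m0 := h.hm.1
  mK := h.hm.2.1
  mono := fun l hl => (h.hm.2.2 l hl).le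
  pos := by
    have := h.hm.2.2 0 (Nat.zero_le _)
    rw [h.hm.1] at this
    exact this
  lev := by
    rintro (e | p)
    · exact Nat.zero_le _
    · exact Nat.le_of_lt_succ p.1.2
  lip := fun x => by
    refine (Lip.r0 (h.lip x)).add (Lip.sum _ fun l _ => Lip.const_mul (Lip.sum _ fun i _ => ?_) _)
    have := (Lip.coord (gz l i : GI ι₀ N K)).const_mul (φ x i)
    simpa [mul_comm] using this
  pd := fun e x => by
    have h2 := pd_fields (ι₀ := ι₀) (K := K) φ s x e
    cases e with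
    | inl e =>
      exact ((PD.r0 (h.pd e x)).add h2).congr fun y => by
        show D e (Gen.r0 y) x + 0 = D e (Gen.r0 y) x
        rw [add_zero]
    | inr p =>
      have h1 : PD (Sum.inr p) (fun z : GI ι₀ N K → ℝ => E (Gen.r0 z) x) (fun _ => 0) :=
        PD.of_indep fun y t => by rw [r0_update_inr]
      exact (h1.add h2).congr fun y => by
        show 0 + s p.1 * φ x p.2 = s p.1 * φ x p.2
        rw [zero_add]
  md := fun e x => by
    cases e with
    | inl e => exact (h.md e x).comp measurable_r0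
    | inr p => exact measurable_const
  bd := by
    obtain ⟨C, hC⟩ := h.bd
    refine ⟨max C (∑ p : (Fin (K + 1) × Fin N) × X, |s p.1.1 * φ p.2 p.1.2|), fun e z x => ?_⟩
    cases e with
    | inl e => exact (hC e (r0 z) x).trans (le_max_left _ _)
    | inr p =>
      refine le_trans ?_ (le_max_right _ _)
      exact Finset.single_le_sum
        (f := fun p : (Fin (K + 1) × Fin N) × X => |s p.1.1 * φ p.2 p.1.2|)
        (fun _ _ => abs_nonneg _) (Finset.mem_univ (p, x))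

theorem gS_reg (h : GD K m E D φ) (s : ℕ → ℝ) : (gS K m E φ s).Reg := (gS_regD h s).toReg

theorem gS_fld (h : GD K m E D φ) (hs : ∀ l ≤ K, 0 ≤ s l) :
    Fld (gS K m E φ s) (gD D φ s) φ gz s where
  reg := gS_regD h s
  N0 := h.N0
  norm := h.norm
  lev := fun l hl i => gl_gz (ι₀ := ι₀) (N := N) (K := K) hl i
  D := fun l hl i z x => by
    show s ((Fin.ofNat (K + 1) l : Fin (K + 1)) : ℕ) * φ x i = s l * φ x i
    have : ((Fin.ofNat (K + 1) l : Fin (K + 1)) : ℕ) = l := Nat.mod_eq_of_lt (Nat.lt_succ_of_le hl)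
    rw [this]
  pos := hs

/-- Changing the strength of the level `j`. -/
theorem gS_pt {j : ℕ} (hj : j ≤ K) (t : ℝ) :
    gS K m E φ (Function.update s j (s j + t)) = (gS K m E φ s).pt (gx φ j) t := by
  unfold gS Sy.pt Sy.wH
  congr 1
  funext z x
  show E (r0 z) x + ∑ l ∈ Finset.range (K + 1), Function.update s j (s j + t) l *
      ∑ i, z (gz l i) * φ x i =
    (E (r0 z) x + ∑ l ∈ Finset.range (K + 1), s l * ∑ i, z (gz l i) * φ x i) + t * gx φ j z x
  have hj' : j ∈ Finset.range (K + 1) := Finset.mem_range.2 (by omega)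
  rw [add_assoc]
  congr 1
  rw [← Finset.add_sum_erase _ _ hj', ← Finset.add_sum_erase _
    (fun l => s l * ∑ i, z (gz l i) * φ x i) hj', Function.update_self]
  have h1 : ∑ l ∈ (Finset.range (K + 1)).erase j, Function.update s j (s j + t) l *
      ∑ i, z (gz l i) * φ x i =
      ∑ l ∈ (Finset.range (K + 1)).erase j, s l * ∑ i, z (gz l i) * φ x i := by
    refine Finset.sum_congr rfl fun l hl => ?_
    rw [Function.update_of_ne (Finset.ne_of_mem_erase hl)]
  rw [h1]
  unfold gx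
  ring

/-- The free energy is above its tangents: general energies. -/
theorem gS_jensen (h : GD K m E D φ) (h' : GD K m E' D' φ) (s s' : ℕ → ℝ) :
    (gS K m E φ s).Ex (fun z x => gH E' φ s' z x - gH E φ s z x) ≤
      (gS K m E' φ s').fe - (gS K m E φ s).fe :=
  Sy.Reg.jensen (S := gS K m E φ s) (H' := gH E' φ s') (gS_reg h s) (gS_reg h' s')

lemma nh_gx (j : ℕ) : Nh (ι := GI ι₀ N K) (gx φ j) := by
  intro x
  unfold gx
  exact EG.sum _ fun i _ => (EG.coord _).mul (EG.const _)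

lemma hz_eq (j : ℕ) (z : GI ι₀ N K → ℝ) (x : X) : hz φ gz j z x = 1 / N * gx φ j z x := rfl

lemma nh_hz (j : ℕ) : Nh (ι := GI ι₀ N K) (hz φ gz j) := Sy.Nh.const_mul _ (nh_gx j)

/-- The tangent inequality in the strengths. -/
theorem gF_tangent (h : GD K m E D φ) (s s' : ℕ → ℝ) :
    ∑ l ∈ Finset.range (K + 1), (s' l - s l) * (gS K m E φ s).Ex (hz φ gz l) ≤
      gF K m E φ s' - gF K m E φ s := by
  have hN : (0 : ℝ) < N := by exact_mod_cast h.N0
  have h1 := gS_jensen h h s s'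
  have h2 : (fun (z : GI ι₀ N K → ℝ) (x : X) => gH E φ s' z x - gH E φ s z x) = fun z x =>
      ∑ l ∈ Finset.range (K + 1), (N * (s' l - s l)) * hz φ gz l z x := by
    funext z x
    unfold gH
    rw [add_sub_add_left_eq_sub, ← Finset.sum_sub_distrib]
    refine Finset.sum_congr rfl fun l _ => ?_
    rw [hz_eq]
    unfold gx
    field_simp
  rw [h2, (gS_reg h s).Ex_sum _ (fun l _ => Sy.Nh.const_mul _ (nh_hz l))] at h1
  simp only [Sy.Ex_const_mul] at h1
  unfold gF
  rw [← mul_sub]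
  have h3 := mul_le_mul_of_nonneg_left h1 (show 0 ≤ 1 / (N : ℝ) by positivity)
  refine le_trans (le_of_eq ?_) h3
  rw [Finset.mul_sum]
  refine Finset.sum_congr rfl fun l _ => ?_
  field_simp

/-- The tangent inequality in the energy. -/
theorem gF_tangentE (h : GD K m E D φ) (h' : GD K m E' D' φ) (s : ℕ → ℝ) :
    1 / N * (gS K m E φ s).Ex (fun z x => E' (r0 z) x - E (r0 z) x) ≤
      gF K m E' φ s - gF K m E φ s := by
  have h1 := gS_jensen h h' s s
  have h2 : (fun (z : GI ι₀ N K → ℝ) (x : X) => gH E' φ s z x - gH E φ s z x) = fun z x =>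
      E' (r0 z) x - E (r0 z) x := by
    funext z x
    unfold gH
    ring
  rw [h2] at h1
  unfold gF
  rw [← mul_sub]
  exact mul_le_mul_of_nonneg_left h1 (by positivity)

/-- The fields increase the free energy. -/
theorem gF_zero_le (h : GD K m E D φ) (s : ℕ → ℝ) :
    gF K m E φ (fun _ => 0) ≤ gF K m E φ s := by
  have h1 := gF_tangent h (fun _ => 0) s
  have h2 : ∑ l ∈ Finset.range (K + 1), (s l - 0) *
      (gS K m E φ (fun _ => 0)).Ex (hz φ gz l) = 0 := by
    refine Finset.sum_eq_zero fun l hl => ?_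
    rw [Finset.mem_range] at hl
    rw [(gS_fld h (s := fun _ => 0) fun _ _ => le_rfl).Ex_hz (l := l) (Nat.le_of_lt_succ hl)]
    ring
  rw [h2] at h1
  linarith

lemma J_dep_zero_int {W : (ι₀ → ℝ) → ℝ} (hW : EG W) :
    ∫ z : GI ι₀ N K → ℝ, W (r0 z) ∂(gI (GI ι₀ N K)) = ∫ y, W y ∂(gI ι₀) := by
  have h1 : MeasurePreserving (MeasurableEquiv.sumPiEquivProdPi fun _ : GI ι₀ N K => ℝ)
      (gI (GI ι₀ N K)) ((gI ι₀).prod (gI (Fin (K + 1) × Fin N))) :=
    measurePreserving_sumPiEquivProdPi fun _ : GI ι₀ N K => gaussianReal 0 1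
  have h2 : MeasurePreserving (r0 : (GI ι₀ N K → ℝ) → ι₀ → ℝ) (gI (GI ι₀ N K)) (gI ι₀) :=
    measurePreserving_fst.comp h1
  rw [← integral_map h2.measurable.aemeasurable
    (by rw [h2.map_eq]; exact hW.meas.aestronglyMeasurable), h2.map_eq]

/-- Functions of the level zero coordinates are not tilted. -/
theorem gS_Ex_zero (h : GD K m E D φ) (s : ℕ → ℝ) {W : (ι₀ → ℝ) → ℝ} (hW : EG W) :
    (gS K m E φ s).Ex (fun z _ => W (r0 z)) = ∫ y, W y ∂(gI ι₀) := by
  have h1 : Dep (gS K m E φ s).lev 0 fun z : GI ι₀ N K → ℝ => W (r0 z) := by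
    intro z w
    have : r0 (mix (gS K m E φ s).lev 0 z w) = r0 z := by
      funext e
      unfold r0 mix
      exact if_pos (le_refl 0)
    show W (r0 (mix (gS K m E φ s).lev 0 z w)) = W (r0 z)
    rw [this]
  rw [(gS_reg h s).Ex_dep h1 (EG.r0 hW), J_dep_zero_int hW]

/-- The mean of the field of the level zero is at most one (the level zero is not tilted). -/
theorem gS_Ex_hz_zero_le (h : GD K m E D φ) (s : ℕ → ℝ) :
    (gS K m E φ s).Ex (hz φ gz 0) ≤ 1 := by
  have hN : (0 : ℝ) < N := by exact_mod_cast h.N0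
  have hR := gS_reg h s
  have e1 : EG fun z : GI ι₀ N K → ℝ => ∑ i : Fin N, z (gz 0 i) ^ 2 :=
    EG.sum _ fun i _ => (EG.coord _).pow 2
  have h1 : (gS K m E φ s).Ex (hz φ gz 0) ≤ (gS K m E φ s).Ex fun z _ =>
      1 / 2 + 1 / (2 * N) * ∑ i : Fin N, z (gz 0 i) ^ 2 := by
    refine hR.Ex_mono (nh_hz 0) (fun _ => (EG.const _).add (e1.const_mul _)) fun z x => ?_
    have h2 : ∑ i : Fin N, z (gz 0 i) * φ x i ≤
        ∑ i : Fin N, (1 / 2 * z (gz 0 i) ^ 2 + 1 / 2 * φ x i ^ 2) :=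
      Finset.sum_le_sum fun i _ => by nlinarith [sq_nonneg (z (gz 0 i) - φ x i)]
    rw [Finset.sum_add_distrib, ← Finset.mul_sum, ← Finset.mul_sum, h.norm x] at h2
    rw [hz_eq]
    unfold gx
    have h3 := mul_le_mul_of_nonneg_left h2 (show 0 ≤ 1 / (N : ℝ) by positivity)
    refine h3.trans (le_of_eq ?_)
    field_simp
    ring
  refine h1.trans (le_of_eq ?_)
  have hdep : Dep (gS K m E φ s).lev 0 fun z : GI ι₀ N K → ℝ =>
      1 / 2 + 1 / (2 * N) * ∑ i : Fin N, z (gz 0 i) ^ 2 := by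
    intro z w
    have : ∀ i : Fin N, mix (gS K m E φ s).lev 0 z w (gz 0 i) = z (gz 0 i) := by
      intro i
      unfold mix
      rw [if_pos]
      exact (gl_gz (ι₀ := ι₀) (N := N) (K := K) (Nat.zero_le _) i).le
    simp only [this]
  rw [hR.Ex_dep hdep ((EG.const _).add (e1.const_mul _)),
    integral_add (integrable_const _) (e1.const_mul _).integrable, integral_const_mul,
    integral_finsetSum _ fun i _ => ((EG.coord _).pow 2).integrable]
  have h4 : ∀ i : Fin N, ∫ z : GI ι₀ N K → ℝ, z (gz 0 i) ^ 2 ∂(gI (GI ι₀ N K)) = 1 := by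
    intro i
    have h5 := (measurePreserving_eval (fun _ : GI ι₀ N K => gaussianReal 0 1) (gz 0 i))
    have h6 : ∫ z : GI ι₀ N K → ℝ, z (gz 0 i) ^ 2 ∂(gI (GI ι₀ N K)) =
        ∫ x, x ^ 2 ∂(gaussianReal 0 1) := by
      rw [← h5.map_eq, integral_map h5.measurable.aemeasurable
        (by fun_prop)]
    rw [h6]
    have h7 := variance_id_gaussianReal (μ := 0) (v := 1)
    rw [variance_eq_integral (by fun_prop)] at h7
    simpa using h7
  simp only [h4, integral_const, probReal_univ, one_smul, Finset.sum_const, Finset.card_univ,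
    Fintype.card_fin, nsmul_eq_mul, mul_one]
  field_simp
  norm_num

/-- The variance of the free energy. -/
theorem gS_var (h : GD K m E D φ) (s : ℕ → ℝ) {W : (ι₀ → ℝ) → ℝ} (hW : EG W)
    (hb : ∀ z x, ∑ e, D e z x ^ 2 ≤ W z) {V : ℝ} (hV : ∫ z, W z ∂(gI ι₀) ≤ V) :
    ∫ z, ((gS K m E φ s).lg 0 z - (gS K m E φ s).fe) ^ 2 ∂(gI (GI ι₀ N K)) ≤
      V + N * s 0 ^ 2 := by
  have hS := gS_regD h s
  have hR := gS_reg h s
  have hz0 : (0 : ℕ) ≤ (gS K m E φ s).K := Nat.zero_le _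
  have h1 := cc_var_le_one (F := (gS K m E φ s).lg 0)
    (F' := fun e => if (gS K m E φ s).lev e = 0 then (gS K m E φ s).T 0 (gD D φ s e) else fun _ => 0)
    (hR.lip_lg hz0).eg (fun e => by
      by_cases he : (gS K m E φ s).lev e = 0
      · simp only [he, if_true]
        exact hS.pd_lg hz0 he.le
      · simp only [he, if_false]
        exact (hR.dep_lg hz0).pd (Nat.pos_of_ne_zero he)) (fun e => by
      by_cases he : (gS K m E φ s).lev e = 0
      · simp only [he, if_true]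
        exact hR.eg_T hz0 (hS.nh e)
      · simp only [he, if_false]
        exact EG.const 0)
  refine h1.trans ?_
  have h2 : ∀ e : GI ι₀ N K, ∫ z, (if (gS K m E φ s).lev e = 0 then
      (gS K m E φ s).T 0 (gD D φ s e) else fun _ => 0) z ^ 2 ∂(gI (GI ι₀ N K)) ≤
      (gS K m E φ s).Ex (fun z x => if gl e = 0 then gD D φ s e z x ^ 2 else 0) := by
    intro e
    by_cases he : gl e = 0
    · have he' : (gS K m E φ s).lev e = 0 := he
      simp only [he, he', if_true]
      rw [hR.Ex_eq_T (Sy.Nh.pow (hS.nh e) 2)]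
      exact integral_mono ((hR.eg_T hz0 (hS.nh e)).pow 2).integrable
        (hR.eg_T hz0 (Sy.Nh.pow (hS.nh e) 2)).integrable fun z => hR.sq_T_le hz0 (hS.nh e) z
    · have he' : ¬ (gS K m E φ s).lev e = 0 := he
      simp only [he, he', if_false]
      rw [hR.Ex_const]
      simp
  refine (Finset.sum_le_sum fun e _ => h2 e).trans ?_
  have hn : ∀ e : GI ι₀ N K, Nh (fun z x => if gl e = 0 then gD D φ s e z x ^ 2 else 0) := by
    intro e
    by_cases he : gl e = 0
    · simp only [he, if_true]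
      exact Sy.Nh.pow (hS.nh e) 2
    · simp only [he, if_false]
      exact fun _ => EG.const 0
  rw [← hR.Ex_sum Finset.univ fun e _ => hn e]
  have h3 : (gS K m E φ s).Ex (fun z x => ∑ e, if gl e = 0 then gD D φ s e z x ^ 2 else 0) ≤
      (gS K m E φ s).Ex fun z _ => W (r0 z) + N * s 0 ^ 2 := by
    refine hR.Ex_mono (Sy.Nh.sum _ fun e _ => hn e) (fun _ => (EG.r0 hW).add (EG.const _))
      fun z x => ?_
    rw [Fintype.sum_sum_type]
    refine add_le_add ?_ ?_
    · refine le_trans (le_of_eq ?_) (hb (r0 z) x)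
      exact Finset.sum_congr rfl fun e _ => if_pos rfl
    · rw [Fintype.sum_prod_type]
      have h4 : ∀ l : Fin (K + 1), ∑ i : Fin N, (if gl (Sum.inr (l, i) : GI ι₀ N K) = 0 then
          gD D φ s (Sum.inr (l, i)) z x ^ 2 else 0) =
          if l = 0 then N * s 0 ^ 2 else 0 := by
        intro l
        by_cases hl : l = 0
        · subst hl
          rw [if_pos rfl, ← h.norm x, Finset.sum_mul]
          refine Finset.sum_congr rfl fun i _ => ?_
          rw [if_pos (show gl (Sum.inr ((0 : Fin (K + 1)), i) : GI ι₀ N K) = 0 from rfl)]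
          show (s ((0 : Fin (K + 1)) : ℕ) * φ x i) ^ 2 = φ x i ^ 2 * s 0 ^ 2
          rw [Fin.val_zero]
          ring
        · rw [if_neg hl]
          refine Finset.sum_eq_zero fun i _ => if_neg fun hc => hl ?_
          exact Fin.ext hc
      simp only [h4, Finset.sum_ite_eq', Finset.mem_univ, if_true]
      exact le_rfl
  refine h3.trans ?_
  rw [hR.Ex_add (fun _ => EG.r0 hW) (fun _ => EG.const _), gS_Ex_zero h s hW, hR.Ex_const]
  linarith

end Vale.Agent.P146.Sk.Gen
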