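import Vale.Agent.P157.LvConc
import Vale.Agent.P146.Sk.Cheb

/-!
# P146, module GOE: the matrix `W = (G + Gᵀ) / √(2N)`, derivatives and traces
-/

open MeasureTheory ProbabilityTheory Finset Matrix Filter Topology

namespace Vale.Agent.P146.Sk

open Vale.Agent.P157.Lv

set_option linter.all false

/-- indices of the disorder -/
abbrev Ix (N : ℕ) : Type := Fin N × Fin N

/-- `W = (G + Gᵀ) / √(2N)` -/
noncomputable def Wm (N : ℕ) (z : Ix N → ℝ) : Matrix (Fin N) (Fin N) ℝ :=
  Matrix.of fun i j => (z (i, j) + z (j, i)) / √(2 * (N : ℝ))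

/-- the derivative of `W` in the coordinate `e` -/
noncomputable def Em (N : ℕ) (e : Ix N) : Matrix (Fin N) (Fin N) ℝ :=
  Matrix.of fun i j => ((if (i, j) = e then 1 else 0) + (if (j, i) = e then 1 else 0)) /
    √(2 * (N : ℝ))

variable {N : ℕ}

lemma Wm_transpose (z : Ix N → ℝ) : (Wm N z)ᵀ = Wm N z := by
  ext i j; simp [Wm, add_comm]

lemma mul_Em_mul (A B : Matrix (Fin N) (Fin N) ℝ) (e : Ix N) (i j : Fin N) :
    (A * Em N e * B) i j = (A i e.1 * B e.2 j + A i e.2 * B e.1 j) / √(2 * (N : ℝ)) := by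
  have h1 : ∀ l, (A * Em N e) i l = (A i e.1 * (if l = e.2 then 1 else 0) +
      A i e.2 * (if l = e.1 then 1 else 0)) / √(2 * (N : ℝ)) := by
    intro l
    rw [Matrix.mul_apply]
    have h2 : ∀ k, A i k * Em N e k l = (A i k * (if k = e.1 then (if l = e.2 then 1 else 0) else 0)
        + A i k * (if k = e.2 then (if l = e.1 then 1 else 0) else 0)) / √(2 * (N : ℝ)) := by
      intro k
      have h3 : ((k, l) = e) ↔ (k = e.1 ∧ l = e.2) := by
        rw [Prod.ext_iff]
      have h4 : ((l, k) = e) ↔ (k = e.2 ∧ l = e.1) := by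
        rw [Prod.ext_iff]; exact and_comm
      simp only [Em, Matrix.of_apply, h3, h4, ite_and]
      ring
    simp only [h2]
    rw [← sum_div, sum_add_distrib]
    simp only [mul_ite, mul_zero, sum_ite_eq', mem_univ, if_true]
  rw [Matrix.mul_apply]
  simp only [h1]
  have h5 : ∀ l, (A i e.1 * (if l = e.2 then 1 else 0) +
      A i e.2 * (if l = e.1 then 1 else 0)) / √(2 * (N : ℝ)) * B l j =
      ((if l = e.2 then A i e.1 * B l j else 0) + (if l = e.1 then A i e.2 * B l j else 0)) /
        √(2 * (N : ℝ)) := by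
    intro l
    split_ifs <;> ring
  simp only [h5]
  rw [← sum_div, sum_add_distrib]
  simp only [sum_ite_eq', mem_univ, if_true]

/-- entrywise partial derivative -/
def PDM {ι : Type} [DecidableEq ι] (e : ι) (A A' : (ι → ℝ) → Matrix (Fin N) (Fin N) ℝ) : Prop :=
  ∀ i j, PD e (fun z => A z i j) (fun z => A' z i j)

/-- entrywise exponential growth -/
def EGM {ι : Type} [Fintype ι] (A : (ι → ℝ) → Matrix (Fin N) (Fin N) ℝ) : Prop :=
  ∀ i j, EG fun z => A z i j

section calcM

variable {ι : Type} [Fintype ι] [DecidableEq ι] {e : ι}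
  {A A' B B' : (ι → ℝ) → Matrix (Fin N) (Fin N) ℝ}

lemma PDM.mul (hA : PDM e A A') (hB : PDM e B B') :
    PDM e (fun z => A z * B z) (fun z => A' z * B z + A z * B' z) := by
  intro i j
  have h := PD.sum (e := e) Finset.univ (H := fun k z => A z i k * B z k j)
    (H' := fun k z => A' z i k * B z k j + A z i k * B' z k j)
    fun k _ => (hA i k).mul (hB k j)
  simp only [Matrix.mul_apply, Matrix.add_apply]
  simpa only [sum_add_distrib] using h

lemma PDM.sub (hA : PDM e A A') (hB : PDM e B B') :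
    PDM e (fun z => A z - B z) (fun z => A' z - B' z) := fun i j => (hA i j).sub (hB i j)

lemma PDM.add (hA : PDM e A A') (hB : PDM e B B') :
    PDM e (fun z => A z + B z) (fun z => A' z + B' z) := fun i j => (hA i j).add (hB i j)

lemma PDM.const (C : Matrix (Fin N) (Fin N) ℝ) :
    PDM e (fun _ : ι → ℝ => C) (fun _ => 0) := fun i j => PD.const _

lemma PDM.congr (hA : PDM e A A') (h : ∀ z, A' z = B' z) : PDM e A B' := fun i j =>
  (hA i j).congr fun y => by rw [h]

lemma PDM.trace (hA : PDM e A A') : PD e (fun z => (A z).trace) (fun z => (A' z).trace) :=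
  PD.sum Finset.univ fun i _ => hA i i

omit [DecidableEq ι] in
lemma EGM.mul (hA : EGM A) (hB : EGM B) : EGM (fun z => A z * B z) := by
  intro i j
  simp only [Matrix.mul_apply]
  exact EG.sum Finset.univ fun k _ => (hA i k).mul (hB k j)

omit [DecidableEq ι] in
lemma EGM.add (hA : EGM A) (hB : EGM B) : EGM (fun z => A z + B z) := fun i j =>
  (hA i j).add (hB i j)

omit [DecidableEq ι] in
lemma EGM.sub (hA : EGM A) (hB : EGM B) : EGM (fun z => A z - B z) := fun i j =>
  (hA i j).sub (hB i j)

omit [DecidableEq ι] in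
lemma EGM.const (C : Matrix (Fin N) (Fin N) ℝ) : EGM (fun _ : ι → ℝ => C) := fun i j =>
  EG.const _

omit [DecidableEq ι] in
lemma EGM.trace (hA : EGM A) : EG (fun z => (A z).trace) :=
  EG.sum Finset.univ fun i _ => hA i i

end calcM

lemma egm_Wm : EGM (fun z => Wm N z) := by
  intro i j
  have h := ((EG.coord (ι := Ix N) (i, j)).add (EG.coord (ι := Ix N) (j, i))).const_mul
    (√(2 * (N : ℝ)))⁻¹
  have h2 : (fun z : Ix N → ℝ => Wm N z i j) =
      fun z => (√(2 * (N : ℝ)))⁻¹ * (z (i, j) + z (j, i)) := by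
    funext z
    simp only [Wm, Matrix.of_apply]
    ring
  rw [h2]
  exact h

lemma pdm_Wm (e : Ix N) : PDM e (fun z => Wm N z) (fun _ => Em N e) := by
  intro i j
  have h := ((PD.coord (e := e) (i, j)).add (PD.coord (e := e) (j, i))).const_mul
    (√(2 * (N : ℝ)))⁻¹
  have h2 : (fun z : Ix N → ℝ => Wm N z i j) =
      fun z => (√(2 * (N : ℝ)))⁻¹ * (z (i, j) + z (j, i)) := by
    funext z
    simp only [Wm, Matrix.of_apply]
    ring
  rw [h2]
  refine h.congr fun y => ?_
  simp only [Em, Matrix.of_apply]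
  ring

lemma egm_Um (p : ℕ) : EGM (fun z => Um (Wm N z) p) := by
  induction p using Nat.strong_induction_on with
  | _ p ih =>
    match p with
    | 0 => exact EGM.const 1
    | 1 => exact egm_Wm
    | p + 2 => exact (egm_Wm.mul (ih (p + 1) (by omega))).sub (ih p (by omega))

lemma pdm_Um (e : Ix N) (p : ℕ) :
    PDM e (fun z => Um (Wm N z) p) (fun z => DU (Wm N z) (Em N e) p) := by
  induction p using Nat.strong_induction_on with
  | _ p ih =>
    match p with
    | 0 => exact PDM.const 1
    | 1 => exact pdm_Wm e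
    | p + 2 => exact ((pdm_Wm e).mul (ih (p + 1) (by omega))).sub (ih p (by omega))

lemma egm_DU (F : Matrix (Fin N) (Fin N) ℝ) (p : ℕ) : EGM (fun z => DU (Wm N z) F p) := by
  induction p using Nat.strong_induction_on with
  | _ p ih =>
    match p with
    | 0 => exact EGM.const 0
    | 1 => exact EGM.const F
    | p + 2 => exact (((EGM.const F).mul (egm_Um (p + 1))).add
        (egm_Wm.mul (ih (p + 1) (by omega)))).sub (ih p (by omega))

end Vale.Agent.P146.Sk
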