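import Vale.Agent.P146.Sk.Rep

/-!
# P146, module IBPW: integration by parts for the disorder matrix
-/

open MeasureTheory ProbabilityTheory Finset Matrix

namespace Vale.Agent.P146.Sk.Rec

set_option linter.all false

open Vale.Agent.P157 Vale.Agent.P157.Lv Vale.Agent.P157.Lv.Sy

variable {ι X : Type} [Fintype ι] [DecidableEq ι] [Fintype X] [DecidableEq X] [Nonempty X]
  {S : Sy ι X} {N : ℕ} {φ : X → Fin N → ℝ} {A : (ι → ℝ) → Matrix (Fin N) (Fin N) ℝ}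
  {α : (ι → ℝ) → ℝ}

/-- Matrices of the level zero with an operator bound. -/
structure LMat (S : Sy ι X) (A : (ι → ℝ) → Matrix (Fin N) (Fin N) ℝ) (α : (ι → ℝ) → ℝ) :
    Prop where
  eg : EGM A
  dep : ∀ a b, Dep S.lev 0 (fun z => A z a b)
  symm : ∀ z, (A z)ᵀ = A z
  op : ∀ z, OpB (A z) (α z)
  ega : EG α
  nn : ∀ z, 0 ≤ α z

lemma symm_dot {A : Matrix (Fin N) (Fin N) ℝ} (hA : Aᵀ = A) (u v : Fin N → ℝ) :
    (A *ᵥ u) ⬝ᵥ v = (A *ᵥ v) ⬝ᵥ u := by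
  rw [dotProduct_comm, dotProduct_mulVec, ← mulVec_transpose, hA]

/-- The quadratic form of `A` at the level `j`. -/
noncomputable def TT (S : Sy ι X) (φ : X → Fin N → ℝ) (A : (ι → ℝ) → Matrix (Fin N) (Fin N) ℝ)
    (j : ℕ) : ℝ := 1 / N * S.Ex (fun z x => (A z *ᵥ yv S φ j z x) ⬝ᵥ yv S φ j z x)

lemma dep_mulVec {i : ℕ} {r : (ι → ℝ) → Fin N → ℝ} (hA : ∀ a b, Dep S.lev 0 (fun z => A z a b))
    (hr : ∀ a, Dep S.lev i (fun z => r z a)) (a : Fin N) :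
    Dep S.lev i (fun z => (A z *ᵥ r z) a) := by
  intro z w
  simp only [Matrix.mulVec, dotProduct]
  refine sum_congr rfl fun b _ => ?_
  have h1 : A (mix S.lev i z w) a b = A z a b := ((hA a b).mono (Nat.zero_le i)) z w
  have h2 : r (mix S.lev i z w) b = r z b := (hr b) z w
  rw [h1, h2]

lemma eg_mulVec {r : (ι → ℝ) → Fin N → ℝ} (hA : EGM A) (hr : ∀ a, EG (fun z => r z a))
    (a : Fin N) : EG (fun z => (A z *ᵥ r z) a) := by
  simp only [Matrix.mulVec, dotProduct]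
  exact EG.sum _ fun b _ => (hA a b).mul (hr b)

lemma dep_mgv (S : Sy ι X) (φ : X → Fin N → ℝ) (j : ℕ) (a : Fin N) :
    Dep S.lev j (fun z => (fun a => S.mg φ j a z) a) := Fld.dep_mg S φ j a

/-- averaging the second replica -/
lemma PE_lin (hS : S.Reg) {i : ℕ} (hi : i ≤ S.K) (c : ℝ) (v : (ι → ℝ) → X → Fin N → ℝ) :
    PE S i (fun z x x' => c * (v z x ⬝ᵥ φ x')) =
      c * S.Ex (fun z x => v z x ⬝ᵥ fun a => S.mg φ i a z) := by
  rw [PE_const_mul]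
  congr 1
  unfold PE
  rw [if_pos hi]
  congr 1
  funext z x
  simp only [dotProduct, Fld.mg_eq hS hi, mul_sum]
  rw [sum_comm]
  exact sum_congr rfl fun a _ => sum_congr rfl fun x' _ => by ring

lemma PE_rem (hS : S.Reg) (hA : LMat S A α) {i j : ℕ} (hi : i ≤ S.K + 1) (hj : j ≤ S.K + 1) :
    PE S i (fun z x x' => 1 / (N : ℝ) * ((A z *ᵥ yv S φ j z x) ⬝ᵥ φ x')) =
      TT S φ A (min i j) := by
  have hmg : ∀ k, ∀ k' ≤ S.K, k ≤ k' → k ≤ S.K → S.Ex (fun z x =>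
      (A z *ᵥ fun a => S.mg φ k a z) ⬝ᵥ fun a => S.mg φ k' a z) =
      S.Ex (fun z x => (A z *ᵥ fun a => S.mg φ k a z) ⬝ᵥ φ x) := by
    intro k k' hk' hkk' hk
    have h := Ex_dep_dot (φ := φ) hS hkk' (r := fun z => A z *ᵥ fun a => S.mg φ k a z)
      (dep_mulVec hA.dep (dep_mgv S φ k)) (eg_mulVec hA.eg fun a => Fld.eg_mg hS hk a)
    rw [← h]
    congr 1
    funext z x
    rw [yv_le hk']
  rcases le_or_gt i S.K with hi' | hi'
  · rw [PE_lin hS hi']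
    rcases le_or_gt j i with hji | hji
    · rw [min_eq_right hji]
      unfold TT
      have hjK := hji.trans hi'
      simp only [yv_le hjK]
      rw [hmg j i hi' hji hjK, hmg j j hjK le_rfl hjK]
    · rw [min_eq_left hji.le]
      unfold TT
      simp only [yv_le hi']
      have e1 : S.Ex (fun z x => (A z *ᵥ yv S φ j z x) ⬝ᵥ fun a => S.mg φ i a z) =
          S.Ex (fun z x => (A z *ᵥ fun a => S.mg φ i a z) ⬝ᵥ yv S φ j z x) := by
        congr 1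
        funext z x
        exact symm_dot (hA.symm z) _ _
      have h := Ex_dep_dot (φ := φ) hS hji.le (r := fun z => A z *ᵥ fun a => S.mg φ i a z)
        (dep_mulVec hA.dep (dep_mgv S φ i)) (eg_mulVec hA.eg fun a => Fld.eg_mg hS hi' a)
      rw [e1, h, hmg i i hi' le_rfl hi']
  · have hiK : i = S.K + 1 := by omega
    subst hiK
    rw [min_eq_right hj]
    unfold PE TT
    rw [if_neg (by omega), Sy.Ex_const_mul]
    congr 1
    rcases le_or_gt j S.K with hjK | hjK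
    · simp only [yv_le hjK]
      rw [hmg j j hjK le_rfl hjK]
    · simp only [yv_gt hjK]

/-- the form is bounded by the operator bound -/
lemma form_sq_le (hS : S.Reg) (hN : 0 < N) (hφ : ∀ x, ∑ i, φ x i ^ 2 = N) (hA : LMat S A α)
    (j : ℕ) (z : ι → ℝ) (x x' : X) :
    (1 / (N : ℝ) * ((A z *ᵥ yv S φ j z x) ⬝ᵥ φ x')) ^ 2 ≤ α z ^ 2 := by
  have hN' : (0 : ℝ) < N := by exact_mod_cast hN
  have h1 : ((A z *ᵥ yv S φ j z x) ⬝ᵥ φ x') ^ 2 ≤
      nv (A z *ᵥ yv S φ j z x) ^ 2 * nv (φ x') ^ 2 := by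
    rw [← mul_pow, ← sq_abs]
    exact pow_le_pow_left₀ (abs_nonneg _) (abs_dot_le _ _) 2
  have h2 : nv (A z *ᵥ yv S φ j z x) ^ 2 ≤ (α z * nv (yv S φ j z x)) ^ 2 :=
    pow_le_pow_left₀ (nv_nonneg _) (hA.op z _) 2
  rw [mul_pow] at h2
  have h3 := nv_yv (φ := φ) hS hφ j z x
  rw [nv_phi hφ] at h1
  rw [mul_pow, one_div, inv_pow, inv_mul_le_iff₀ (by positivity)]
  calc ((A z *ᵥ yv S φ j z x) ⬝ᵥ φ x') ^ 2 ≤ nv (A z *ᵥ yv S φ j z x) ^ 2 * N := h1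
    _ ≤ (α z ^ 2 * nv (yv S φ j z x) ^ 2) * N := by gcongr
    _ ≤ (α z ^ 2 * N) * N := by gcongr
    _ = (N : ℝ) ^ 2 * α z ^ 2 := by ring

lemma PE_main (hS : S.Reg) (hN : 0 < N) (hφ : ∀ x, ∑ i, φ x i ^ 2 = N) (hA : LMat S A α)
    {i j j' : ℕ} (hi : i ≤ S.K + 1) (hj : j ≤ S.K + 1) (hj' : j' ≤ S.K + 1) :
    |PE S i (fun z x x' => (1 / (N : ℝ) * (yv S φ j z x ⬝ᵥ φ x')) *
      (1 / (N : ℝ) * ((A z *ᵥ yv S φ j' z x) ⬝ᵥ φ x'))) - RR S φ (min i j) * TT S φ A (min i j')| ≤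
      √(vv S φ (min i j)) * √(S.Ex fun z _ => α z ^ 2) := by
  have n1 : Nh2 (fun (z : ι → ℝ) (x x' : X) => 1 / (N : ℝ) * (yv S φ j z x ⬝ᵥ φ x') -
      RR S φ (min i j)) := fun x' =>
    Nh.sub (Nh.const_mul _ ((nhv_yv hS j).dot fun a => Nh.snd fun _ => φ x' a))
      (Nh.fst (EG.const _))
  have n2 : Nh2 (fun (z : ι → ℝ) (x x' : X) =>
      1 / (N : ℝ) * ((A z *ᵥ yv S φ j' z x) ⬝ᵥ φ x')) := fun x' =>
    Nh.const_mul _ (((nhv_yv hS j').mulVec hA.eg).dot fun a => Nh.snd fun _ => φ x' a)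
  have e1 : (fun (z : ι → ℝ) (x x' : X) => (1 / (N : ℝ) * (yv S φ j z x ⬝ᵥ φ x')) *
      (1 / (N : ℝ) * ((A z *ᵥ yv S φ j' z x) ⬝ᵥ φ x'))) = fun z x x' =>
      (1 / (N : ℝ) * (yv S φ j z x ⬝ᵥ φ x') - RR S φ (min i j)) *
      (1 / (N : ℝ) * ((A z *ᵥ yv S φ j' z x) ⬝ᵥ φ x')) +
      RR S φ (min i j) * (1 / (N : ℝ) * ((A z *ᵥ yv S φ j' z x) ⬝ᵥ φ x')) := by
    funext z x x'
    ring
  rw [e1, PE_add hS i (n1.mul n2) (n2.const_mul _), PE_const_mul, PE_rem hS hA hi hj',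
    add_sub_cancel_right]
  refine (PE_cs hS i n1 n2).trans ?_
  refine mul_le_mul (Real.sqrt_le_sqrt (PE_ov hS hN hφ hi hj)) (Real.sqrt_le_sqrt ?_)
    (Real.sqrt_nonneg _) (Real.sqrt_nonneg _)
  rw [← PE_fst hS i (fun z _ => α z ^ 2)]
  exact PE_mono hS i (n2.pow 2) (Nh2.of _ (Nh.fst (hA.ega.pow 2)))
    fun z x x' => form_sq_le hS hN hφ hA j' z x x'

/-! ### The perturbation of the derivatives -/

/-- Conditional averages of observables; no averaging if `i > K`. -/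
noncomputable def Ti (S : Sy ι X) (i : ℕ) (f : (ι → ℝ) → X → ℝ) : (ι → ℝ) → X → ℝ :=
  if i ≤ S.K then fun z _ => S.T i f z else f

lemma nh_Ti (hS : S.Reg) (i : ℕ) {f : (ι → ℝ) → X → ℝ} (hf : Nh f) : Nh (Ti S i f) := by
  unfold Ti
  split_ifs with hi
  · exact Nh.fst (hS.eg_T hi hf)
  · exact hf

lemma Ti_add (hS : S.Reg) (i : ℕ) {f g : (ι → ℝ) → X → ℝ} (hf : Nh f) (hg : Nh g) (z : ι → ℝ)
    (x : X) : Ti S i (fun z x => f z x + g z x) z x = Ti S i f z x + Ti S i g z x := by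
  unfold Ti
  split_ifs with hi
  · exact hS.T_add hi hf hg z
  · rfl

lemma Ti_const_mul (i : ℕ) (c : ℝ) (f : (ι → ℝ) → X → ℝ) (z : ι → ℝ)
    (x : X) : Ti S i (fun z x => c * f z x) z x = c * Ti S i f z x := by
  unfold Ti
  split_ifs with hi
  · exact Sy.T_const_mul S i c f z
  · rfl

lemma Ex_Ti_sq_le (hS : S.Reg) (i : ℕ) {f : (ι → ℝ) → X → ℝ} (hf : Nh f) :
    S.Ex (fun z x => Ti S i f z x ^ 2) ≤ S.Ex (fun z x => f z x ^ 2) := by
  unfold Ti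
  split_ifs with hi
  · rw [← hS.Ex_T hi (Nh.pow hf 2)]
    exact hS.Ex_mono (Nh.fst ((hS.eg_T hi hf).pow 2)) (Nh.fst (hS.eg_T hi (Nh.pow hf 2)))
      fun z x => hS.sq_T_le hi hf z
  · exact le_rfl

/-- Cauchy-Schwarz for sums. -/
lemma sum_cs (hS : S.Reg) {κ : Type} [Fintype κ] {f g : κ → (ι → ℝ) → X → ℝ}
    (hf : ∀ e, Nh (f e)) (hg : ∀ e, Nh (g e)) (i : ℕ) :
    |S.Ex (fun z x => ∑ e, f e z x * Ti S i (g e) z x)| ≤
      √(S.Ex (fun z x => ∑ e, f e z x ^ 2)) * √(S.Ex (fun z x => ∑ e, g e z x ^ 2)) := by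
  rw [hS.Ex_sum _ fun e _ => Nh.mul (hf e) (nh_Ti hS i (hg e)),
    hS.Ex_sum _ fun e _ => Nh.pow (hf e) 2, hS.Ex_sum _ fun e _ => Nh.pow (hg e) 2]
  have hsq : ∀ (h : (ι → ℝ) → X → ℝ), Nh h → 0 ≤ S.Ex (fun z x => h z x ^ 2) := by
    intro h hh
    rw [← hS.Ex_const 0]
    exact hS.Ex_mono (Nh.fst (EG.const 0)) (Nh.pow hh 2) fun z x => sq_nonneg _
  refine (abs_sum_le_sum_abs _ _).trans ?_
  have h1 : ∀ e, |S.Ex (fun z x => f e z x * Ti S i (g e) z x)| ≤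
      √(S.Ex (fun z x => f e z x ^ 2)) * √(S.Ex (fun z x => g e z x ^ 2)) := by
    intro e
    refine (Ex_abs_cs hS (hf e) (nh_Ti hS i (hg e))).trans ?_
    exact mul_le_mul_of_nonneg_left (Real.sqrt_le_sqrt (Ex_Ti_sq_le hS i (hg e)))
      (Real.sqrt_nonneg _)
  refine (sum_le_sum fun e _ => h1 e).trans ?_
  exact Real.sum_sqrt_mul_sqrt_le _ (fun e => hsq _ (hf e)) (fun e => hsq _ (hg e))

/-- The standing hypotheses. -/
structure Ctx (S : Sy ι X) (D : ι → (ι → ℝ) → X → ℝ) (g : Ix N → ι) (φ : X → Fin N → ℝ)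
    (c : ℝ) (B : Ix N → (ι → ℝ) → X → ℝ) (w : (ι → ℝ) → ℝ) : Prop where
  reg : S.RegD D
  N0 : 0 < N
  norm : ∀ x, ∑ i, φ x i ^ 2 = N
  inj : Function.Injective g
  lev : ∀ e, S.lev (g e) = 0
  dB : ∀ e z x, D (g e) z x = c * (φ x e.1 * φ x e.2 / √(2 * (N : ℝ))) + B e z x
  nB : ∀ e, Nh (B e)
  bB : ∀ z x, ∑ e, B e z x ^ 2 ≤ N * w z
  ew : EG w

variable {D : ι → (ι → ℝ) → X → ℝ} {g : Ix N → ι} {c : ℝ} {B : Ix N → (ι → ℝ) → X → ℝ}
  {w : (ι → ℝ) → ℝ}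

/-- The functional `L`. -/
noncomputable def LL (S : Sy ι X) (D : ι → (ι → ℝ) → X → ℝ) (g : Ix N → ι)
    (φ : X → Fin N → ℝ) (A : (ι → ℝ) → Matrix (Fin N) (Fin N) ℝ) (i j j' : ℕ) : ℝ :=
  1 / N * S.Ex (fun z x => ∑ e, Me (yv S φ j z x) (A z *ᵥ yv S φ j' z x) e *
    Ti S i (D (g e)) z x)

/-- the main part of the functional -/
lemma LL_main (hC : Ctx S D g φ c B w) (hA : EGM A) (i j j' : ℕ) :
    S.Ex (fun z x => ∑ e, Me (yv S φ j z x) (A z *ᵥ yv S φ j' z x) e *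
      Ti S i (fun _ x => φ x e.1 * φ x e.2 / √(2 * (N : ℝ))) z x) =
      N * PE S i (fun z x x' => (1 / (N : ℝ) * (yv S φ j z x ⬝ᵥ φ x')) *
      (1 / (N : ℝ) * ((A z *ᵥ yv S φ j' z x) ⬝ᵥ φ x'))) := by
  have hN' : (0 : ℝ) < N := by exact_mod_cast hC.N0
  rw [← PE_const_mul]
  unfold PE Ti
  split_ifs with hi
  · congr 1
    funext z x
    have h1 : ∀ e : Ix N, S.T i (fun _ x => φ x e.1 * φ x e.2 / √(2 * (N : ℝ))) z =
        ∑ x', S.pr i z x' * (φ x' e.1 * φ x' e.2 / √(2 * (N : ℝ))) := fun e =>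
      hC.reg.toReg.T_pr hi _ z
    simp only [h1, mul_sum]
    rw [sum_comm]
    refine sum_congr rfl fun x' _ => ?_
    have h2 := sum_Me_mul hC.N0 (yv S φ j z x) (A z *ᵥ yv S φ j' z x) (φ x')
    calc ∑ e, Me (yv S φ j z x) (A z *ᵥ yv S φ j' z x) e *
          (S.pr i z x' * (φ x' e.1 * φ x' e.2 / √(2 * (N : ℝ))))
        = S.pr i z x' * ∑ e, Me (yv S φ j z x) (A z *ᵥ yv S φ j' z x) e *
          (φ x' e.1 * φ x' e.2 / √(2 * (N : ℝ))) := by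
          rw [mul_sum]
          exact sum_congr rfl fun e _ => by ring
      _ = _ := by
          rw [h2]
          field_simp
  · congr 1
    funext z x
    rw [sum_Me_mul hC.N0]
    field_simp

/-- the error of the functional -/
noncomputable def er (S : Sy ι X) (φ : X → Fin N → ℝ) (c : ℝ) (α w : (ι → ℝ) → ℝ) (k : ℕ) : ℝ :=
  √(S.Ex fun z _ => α z ^ 2) * (|c| * √(vv S φ k) + √(2 * S.Ex fun z _ => w z))

lemma LL_le (hC : Ctx S D g φ c B w) (hA : LMat S A α) {i j j' : ℕ} (hi : i ≤ S.K + 1)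
    (hj : j ≤ S.K + 1) (hj' : j' ≤ S.K + 1) :
    |LL S D g φ A i j j' - c * (RR S φ (min i j) * TT S φ A (min i j'))| ≤
      er S φ c α w (min i j) := by
  have hS := hC.reg.toReg
  have hN' : (0 : ℝ) < N := by exact_mod_cast hC.N0
  have nM : ∀ e : Ix N, Nh (fun z x => Me (yv S φ j z x) (A z *ᵥ yv S φ j' z x) e) := fun e =>
    (nhv_yv hS j).me ((nhv_yv hS j').mulVec hA.eg) e
  have nP : ∀ e : Ix N, Nh (ι := ι) (fun _ x => φ x e.1 * φ x e.2 / √(2 * (N : ℝ))) := fun e =>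
    Nh.snd fun x => φ x e.1 * φ x e.2 / √(2 * (N : ℝ))
  have hD : ∀ e : Ix N, D (g e) = fun z x =>
      c * (fun (_ : ι → ℝ) (x : X) => φ x e.1 * φ x e.2 / √(2 * (N : ℝ))) z x + B e z x := by
    intro e
    funext z x
    exact hC.dB e z x
  have e1 : (fun z x => ∑ e, Me (yv S φ j z x) (A z *ᵥ yv S φ j' z x) e *
      Ti S i (D (g e)) z x) = fun z x =>
      c * ∑ e, Me (yv S φ j z x) (A z *ᵥ yv S φ j' z x) e *
        Ti S i (fun _ x => φ x e.1 * φ x e.2 / √(2 * (N : ℝ))) z x +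
      ∑ e, Me (yv S φ j z x) (A z *ᵥ yv S φ j' z x) e * Ti S i (B e) z x := by
    funext z x
    rw [mul_sum, ← sum_add_distrib]
    refine sum_congr rfl fun e _ => ?_
    rw [hD e, Ti_add hS i (Nh.const_mul c (nP e)) (hC.nB e), Ti_const_mul]
    ring
  have n1 : Nh (fun z x => ∑ e, Me (yv S φ j z x) (A z *ᵥ yv S φ j' z x) e *
        Ti S i (fun _ x => φ x e.1 * φ x e.2 / √(2 * (N : ℝ))) z x) :=
    Nh.sum _ fun e _ => Nh.mul (nM e) (nh_Ti hS i (nP e))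
  have n2 : Nh (fun z x => ∑ e, Me (yv S φ j z x) (A z *ᵥ yv S φ j' z x) e *
        Ti S i (B e) z x) :=
    Nh.sum _ fun e _ => Nh.mul (nM e) (nh_Ti hS i (hC.nB e))
  unfold LL
  rw [e1, hS.Ex_add (Nh.const_mul c n1) n2, Sy.Ex_const_mul, LL_main hC hA.eg]
  set P := PE S i (fun z x x' => (1 / (N : ℝ) * (yv S φ j z x ⬝ᵥ φ x')) *
      (1 / (N : ℝ) * ((A z *ᵥ yv S φ j' z x) ⬝ᵥ φ x'))) with hP
  set Q := S.Ex (fun z x => ∑ e, Me (yv S φ j z x) (A z *ᵥ yv S φ j' z x) e *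
    Ti S i (B e) z x) with hQ
  have h1 := PE_main hS hC.N0 hC.norm hA hi hj hj'
  rw [← hP] at h1
  have hα : 0 ≤ S.Ex fun z _ => α z ^ 2 := by
    rw [← hS.Ex_const 0]
    exact hS.Ex_mono (Nh.fst (EG.const 0)) (Nh.fst (hA.ega.pow 2)) fun z x => sq_nonneg _
  have h2 : |Q| ≤ N * (√(S.Ex fun z _ => α z ^ 2) * √(2 * S.Ex fun z _ => w z)) := by
    refine (sum_cs hS nM hC.nB i).trans ?_
    have h3 : S.Ex (fun z x => ∑ e, Me (yv S φ j z x) (A z *ᵥ yv S φ j' z x) e ^ 2) ≤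
        2 * N * S.Ex fun z _ => α z ^ 2 := by
      rw [← Sy.Ex_const_mul]
      refine hS.Ex_mono (Nh.sum _ fun e _ => Nh.pow (nM e) 2)
        (Nh.const_mul _ (Nh.fst (hA.ega.pow 2))) fun z x => ?_
      refine (sum_Me_sq hC.N0 _ _).trans ?_
      have h4 : nv (A z *ᵥ yv S φ j' z x) ^ 2 ≤ (α z * nv (yv S φ j' z x)) ^ 2 :=
        pow_le_pow_left₀ (nv_nonneg _) (hA.op z _) 2
      rw [mul_pow] at h4
      have h5 := nv_yv (φ := φ) hS hC.norm j z x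
      have h6 := nv_yv (φ := φ) hS hC.norm j' z x
      have h7 : nv (A z *ᵥ yv S φ j' z x) ^ 2 ≤ α z ^ 2 * N := h4.trans (by gcongr)
      calc 2 / (N : ℝ) * (nv (yv S φ j z x) ^ 2 * nv (A z *ᵥ yv S φ j' z x) ^ 2)
          ≤ 2 / (N : ℝ) * (N * (α z ^ 2 * N)) := by gcongr
        _ = 2 * N * α z ^ 2 := by field_simp
    have h4 : S.Ex (fun z x => ∑ e, B e z x ^ 2) ≤ N * S.Ex fun z _ => w z := by
      rw [← Sy.Ex_const_mul]
      exact hS.Ex_mono (Nh.sum _ fun e _ => Nh.pow (hC.nB e) 2)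
        (Nh.const_mul _ (Nh.fst hC.ew)) fun z x => hC.bB z x
    calc √(S.Ex (fun z x => ∑ e, Me (yv S φ j z x) (A z *ᵥ yv S φ j' z x) e ^ 2)) *
          √(S.Ex (fun z x => ∑ e, B e z x ^ 2))
        ≤ √(2 * N * S.Ex fun z _ => α z ^ 2) * √(N * S.Ex fun z _ => w z) :=
          mul_le_mul (Real.sqrt_le_sqrt h3) (Real.sqrt_le_sqrt h4) (Real.sqrt_nonneg _)
            (Real.sqrt_nonneg _)
      _ = N * (√(S.Ex fun z _ => α z ^ 2) * √(2 * S.Ex fun z _ => w z)) := by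
          have hw : 0 ≤ S.Ex fun z _ => w z := by
            have h5 : 0 ≤ (N : ℝ) * S.Ex fun z _ => w z := by
              refine le_trans ?_ h4
              rw [← hS.Ex_const 0]
              exact hS.Ex_mono (Nh.fst (EG.const 0)) (Nh.sum _ fun e _ => Nh.pow (hC.nB e) 2)
                fun z x => sum_nonneg fun e _ => sq_nonneg _
            exact (mul_nonneg_iff_of_pos_left hN').1 h5
          rw [← Real.sqrt_mul (by positivity), ← Real.sqrt_mul hα,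
            show 2 * (N : ℝ) * (S.Ex fun z _ => α z ^ 2) * (N * S.Ex fun z _ => w z) =
              (N : ℝ) ^ 2 * ((S.Ex fun z _ => α z ^ 2) * (2 * S.Ex fun z _ => w z)) by ring,
            Real.sqrt_mul (by positivity), Real.sqrt_sq hN'.le]
  have e2 : 1 / (N : ℝ) * (c * (N * P) + Q) - c * (RR S φ (min i j) * TT S φ A (min i j')) =
      c * (P - RR S φ (min i j) * TT S φ A (min i j')) + 1 / N * Q := by
    field_simp
    ring
  rw [e2]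
  refine (abs_add_le _ _).trans ?_
  rw [abs_mul, abs_mul, abs_of_pos (show (0 : ℝ) < 1 / N by positivity)]
  unfold er
  have h5 : 1 / (N : ℝ) * |Q| ≤ √(S.Ex fun z _ => α z ^ 2) * √(2 * S.Ex fun z _ => w z) := by
    rw [one_div, inv_mul_le_iff₀ hN']
    exact h2
  have h6 := mul_le_mul_of_nonneg_left h1 (abs_nonneg c)
  calc |c| * |P - RR S φ (min i j) * TT S φ A (min i j')| + 1 / (N : ℝ) * |Q|
      ≤ |c| * (√(vv S φ (min i j)) * √(S.Ex fun z _ => α z ^ 2)) +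
        √(S.Ex fun z _ => α z ^ 2) * √(2 * S.Ex fun z _ => w z) := add_le_add h6 h5
    _ = _ := by ring

end Vale.Agent.P146.Sk.Rec
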