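import Vale.Agent.P146.Sk.Ibpw

/-!
# P146, module IBPW: the recursion
-/

open MeasureTheory ProbabilityTheory Finset Matrix

namespace Vale.Agent.P146.Sk.Rec

set_option linter.all false

open Vale.Agent.P157 Vale.Agent.P157.Lv Vale.Agent.P157.Lv.Sy

variable {ι X : Type} [Fintype ι] [DecidableEq ι] [Fintype X] [DecidableEq X] [Nonempty X]
  {S : Sy ι X} {N : ℕ} {φ : X → Fin N → ℝ} {A : (ι → ℝ) → Matrix (Fin N) (Fin N) ℝ}
  {α : (ι → ℝ) → ℝ} {D : ι → (ι → ℝ) → X → ℝ} {g : Ix N → ι} {c : ℝ}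
  {B : Ix N → (ι → ℝ) → X → ℝ} {w : (ι → ℝ) → ℝ}

/-! ### Functions of the disorder -/

lemma eg_g (g : Ix N → ι) {F : (Ix N → ℝ) → ℝ} (hF : EG F) :
    EG (fun z : ι → ℝ => F (fun e => z (g e))) := by
  obtain ⟨C, a, hC, ha, h⟩ := hF.bdd
  refine ⟨hF.meas.comp (measurable_pi_lambda _ fun e => measurable_pi_apply (g e)), C, a, hC, ha,
    fun y => (h _).trans ?_⟩
  refine mul_le_mul_of_nonneg_left (Real.exp_le_exp.2 (mul_le_mul_of_nonneg_left ?_ ha)) hC
  rw [pi_norm_le_iff_of_nonneg (norm_nonneg _)]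
  exact fun e => norm_le_pi_norm y (g e)

lemma update_g (hg : Function.Injective g) (e : Ix N) (z : ι → ℝ) (t : ℝ) :
    (fun e' => Function.update z (g e) t (g e')) = Function.update (fun e' => z (g e')) e t := by
  funext e'
  by_cases h : e' = e
  · subst h
    simp
  · rw [Function.update_of_ne (fun hc => h (hg hc)), Function.update_of_ne h]

lemma pd_g (hg : Function.Injective g) {e : Ix N} {F F' : (Ix N → ℝ) → ℝ} (hF : PD e F F') :
    PD (g e) (fun z : ι → ℝ => F (fun e => z (g e))) (fun z => F' (fun e => z (g e))) := by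
  intro y t
  have h := hF (fun e' => y (g e')) t
  simp only [update_g hg]
  exact h

lemma dep_g {lev : ι → ℕ} (hl : ∀ e, lev (g e) = 0) (F : (Ix N → ℝ) → ℝ) :
    Dep lev 0 (fun z : ι → ℝ => F (fun e => z (g e))) := by
  intro z w
  simp only
  congr 1
  funext e
  simp [mix, hl e]

/-- The disorder matrix. -/
noncomputable def WW (g : Ix N → ι) (z : ι → ℝ) : Matrix (Fin N) (Fin N) ℝ :=
  Wm N (fun e => z (g e))

/-- The Chebyshev polynomials of the disorder matrix. -/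
noncomputable def UU (g : Ix N → ι) (p : ℕ) (z : ι → ℝ) : Matrix (Fin N) (Fin N) ℝ :=
  Um (WW g z) p

/-- Operator bounds of the disorder matrix. -/
structure OM (g : Ix N → ι) (om : (ι → ℝ) → ℝ) : Prop where
  one : ∀ z, 1 ≤ om z
  op : ∀ z, OpB (WW g z) (om z - 1)
  eg : EG om

lemma egm_UU (g : Ix N → ι) (p : ℕ) : EGM (UU g p) := fun i j => eg_g g (egm_Um p i j)

lemma egm_DUU (g : Ix N → ι) (F : Matrix (Fin N) (Fin N) ℝ) (p : ℕ) :
    EGM (fun z => DU (WW g z) F p) := fun i j => eg_g g (egm_DU F p i j)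

lemma pdm_UU (hg : Function.Injective g) (e : Ix N) (p : ℕ) :
    PDM (g e) (UU g p) (fun z => DU (WW g z) (Em N e) p) := fun i j => pd_g hg (pdm_Um e p i j)

variable {om : (ι → ℝ) → ℝ}

lemma lmat_UU (hl : ∀ e, S.lev (g e) = 0) (ho : OM g om) (p : ℕ) :
    LMat S (UU g p) (fun z => om z ^ p) where
  eg := egm_UU g p
  dep := fun a b => dep_g hl (fun y => Um (Wm N y) p a b)
  symm := fun z => Um_transpose (Wm_transpose _) p
  op := fun z => by
    have h := OpB.um (by linarith [ho.one z]) (ho.op z) p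
    rwa [show 1 + (om z - 1) = om z by ring] at h
  ega := ho.eg.pow p
  nn := fun z => pow_nonneg (by linarith [ho.one z]) p

/-! ### Integration by parts -/

lemma ibp_sum (hC : Ctx S D g φ c B w) {h h' : Ix N → (ι → ℝ) → X → ℝ}
    (hd : ∀ e x, PD (g e) (fun z => h e z x) (fun z => h' e z x)) (hh : ∀ e, Nh (h e))
    (hh' : ∀ e, Nh (h' e)) :
    S.Ex (fun z x => ∑ e, z (g e) * h e z x) = S.Ex (fun z x => ∑ e, h' e z x) +
      (S.Ex (fun z x => ∑ e, h e z x * Ti S (S.K + 1) (D (g e)) z x) -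
      ∑ l ∈ Finset.range (S.K + 1), S.p l *
        S.Ex (fun z x => ∑ e, h e z x * Ti S l (D (g e)) z x)) := by
  have hS := hC.reg.toReg
  have nD : ∀ e, Nh (D (g e)) := fun e => hC.reg.nh (g e)
  have nT : ∀ l ∈ Finset.range (S.K + 1), ∀ e, EG (S.T l (D (g e))) := fun l hl e =>
    hS.eg_T (Nat.lt_succ_iff.1 (Finset.mem_range.1 hl)) (nD e)
  rw [hS.Ex_sum _ fun e _ => Nh.mul (Nh.fst (EG.coord (g e))) (hh e),
    hS.Ex_sum _ fun e _ => hh' e,
    hS.Ex_sum _ fun e _ => Nh.mul (hh e) (nh_Ti hS _ (nD e))]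
  have e1 : ∀ l ∈ Finset.range (S.K + 1), S.p l *
      S.Ex (fun z x => ∑ e, h e z x * Ti S l (D (g e)) z x) =
      ∑ e, S.p l * S.Ex (fun z x => h e z x * Ti S l (D (g e)) z x) := by
    intro l _
    rw [hS.Ex_sum _ fun e _ => Nh.mul (hh e) (nh_Ti hS _ (nD e)), mul_sum]
  rw [sum_congr rfl e1, sum_comm, ← sum_sub_distrib, ← sum_add_distrib]
  refine sum_congr rfl fun e _ => ?_
  rw [hC.reg.ibp (g e) (hd e) (hh e) (hh' e), hC.lev e, ← Finset.range_eq_Ico]
  have e2 : (fun z x => h' e z x + h e z x * (D (g e) z x -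
      ∑ l ∈ Finset.range (S.K + 1), S.p l * S.T l (D (g e)) z)) = fun z x =>
      h' e z x + (h e z x * D (g e) z x -
        ∑ l ∈ Finset.range (S.K + 1), S.p l * (h e z x * S.T l (D (g e)) z)) := by
    funext z x
    rw [mul_sub, mul_sum]
    congr 2
    exact sum_congr rfl fun l _ => by ring
  have nS : Nh (fun z x => ∑ l ∈ Finset.range (S.K + 1),
      S.p l * (h e z x * S.T l (D (g e)) z)) :=
    Nh.sum _ fun l hl => Nh.const_mul _ (Nh.mul (hh e) (Nh.fst (nT l hl e)))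
  rw [e2, hS.Ex_add (hh' e) (Nh.sub (Nh.mul (hh e) (nD e)) nS),
    hS.Ex_sub (Nh.mul (hh e) (nD e)) nS,
    hS.Ex_sum _ fun l hl => Nh.const_mul _ (Nh.mul (hh e) (Nh.fst (nT l hl e)))]
  congr 2
  · unfold Ti
    rw [if_neg (by omega)]
  · refine sum_congr rfl fun l hl => ?_
    rw [Sy.Ex_const_mul]
    unfold Ti
    rw [if_pos (Nat.lt_succ_iff.1 (Finset.mem_range.1 hl))]

lemma pd_me {e' : ι} {u u' v v' : (ι → ℝ) → X → Fin N → ℝ} {x : X}
    (hu : ∀ a, PD e' (fun z => u z x a) (fun z => u' z x a))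
    (hv : ∀ a, PD e' (fun z => v z x a) (fun z => v' z x a)) (e : Ix N) :
    PD e' (fun z => Me (u z x) (v z x) e)
      (fun z => Me (u' z x) (v z x) e + Me (u z x) (v' z x) e) := by
  have h := ((((hu e.1).mul (hv e.2)).add ((hu e.2).mul (hv e.1))).const_mul
    (1 / √(2 * (N : ℝ))))
  have e1 : (fun z => Me (u z x) (v z x) e) = fun z =>
      1 / √(2 * (N : ℝ)) * (u z x e.1 * v z x e.2 + u z x e.2 * v z x e.1) := by
    funext z
    simp only [Me]
    ring
  rw [e1]
  refine h.congr fun z => ?_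
  simp only [Me]
  ring

lemma pd_mulVec {e' : ι} {u u' : (ι → ℝ) → X → Fin N → ℝ} {x : X}
    {A A' : (ι → ℝ) → Matrix (Fin N) (Fin N) ℝ} (hA : PDM e' A A')
    (hu : ∀ a, PD e' (fun z => u z x a) (fun z => u' z x a)) (a : Fin N) :
    PD e' (fun z => (A z *ᵥ u z x) a) (fun z => (A' z *ᵥ u z x + A z *ᵥ u' z x) a) := by
  have h := PD.sum (e := e') Finset.univ (H := fun b z => A z a b * u z x b)
    (H' := fun b z => A' z a b * u z x b + A z a b * u' z x b)
    fun b _ => (hA a b).mul (hu b)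
  refine h.congr fun z => ?_
  simp only [Pi.add_apply, Matrix.mulVec, dotProduct, sum_add_distrib]

/-- moving a conditional average -/
lemma Ex_me_T (hS : S.Reg) {j : ℕ} (hj : j ≤ S.K) {f : (ι → ℝ) → X → Fin N → ℝ} (hf : NhV f)
    {v : (ι → ℝ) → Fin N → ℝ} (hv : ∀ a, Dep S.lev j (fun z => v z a))
    (hve : ∀ a, EG (fun z => v z a)) (e : Ix N) :
    S.Ex (fun z _ => Me (fun a => S.T j (fun z x => f z x a) z) (v z) e) =
      S.Ex (fun z x => Me (f z x) (v z) e) := by
  have e1 : (fun (z : ι → ℝ) (_ : X) => Me (fun a => S.T j (fun z x => f z x a) z) (v z) e) =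
      fun z _ => 1 / √(2 * (N : ℝ)) * (v z e.2 * S.T j (fun z x => f z x e.1) z +
        v z e.1 * S.T j (fun z x => f z x e.2) z) := by
    funext z x
    simp only [Me]
    ring
  have e2 : (fun (z : ι → ℝ) (x : X) => Me (f z x) (v z) e) =
      fun z x => 1 / √(2 * (N : ℝ)) * (v z e.2 * f z x e.1 + v z e.1 * f z x e.2) := by
    funext z x
    simp only [Me]
    ring
  rw [e1, e2, Sy.Ex_const_mul, Sy.Ex_const_mul,
    hS.Ex_add (Nh.fst ((hve e.2).mul (hS.eg_T hj (hf e.1))))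
      (Nh.fst ((hve e.1).mul (hS.eg_T hj (hf e.2)))),
    hS.Ex_add (Nh.mul (Nh.fst (hve e.2)) (hf e.1)) (Nh.mul (Nh.fst (hve e.1)) (hf e.2)),
    hS.Ex_mul_T hj (hv e.2) (hve e.2) (hf e.1), hS.Ex_mul_T hj (hv e.1) (hve e.1) (hf e.2)]

lemma Me_comm (u v : Fin N → ℝ) (e : Ix N) : Me u v e = Me v u e := by
  simp only [Me]
  ring

/-- matrices of the level zero commute with the conditional averages -/
lemma mulVec_T (hS : S.Reg) {j : ℕ} (hj : j ≤ S.K) (hA : EGM A)
    (hd : ∀ a b, Dep S.lev 0 (fun z => A z a b)) {f : (ι → ℝ) → X → Fin N → ℝ} (hf : NhV f)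
    (z : ι → ℝ) : (A z *ᵥ fun b => S.T j (fun z x => f z x b) z) =
      fun a => S.T j (fun z x => (A z *ᵥ f z x) a) z := by
  funext a
  simp only [Matrix.mulVec, dotProduct]
  rw [hS.T_sum hj _ fun b _ => Nh.mul (Nh.fst (hA a b)) (hf b)]
  refine sum_congr rfl fun b _ => ?_
  rw [Sy.T_mul_left S (φ := fun z => A z a b) ((hd a b).mono (Nat.zero_le j))
    (fun z x => f z x b)]

/-- the derivative of the density at the level `j` -/
noncomputable def GG (S : Sy ι X) (D : ι → (ι → ℝ) → X → ℝ) (g : Ix N → ι) (j : ℕ) (e : Ix N) :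
    (ι → ℝ) → X → ℝ := fun z x => D (g e) z x -
      ∑ i ∈ Finset.Ico (j + 1) (S.K + 1), S.p i * S.T i (D (g e)) z -
      S.m (j + 1) * S.T j (D (g e)) z

lemma nh_GG (hC : Ctx S D g φ c B w) {j : ℕ} (hj : j ≤ S.K) (e : Ix N) : Nh (GG S D g j e) := by
  have hS := hC.reg.toReg
  have nD : Nh (D (g e)) := hC.reg.nh (g e)
  refine Nh.sub (Nh.sub nD (Nh.sum _ fun i hi => Nh.const_mul _ (Nh.fst (hS.eg_T ?_ nD))))
    (Nh.const_mul _ (Nh.fst (hS.eg_T hj nD)))
  have := Finset.mem_Ico.1 hi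
  omega

/-- the functional `M` -/
noncomputable def MM (S : Sy ι X) (D : ι → (ι → ℝ) → X → ℝ) (g : Ix N → ι)
    (φ : X → Fin N → ℝ) (A : (ι → ℝ) → Matrix (Fin N) (Fin N) ℝ) (j a b : ℕ) : ℝ :=
  LL S D g φ A (S.K + 1) a b -
    ∑ i ∈ Finset.Ico (j + 1) (S.K + 1), S.p i * LL S D g φ A i a b -
    S.m (j + 1) * LL S D g φ A j a b

lemma MM_eq (hC : Ctx S D g φ c B w) (hA : EGM A) {j : ℕ} (hj : j ≤ S.K) (a b : ℕ)  :
    1 / (N : ℝ) * S.Ex (fun z x => ∑ e, Me (yv S φ a z x) (A z *ᵥ yv S φ b z x) e *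
      GG S D g j e z x) = MM S D g φ A j a b := by
  have hS := hC.reg.toReg
  have nD : ∀ e, Nh (D (g e)) := fun e => hC.reg.nh (g e)
  have nM : ∀ e : Ix N, Nh (fun z x => Me (yv S φ a z x) (A z *ᵥ yv S φ b z x) e) := fun e =>
    (nhv_yv hS a).me ((nhv_yv hS b).mulVec hA) e
  have nL : ∀ i, Nh (fun z x => ∑ e, Me (yv S φ a z x) (A z *ᵥ yv S φ b z x) e *
      Ti S i (D (g e)) z x) := fun i => Nh.sum _ fun e _ => Nh.mul (nM e) (nh_Ti hS i (nD e))
  have e1 : (fun z x => ∑ e, Me (yv S φ a z x) (A z *ᵥ yv S φ b z x) e *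
      GG S D g j e z x) = fun z x =>
      (∑ e, Me (yv S φ a z x) (A z *ᵥ yv S φ b z x) e * Ti S (S.K + 1) (D (g e)) z x -
      ∑ i ∈ Finset.Ico (j + 1) (S.K + 1), S.p i *
        ∑ e, Me (yv S φ a z x) (A z *ᵥ yv S φ b z x) e * Ti S i (D (g e)) z x) -
      S.m (j + 1) * ∑ e, Me (yv S φ a z x) (A z *ᵥ yv S φ b z x) e *
        Ti S j (D (g e)) z x := by
    funext z x
    have e2 : ∀ i ∈ Finset.Ico (j + 1) (S.K + 1), S.p i *
        ∑ e, Me (yv S φ a z x) (A z *ᵥ yv S φ b z x) e * Ti S i (D (g e)) z x =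
        ∑ e, Me (yv S φ a z x) (A z *ᵥ yv S φ b z x) e * (S.p i * S.T i (D (g e)) z) := by
      intro i hi
      have hi' : i ≤ S.K := by
        have := Finset.mem_Ico.1 hi
        omega
      rw [mul_sum]
      refine sum_congr rfl fun e _ => ?_
      unfold Ti
      rw [if_pos hi']
      ring
    rw [sum_congr rfl e2, sum_comm, mul_sum, ← sum_sub_distrib, ← sum_sub_distrib]
    refine sum_congr rfl fun e _ => ?_
    rw [← mul_sum]
    unfold Ti GG
    rw [if_neg (by omega), if_pos hj]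
    ring
  rw [e1, hS.Ex_sub (Nh.sub (nL _) (Nh.sum _ fun i _ => Nh.const_mul _ (nL i)))
    (Nh.const_mul _ (nL j)), hS.Ex_sub (nL _) (Nh.sum _ fun i _ => Nh.const_mul _ (nL i)),
    hS.Ex_sum _ fun i _ => Nh.const_mul _ (nL i), Sy.Ex_const_mul]
  unfold MM LL
  simp only [Sy.Ex_const_mul]
  rw [mul_sub, mul_sub, mul_sum]
  congr 1
  · congr 1
    exact sum_congr rfl fun i _ => by ring
  · ring

/-- The contribution of the derivatives of the magnetizations. -/
noncomputable def dl (S : Sy ι X) (D : ι → (ι → ℝ) → X → ℝ) (g : Ix N → ι)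
    (φ : X → Fin N → ℝ) (A : (ι → ℝ) → Matrix (Fin N) (Fin N) ℝ) (j : ℕ) : ℝ :=
  if j ≤ S.K then MM S D g φ A j (S.K + 1) j + MM S D g φ A j j (S.K + 1) else 0

/-- The exact identity. -/
theorem exact_id (hC : Ctx S D g φ c B w) (p : ℕ) {j : ℕ} (hj : j ≤ S.K + 1) :
    1 / (N : ℝ) * S.Ex (fun z x => yv S φ j z x ⬝ᵥ WW g z *ᵥ (UU g p z *ᵥ yv S φ j z x)) =
      dl S D g φ (UU g p) j +
      1 / N * S.Ex (fun z x => ∑ e,
        Me (yv S φ j z x) (DU (WW g z) (Em N e) p *ᵥ yv S φ j z x) e) +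
      (LL S D g φ (UU g p) (S.K + 1) j j -
        ∑ i ∈ Finset.range (S.K + 1), S.p i * LL S D g φ (UU g p) i j j) := by
  have hS := hC.reg.toReg
  have hA := egm_UU g p
  have hAd : ∀ a b, Dep S.lev 0 (fun z => UU g p z a b) := fun a b =>
    dep_g hC.lev (fun y => Um (Wm N y) p a b)
  have nM : ∀ e : Ix N, Nh (fun z x => Me (yv S φ j z x) (UU g p z *ᵥ yv S φ j z x) e) :=
    fun e => (nhv_yv hS j).me ((nhv_yv hS j).mulVec hA) e
  have nDU : ∀ e : Ix N, Nh (fun z x =>
      Me (yv S φ j z x) (DU (WW g z) (Em N e) p *ᵥ yv S φ j z x) e) :=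
    fun e => (nhv_yv hS j).me ((nhv_yv hS j).mulVec (egm_DUU g _ p)) e
  have e0 : (fun z x => yv S φ j z x ⬝ᵥ WW g z *ᵥ (UU g p z *ᵥ yv S φ j z x)) =
      fun z x => ∑ e, z (g e) * Me (yv S φ j z x) (UU g p z *ᵥ yv S φ j z x) e := by
    funext z x
    exact (sum_Me_z _ _ _).symm
  rw [e0]
  -- the derivative in the coordinate `e` splits into two parts
  have hLL : ∀ i, LL S D g φ (UU g p) i j j = 1 / N * S.Ex (fun z x =>
      ∑ e, Me (yv S φ j z x) (UU g p z *ᵥ yv S φ j z x) e * Ti S i (D (g e)) z x) :=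
    fun i => rfl
  have fin : ∀ (h' : Ix N → (ι → ℝ) → X → ℝ), (∀ e x, PD (g e)
      (fun z => Me (yv S φ j z x) (UU g p z *ᵥ yv S φ j z x) e) (fun z => h' e z x)) →
      (∀ e, Nh (h' e)) → 1 / (N : ℝ) * S.Ex (fun z x => ∑ e, h' e z x) =
        dl S D g φ (UU g p) j + 1 / N * S.Ex (fun z x => ∑ e,
        Me (yv S φ j z x) (DU (WW g z) (Em N e) p *ᵥ yv S φ j z x) e) →
      1 / (N : ℝ) * S.Ex (fun z x => ∑ e, z (g e) *
        Me (yv S φ j z x) (UU g p z *ᵥ yv S φ j z x) e) =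
      dl S D g φ (UU g p) j +
      1 / N * S.Ex (fun z x => ∑ e,
        Me (yv S φ j z x) (DU (WW g z) (Em N e) p *ᵥ yv S φ j z x) e) +
      (LL S D g φ (UU g p) (S.K + 1) j j -
        ∑ i ∈ Finset.range (S.K + 1), S.p i * LL S D g φ (UU g p) i j j) := by
    intro h' hd hh' hE
    rw [ibp_sum hC hd nM hh', mul_add, hE]
    congr 1
    rw [mul_sub, mul_sum]
    congr 1
    refine sum_congr rfl fun i _ => ?_
    rw [hLL i]
    ring
  rcases le_or_gt j S.K with hjK | hjK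
  · -- the magnetization
    set u : (ι → ℝ) → Fin N → ℝ := fun z a => S.mg φ j a z with hu
    have ey : ∀ z x, yv S φ j z x = u z := fun z x => yv_le hjK z x
    have eyd : ∀ z x, yv S φ (S.K + 1) z x = φ x := fun z x => yv_gt (by omega) z x
    have hud : ∀ a, Dep S.lev j (fun z => u z a) := fun a => Fld.dep_mg S φ j a
    have hue : ∀ a, EG (fun z => u z a) := fun a => Fld.eg_mg hS hjK a
    have nG : ∀ e, Nh (GG S D g j e) := fun e => nh_GG hC hjK e
    -- the derivative of the magnetization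
    set f : Ix N → (ι → ℝ) → X → Fin N → ℝ := fun e z x a => φ x a * GG S D g j e z x with hf
    have nf : ∀ e, NhV (f e) := fun e a => Nh.mul (Nh.snd fun x => φ x a) (nG e)
    have hpd : ∀ e a, PD (g e) (fun z => u z a) (fun z => S.T j (fun z x => f e z x a) z) := by
      intro e a
      have h := hC.reg.pd_T hjK (e := g e) (by rw [hC.lev e]; exact Nat.zero_le _)
        (h := fun _ x => φ x a) (h' := fun _ _ => 0) (fun x => PD.const _)
        (Nh.snd fun x => φ x a) (Nh.fst (EG.const 0))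
      have e1 : (fun (z : ι → ℝ) (x : X) => (0 : ℝ) + φ x a * (D (g e) z x -
          ∑ i ∈ Finset.Ico (j + 1) (S.K + 1), S.p i * S.T i (D (g e)) z -
          S.m (j + 1) * S.T j (D (g e)) z)) = fun z x => f e z x a := by
        funext z x
        simp only [hf, GG, zero_add]
      rw [e1] at h
      exact h
    set u' : Ix N → (ι → ℝ) → Fin N → ℝ := fun e z a => S.T j (fun z x => f e z x a) z with hu'
    have hue' : ∀ e a, EG (fun z => u' e z a) := fun e a => hS.eg_T hjK (nf e a)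
    refine fin (fun e z x => Me (u' e z) (UU g p z *ᵥ u z) e +
      Me (u z) (DU (WW g z) (Em N e) p *ᵥ u z + UU g p z *ᵥ u' e z) e) ?_ ?_ ?_
    · intro e x
      have h1 : ∀ a, PD (g e) (fun z => (fun (z : ι → ℝ) (_ : X) => u z) z x a)
          (fun z => (fun (z : ι → ℝ) (_ : X) => u' e z) z x a) := fun a => hpd e a
      have h2 : ∀ a, PD (g e) (fun z => (fun (z : ι → ℝ) (_ : X) => UU g p z *ᵥ u z) z x a)
          (fun z => (fun (z : ι → ℝ) (_ : X) =>
            DU (WW g z) (Em N e) p *ᵥ u z + UU g p z *ᵥ u' e z) z x a) := fun a =>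
        pd_mulVec (x := x) (u := fun z _ => u z) (u' := fun z _ => u' e z)
          (pdm_UU hC.inj e p) h1 a
      have h3 := pd_me (x := x) (u := fun z _ => u z) (u' := fun z _ => u' e z)
        (v := fun z _ => UU g p z *ᵥ u z)
        (v' := fun z _ => DU (WW g z) (Em N e) p *ᵥ u z + UU g p z *ᵥ u' e z) h1 h2 e
      simp only [ey]
      exact h3
    · intro e
      have n1 : NhV (X := X) (fun z _ => u' e z) := fun a => Nh.fst (hue' e a)
      have n2 : NhV (X := X) (fun z _ => u z) := fun a => Nh.fst (hue a)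
      have n3 : NhV (X := X) (fun z _ => DU (WW g z) (Em N e) p *ᵥ u z + UU g p z *ᵥ u' e z) :=
        fun a => Nh.add ((n2.mulVec (egm_DUU g _ p)) a) ((n1.mulVec hA) a)
      exact Nh.add (n1.me (n2.mulVec hA) e) (n2.me n3 e)
    · -- the evaluation
      unfold dl
      rw [if_pos hjK, ← MM_eq hC hA hjK, ← MM_eq hC hA hjK, ← mul_add, ← mul_add]
      congr 1
      have n1 : ∀ e, NhV (X := X) (fun z _ => u' e z) := fun e a => Nh.fst (hue' e a)
      have n2 : NhV (X := X) (fun z _ => u z) := fun a => Nh.fst (hue a)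
      have nA : ∀ e, Nh (X := X) (fun z _ => Me (u' e z) (UU g p z *ᵥ u z) e) := fun e =>
        (n1 e).me (n2.mulVec hA) e
      have nB : ∀ e, Nh (X := X) (fun z _ => Me (u z) (DU (WW g z) (Em N e) p *ᵥ u z) e) :=
        fun e => n2.me (n2.mulVec (egm_DUU g _ p)) e
      have nC : ∀ e, Nh (X := X) (fun z _ => Me (u z) (UU g p z *ᵥ u' e z) e) := fun e =>
        n2.me ((n1 e).mulVec hA) e
      have e1 : (fun (z : ι → ℝ) (x : X) => ∑ e, (Me (u' e z) (UU g p z *ᵥ u z) e +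
          Me (u z) (DU (WW g z) (Em N e) p *ᵥ u z + UU g p z *ᵥ u' e z) e)) = fun z x =>
          (∑ e, Me (u' e z) (UU g p z *ᵥ u z) e + ∑ e, Me (u z) (UU g p z *ᵥ u' e z) e) +
          ∑ e, Me (u z) (DU (WW g z) (Em N e) p *ᵥ u z) e := by
        funext z x
        rw [← sum_add_distrib, ← sum_add_distrib]
        refine sum_congr rfl fun e _ => ?_
        simp only [Me, Pi.add_apply]
        ring
      rw [e1, hS.Ex_add (Nh.add (Nh.sum _ fun e _ => nA e) (Nh.sum _ fun e _ => nC e))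
        (Nh.sum _ fun e _ => nB e), hS.Ex_add (Nh.sum _ fun e _ => nA e)
        (Nh.sum _ fun e _ => nC e)]
      simp only [ey, eyd]
      have hUd : ∀ a, Dep S.lev j (fun z => (UU g p z *ᵥ u z) a) := dep_mulVec hAd hud
      have hUe : ∀ a, EG (fun z => (UU g p z *ᵥ u z) a) := eg_mulVec hA hue
      congr 2
      · rw [hS.Ex_sum _ fun e _ => nA e, hS.Ex_sum _ fun e _ =>
          Nh.mul (nhv_phi.me (n2.mulVec hA) e) (nG e)]
        refine sum_congr rfl fun e _ => ?_
        have h1 := Ex_me_T hS hjK (nf e) hUd hUe e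
        refine h1.trans ?_
        congr 1
        funext z x
        simp only [hf, Me]
        ring
      · rw [hS.Ex_sum _ fun e _ => nC e, hS.Ex_sum _ fun e _ =>
          Nh.mul (n2.me (nhv_phi.mulVec hA) e) (nG e)]
        refine sum_congr rfl fun e _ => ?_
        have h1 := Ex_me_T hS hjK ((nf e).mulVec hA) hud hue e
        have e2 : (fun (z : ι → ℝ) (_ : X) => Me (u z) (UU g p z *ᵥ u' e z) e) = fun z _ =>
            Me (fun a => S.T j (fun z x => (UU g p z *ᵥ f e z x) a) z) (u z) e := by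
          funext z x
          rw [Me_comm]
          congr 1
          exact mulVec_T hS hjK hA hAd (nf e) z
        rw [e2]
        refine h1.trans ?_
        congr 1
        funext z x
        have e3 : UU g p z *ᵥ f e z x = fun a => GG S D g j e z x * (UU g p z *ᵥ φ x) a := by
          funext a
          simp only [hf, Matrix.mulVec, dotProduct, mul_sum]
          exact sum_congr rfl fun b _ => by ring
        rw [e3, Me_comm]
        simp only [Me]
        ring
  · -- the configuration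
    have ey : ∀ z x, yv S φ j z x = φ x := fun z x => yv_gt hjK z x
    refine fin (fun e z x => Me (φ x) (DU (WW g z) (Em N e) p *ᵥ φ x) e) ?_ ?_ ?_
    · intro e x
      have h1 : ∀ a, PD (g e) (fun z => (fun (_ : ι → ℝ) (x : X) => φ x) z x a)
          (fun z => (fun (_ : ι → ℝ) (_ : X) (_ : Fin N) => (0 : ℝ)) z x a) := fun a => PD.const _
      have h2 : ∀ a, PD (g e) (fun z => (fun (z : ι → ℝ) (x : X) => UU g p z *ᵥ φ x) z x a)
          (fun z => (fun (z : ι → ℝ) (x : X) =>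
            DU (WW g z) (Em N e) p *ᵥ φ x + UU g p z *ᵥ (fun _ => (0 : ℝ))) z x a) := fun a =>
        pd_mulVec (x := x) (u := fun _ x => φ x) (u' := fun _ _ _ => (0 : ℝ))
          (pdm_UU hC.inj e p) h1 a
      have h3 := pd_me (x := x) (u := fun _ x => φ x) (u' := fun _ _ _ => (0 : ℝ))
        (v := fun z x => UU g p z *ᵥ φ x)
        (v' := fun z x => DU (WW g z) (Em N e) p *ᵥ φ x + UU g p z *ᵥ (fun _ => (0 : ℝ)))
        h1 h2 e
      simp only [ey]
      refine h3.congr fun z => ?_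
      have e1 : UU g p z *ᵥ (fun _ : Fin N => (0 : ℝ)) = 0 := mulVec_zero _
      simp only [e1, Me, add_zero, zero_mul, zero_div, zero_add]
    · intro e
      exact nhv_phi.me (nhv_phi.mulVec (egm_DUU g _ p)) e
    · unfold dl
      rw [if_neg (not_le.2 hjK), zero_add]
      simp only [ey]

end Vale.Agent.P146.Sk.Rec
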