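import Vale.Agent.P146.Sk.Conv

/-!
# P146, module VAR: the limit functional of the normalized traces
-/

open MeasureTheory ProbabilityTheory Finset Matrix Filter Topology Polynomial

namespace Vale.Agent.P146.Sk

open Vale.Agent.P157.Lv

set_option linter.all false

lemma X_mul_Sp (p : ℕ) : X * Sp (p + 1) = Sp (p + 2) + Sp p := by rw [Sp]; ring

lemma span_Sp_X (q : ℝ[X]) (hq : q ∈ Submodule.span ℝ (Set.range Sp)) :
    X * q ∈ Submodule.span ℝ (Set.range Sp) := by
  induction hq using Submodule.span_induction with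
  | mem x hx =>
    obtain ⟨p, rfl⟩ := hx
    match p with
    | 0 =>
      have : X * Sp 0 = Sp 1 := by simp [Sp]
      rw [this]
      exact Submodule.subset_span ⟨1, rfl⟩
    | p + 1 =>
      rw [X_mul_Sp]
      exact Submodule.add_mem _ (Submodule.subset_span ⟨p + 2, rfl⟩)
        (Submodule.subset_span ⟨p, rfl⟩)
  | zero => simp
  | add x y _ _ hx hy => rw [mul_add]; exact Submodule.add_mem _ hx hy
  | smul c x _ hx => rw [mul_smul_comm]; exact Submodule.smul_mem _ c hx

lemma mem_span_Sp (q : ℝ[X]) : q ∈ Submodule.span ℝ (Set.range Sp) := by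
  have hX : ∀ n : ℕ, (X : ℝ[X]) ^ n ∈ Submodule.span ℝ (Set.range Sp) := by
    intro n
    induction n with
    | zero => exact Submodule.subset_span ⟨0, rfl⟩
    | succ n ih => rw [pow_succ']; exact span_Sp_X _ ih
  induction q using Polynomial.induction_on' with
  | add p q hp hq => exact Submodule.add_mem _ hp hq
  | monomial n a =>
    rw [← C_mul_X_pow_eq_monomial, ← smul_eq_C_mul]
    exact Submodule.smul_mem _ a (hX n)

lemma exists_lim (q : ℝ[X]) : ∃ a : ℝ, L2c (fun N => tp N q) a := by
  have hq := mem_span_Sp q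
  induction hq using Submodule.span_induction with
  | mem x hx =>
    obtain ⟨p, rfl⟩ := hx
    exact ⟨_, tau_conv p⟩
  | zero =>
    refine ⟨0, ?_⟩
    have h : (fun N => tp N 0) = fun (N : ℕ) (_ : Ix N → ℝ) => (0 : ℝ) := by
      funext N z; simp [tp]
    rw [h]
    exact L2c.const 0
  | add x y _ _ hx hy =>
    obtain ⟨a, ha⟩ := hx
    obtain ⟨b, hb⟩ := hy
    refine ⟨a + b, ?_⟩
    have h := ha.add hb
    simp only [← tp_add] at h
    exact h
  | smul c x _ hx =>
    obtain ⟨a, ha⟩ := hx
    refine ⟨c * a, ?_⟩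
    have h := ha.const_mul c
    simp only [← tp_C_mul, ← smul_eq_C_mul] at h
    exact h

/-- the limit of the normalized trace (integration against the semicircle law) -/
noncomputable def Lam (q : ℝ[X]) : ℝ := Classical.choose (exists_lim q)

lemma Lam_spec (q : ℝ[X]) : L2c (fun N => tp N q) (Lam q) := Classical.choose_spec (exists_lim q)

lemma L2c.unique {f : ∀ N : ℕ, (Ix N → ℝ) → ℝ} {a b : ℝ} (h : L2c f a) (h' : L2c f b) : a = b :=
  tendsto_nhds_unique h.int h'.int

lemma Lam_add (q r : ℝ[X]) : Lam (q + r) = Lam q + Lam r := by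
  refine (Lam_spec (q + r)).unique ?_
  have h := (Lam_spec q).add (Lam_spec r)
  simp only [← tp_add] at h
  exact h

lemma Lam_sub (q r : ℝ[X]) : Lam (q - r) = Lam q - Lam r := by
  refine (Lam_spec (q - r)).unique ?_
  have h := (Lam_spec q).sub (Lam_spec r)
  simp only [← tp_sub] at h
  exact h

lemma Lam_C_mul (c : ℝ) (q : ℝ[X]) : Lam (C c * q) = c * Lam q := by
  refine (Lam_spec (C c * q)).unique ?_
  have h := (Lam_spec q).const_mul c
  simp only [← tp_C_mul] at h
  exact h

lemma Lam_sum {κ : Type*} (s : Finset κ) (q : κ → ℝ[X]) :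
    Lam (∑ k ∈ s, q k) = ∑ k ∈ s, Lam (q k) := by
  refine (Lam_spec _).unique ?_
  have h := L2c.sum s (f := fun k N => tp N (q k)) (a := fun k => Lam (q k))
    fun k _ => Lam_spec (q k)
  simp only [← tp_sum] at h
  exact h

lemma Lam_Sp (p : ℕ) : Lam (Sp p) = if p = 0 then 1 else 0 := (Lam_spec _).unique (tau_conv p)

lemma Lam_Sp_mul (a b : ℕ) : Lam (Sp a * Sp b) = if a = b then 1 else 0 :=
  (Lam_spec _).unique (tau_conv_mul a b)

/-- `(S_{j+2} - S_j)' = (j+2) S_{j+1}` -/
theorem deriv_Sp_sub (j : ℕ) :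
    derivative (Sp (j + 2)) - derivative (Sp j) = C ((j : ℝ) + 2) * Sp (j + 1) := by
  induction j using Nat.strong_induction_on with
  | _ j ih =>
    match j with
    | 0 =>
      simp only [Sp, derivative_sub, derivative_mul, derivative_X, derivative_one]
      simp only [mul_one, one_mul, sub_zero, Nat.cast_zero, zero_add]
      rw [show (C (2 : ℝ)) = 2 from rfl]
      ring
    | 1 =>
      simp only [Sp, derivative_sub, derivative_mul, derivative_X, derivative_one]
      simp only [mul_one, one_mul, sub_zero, Nat.cast_one]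
      have h3 : (C ((1 : ℝ) + 2) : ℝ[X]) = 3 := by
        rw [show (1 : ℝ) + 2 = 3 by norm_num]; rfl
      rw [h3]
      ring
    | j + 2 =>
      have h1 := ih (j + 1) (by omega)
      have h0 := ih j (by omega)
      have e1 : Sp (j + 2 + 2) = X * Sp (j + 2 + 1) - Sp (j + 2) := rfl
      have e2 : Sp (j + 2 + 1) = X * Sp (j + 2) - Sp (j + 1) := rfl
      have e3 : Sp (j + 2) = X * Sp (j + 1) - Sp j := rfl
      have h2 : derivative (Sp (j + 2 + 2)) - derivative (Sp (j + 2)) =
          (Sp (j + 2 + 1) - Sp (j + 1)) + X * (derivative (Sp (j + 1 + 2)) -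
            derivative (Sp (j + 1))) - (derivative (Sp (j + 2)) - derivative (Sp j)) := by
        conv_lhs => rw [e1]
        conv_lhs => arg 2; rw [e3]
        rw [derivative_sub, derivative_mul, derivative_X, derivative_sub, derivative_mul,
          derivative_X]
        rw [show j + 1 + 2 = j + 2 + 1 by ring]
        ring
      rw [h2, h1, h0, e2]
      have c1 : (C (((j + 1 : ℕ) : ℝ) + 2) : ℝ[X]) = C ((j : ℝ) + 2) + 1 := by
        rw [← C_1, ← C_add]; congr 1; push_cast; ring
      have c2 : (C (((j + 2 : ℕ) : ℝ) + 2) : ℝ[X]) = C ((j : ℝ) + 2) + 2 := by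
        rw [show (2 : ℝ[X]) = C (2 : ℝ) from rfl, ← C_add]; congr 1; push_cast; ring
      rw [c1, c2]
      have e4 : Sp (j + 1 + 1) = Sp (j + 2) := rfl
      rw [e4]
      ring

end Vale.Agent.P146.Sk
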