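import Vale.Agent.P146.Sk.LowCas2

/-!
# P146, lower bound for the SK model: lower bound of the pattern part of the weak potential
-/

open MeasureTheory ProbabilityTheory
open Vale.Agent.P157.Par (gstep cascade Exponents Path patternPart bp_int bp_conv gauss_cos
  ClsB_gstep_meas cascade_succ_def)

namespace Vale.Agent.P146.Sk.Low

variable {ε lam : ℝ}

/-- Lower bound of a cascade. -/
theorem cas_lower {m q : ℕ → ℝ} (hε : 0 < ε) (hε1 : ε ≤ 1 / 4) (hq0 : 0 ≤ q 0) : ∀ (n : ℕ),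
    (∀ l < n, 0 < m (l + 1) ∧ m (l + 1) ≤ 1) → (∀ l < n, q l ≤ q (l + 1)) → q n ≤ 1 →
    ∀ {F : ℝ → ℝ}, Inv ε lam (q n) F →
    ∫ z, (F (√(q n) * z) - (F (√(q n) * z) - Xc ε lam (q n) (√(q n) * z)) ^ 2 / (2 * ε))
      ∂(gaussianReal 0 1) + 1 / 2 * ((1 - 4 * ε) * (1 - ε)) *
      ∑ j ∈ Finset.range n, m (j + 1) * (ε ^ 2 * kap lam (q (j + 1)) - ε ^ 2 * kap lam (q j)) ≤
    ∫ z, cascade m q n F (√(q 0) * z) ∂(gaussianReal 0 1) := by
  intro n
  induction n with
  | zero =>
    intro _ _ hq1 F h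
    have iF : Integrable (fun z : ℝ => F (√(q 0) * z)) (gaussianReal 0 1) :=
      bp_int (h.meas.comp (by fun_prop)) fun z => h.bdd hε.le (by linarith) hq1 _
    simp only [Finset.range_zero, Finset.sum_empty, mul_zero, add_zero]
    refine integral_mono (iF.sub ?_) iF fun z => ?_
    · have hb : ∀ z : ℝ, |F (√(q 0) * z) - Xc ε lam (q 0) (√(q 0) * z)| ≤ 3 * ε := fun z =>
        (abs_sub _ _).trans (by
          have h1 := h.bdd hε.le (by linarith) hq1 (√(q 0) * z)
          have h2 := abs_Xc_le (lam := lam) hε.le hq1 (√(q 0) * z)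
          linarith)
      have hm : Measurable fun z : ℝ => F (√(q 0) * z) - Xc ε lam (q 0) (√(q 0) * z) :=
        (h.meas.comp (by fun_prop)).sub (Xc_meas.comp (by fun_prop))
      exact (bp_int (hm.pow_const 2) fun z => lo_sqb (hb z)).div_const _
    · have : 0 ≤ (F (√(q 0) * z) - Xc ε lam (q 0) (√(q 0) * z)) ^ 2 / (2 * ε) := by positivity
      have e : cascade m q 0 F (√(q 0) * z) = F (√(q 0) * z) := rfl
      rw [e]
      simp only
      linarith
  | succ n ih =>
    intro hm hq hq1 F h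
    have hqn : q n ≤ q (n + 1) := hq n (Nat.lt_succ_self n)
    have hv : 0 ≤ q (n + 1) - q n := by linarith
    have hqn0 : 0 ≤ q n := by
      clear ih h hqn hv
      have : ∀ l ≤ n, 0 ≤ q l := by
        intro l
        induction l with
        | zero => intro _; exact hq0
        | succ l ihl => intro hl; exact (ihl (by omega)).trans (hq l (by omega))
      exact this n le_rfl
    have hadd : q n + (q (n + 1) - q n) = q (n + 1) := by ring
    have h' : Inv ε lam (q n + (q (n + 1) - q n)) F := by rw [hadd]; exact h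
    obtain ⟨hI, hS⟩ := h'.step hε hε1 hv (by rw [hadd]; exact hq1) (hm n (Nat.lt_succ_self n)).1
      (hm n (Nat.lt_succ_self n)).2
    rw [hadd] at hS
    have key := ih (fun l hl => hm l (by omega)) (fun l hl => hq l (by omega)) (by linarith) hI
    rw [cascade_succ_def, Finset.sum_range_succ]
    refine le_trans ?_ key
    rw [mul_add, ← add_assoc, add_right_comm]
    refine add_le_add ?_ le_rfl
    -- integrate the one-step inequality
    set v := q (n + 1) - q n with hvdef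
    set M := m (n + 1) with hM
    set F' := gstep M v F with hF'
    have hFb : ∀ x, |F x| ≤ 2 * ε := fun x => h.bdd hε.le (by linarith) hq1 x
    have hFb' : ∀ x, |F' x| ≤ 2 * ε := fun x => hI.bdd hε.le (by linarith) (by linarith) x
    have hXb : ∀ x, |Xc ε lam (q (n + 1)) x| ≤ ε := abs_Xc_le hε.le hq1
    have hXb' : ∀ x, |Xc ε lam (q n) x| ≤ ε := abs_Xc_le hε.le (by linarith)
    have bG : ∀ {A X : ℝ → ℝ}, (∀ x, |A x| ≤ 2 * ε) → (∀ x, |X x| ≤ ε) → ∀ x,
        |A x - (A x - X x) ^ 2 / (2 * ε)| ≤ 2 * ε + (3 * ε) ^ 2 / (2 * ε) := by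
      intro A X hA hX x
      have h1 : |A x - X x| ≤ 3 * ε := (abs_sub _ _).trans (by linarith [hA x, hX x])
      have h2 := lo_sqb h1
      refine (abs_sub _ _).trans (add_le_add (hA x) ?_)
      rw [abs_div, abs_of_pos (show (0 : ℝ) < 2 * ε by positivity)]
      exact div_le_div_of_nonneg_right h2 (by positivity)
    have mG : Measurable fun x => F x - (F x - Xc ε lam (q (n + 1)) x) ^ 2 / (2 * ε) :=
      h.meas.sub (((h.meas.sub Xc_meas).pow_const 2).div_const _)
    have mG' : Measurable fun x => F' x - (F' x - Xc ε lam (q n) x) ^ 2 / (2 * ε) :=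
      hI.meas.sub (((hI.meas.sub Xc_meas).pow_const 2).div_const _)
    have c1 := bp_conv (h := fun x => F x - (F x - Xc ε lam (q (n + 1)) x) ^ 2 / (2 * ε)) mG
      (bG hFb hXb) hqn0 hv
    have c2 := bp_conv (h := fun x => Xc ε lam (q (n + 1)) x ^ 2) (Xc_meas.pow_const 2)
      (C := ε ^ 2) (fun x => lo_sqb (hXb x)) hqn0 hv
    rw [hadd] at c1 c2
    rw [← c1, ← Xc_sq (ε := ε) (lam := lam) (q := q (n + 1)) (by linarith), ← c2,
      ← Xc_sq (ε := ε) (lam := lam) (q := q n) hqn0]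
    have mI : ∀ {H : ℝ → ℝ} {C : ℝ}, Measurable H → (∀ x, |H x| ≤ C) →
        Integrable (fun z : ℝ => ∫ w, H (√(q n) * z + √v * w) ∂(gaussianReal 0 1))
          (gaussianReal 0 1) := by
      intro H C hH hC
      have hm1 : StronglyMeasurable fun z : ℝ => ∫ w, H (√(q n) * z + √v * w)
          ∂(gaussianReal 0 1) := by
        apply StronglyMeasurable.integral_prod_right (f := fun z w => H (√(q n) * z + √v * w))
        apply Measurable.stronglyMeasurable
        exact hH.comp (by fun_prop)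
      refine bp_int hm1.measurable (C := C) fun z => ?_
      exact lo_mean _ fun w => hC _
    have i1 := mI mG (bG hFb hXb)
    have i2 := mI (Xc_meas.pow_const 2) (fun x => lo_sqb (hXb x))
    have i3 : Integrable (fun z : ℝ => Xc ε lam (q n) (√(q n) * z) ^ 2) (gaussianReal 0 1) :=
      bp_int ((Xc_meas.comp (by fun_prop : Measurable fun z : ℝ => √(q n) * z)).pow_const 2)
        fun z => lo_sqb (hXb' _)
    have i4 : Integrable (fun z : ℝ => F' (√(q n) * z) -
        (F' (√(q n) * z) - Xc ε lam (q n) (√(q n) * z)) ^ 2 / (2 * ε)) (gaussianReal 0 1) :=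
      bp_int (mG'.comp (by fun_prop : Measurable fun z : ℝ => √(q n) * z))
        fun z => bG hFb' hXb' _
    have i5 : Integrable (fun z : ℝ => 1 / 2 * ((1 - 4 * ε) * (1 - ε)) *
        (M * (∫ w, Xc ε lam (q (n + 1)) (√(q n) * z + √v * w) ^ 2 ∂(gaussianReal 0 1) -
          Xc ε lam (q n) (√(q n) * z) ^ 2))) (gaussianReal 0 1) :=
      ((i2.sub i3).const_mul _).const_mul _
    have h6 := integral_mono (i1.add i5) i4 fun z => hS (√(q n) * z)
    refine le_trans (le_of_eq ?_) h6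
    rw [← integral_sub i2 i3, ← integral_const_mul, ← integral_const_mul, ← integral_add i1 i5]
    rfl

lemma kap_le_one {q : ℝ} (hq0 : 0 ≤ q) (hq1 : q ≤ 1) : kap lam q ≤ 1 := by
  unfold kap
  rw [Real.cosh_eq]
  have h1 : Real.exp (lam ^ 2 * q) ≤ Real.exp (lam ^ 2) := by
    apply Real.exp_le_exp.2
    nlinarith [sq_nonneg lam]
  have h2 : Real.exp (-(lam ^ 2 * q)) ≤ Real.exp (lam ^ 2) := by
    apply Real.exp_le_exp.2
    nlinarith [sq_nonneg lam, mul_nonneg (sq_nonneg lam) hq0]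
  calc Real.exp (-lam ^ 2) * ((Real.exp (lam ^ 2 * q) + Real.exp (-(lam ^ 2 * q))) / 2) ≤
      Real.exp (-lam ^ 2) * ((Real.exp (lam ^ 2) + Real.exp (lam ^ 2)) / 2) := by gcongr
    _ = 1 := by
      rw [add_self_div_two, ← Real.exp_add]
      simp

lemma kap_mono {q q' : ℝ} (hq0 : 0 ≤ q) (hq : q ≤ q') : kap lam q ≤ kap lam q' := by
  unfold kap
  refine mul_le_mul_of_nonneg_left ?_ (Real.exp_pos _).le
  rw [Real.cosh_le_cosh]
  rw [abs_of_nonneg (mul_nonneg (sq_nonneg _) hq0),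
    abs_of_nonneg (mul_nonneg (sq_nonneg _) (hq0.trans hq))]
  exact mul_le_mul_of_nonneg_left hq (sq_nonneg _)

lemma kap_le {q : ℝ} (hl : |lam| ≤ 1) (hq0 : 0 ≤ q) (hq1 : q ≤ 1) :
    kap lam q ≤ Real.exp (-lam ^ 2) * (1 + lam ^ 4 / 2 * q ^ 2) + lam ^ 8 := by
  have hl2 : lam ^ 2 ≤ 1 := by
    rw [← sq_abs]
    exact pow_le_one₀ (abs_nonneg _) hl
  have h1 := Real.cosh_le_exp_half_sq (lam ^ 2 * q)
  set s := (lam ^ 2 * q) ^ 2 / 2 with hs
  have hq2 : q ^ 2 ≤ 1 := pow_le_one₀ hq0 hq1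
  have hl4 : lam ^ 4 ≤ 1 := by
    have : lam ^ 4 = lam ^ 2 * lam ^ 2 := by ring
    rw [this]
    nlinarith [sq_nonneg lam]
  have hs0 : 0 ≤ s := by positivity
  have hs2 : s ≤ lam ^ 4 / 2 := by
    rw [hs, mul_pow]
    have : (lam ^ 2) ^ 2 = lam ^ 4 := by ring
    rw [this]
    have h4 : 0 ≤ lam ^ 4 := by positivity
    nlinarith
  have h2 : Real.exp s ≤ 1 + s + s ^ 2 := by
    have h3 := Real.abs_exp_sub_one_sub_id_le (x := s) (by rw [abs_of_nonneg hs0]; linarith)
    have := (abs_le.1 h3).2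
    linarith
  have h5 : s ^ 2 ≤ lam ^ 8 := by
    have : s ^ 2 ≤ (lam ^ 4 / 2) ^ 2 := pow_le_pow_left₀ hs0 hs2 2
    have h8 : 0 ≤ lam ^ 8 := by positivity
    have e : (lam ^ 4 / 2) ^ 2 = lam ^ 8 / 4 := by ring
    rw [e] at this
    linarith
  have h6 : Real.exp (-lam ^ 2) ≤ 1 := by
    rw [Real.exp_le_one_iff]; nlinarith [sq_nonneg lam]
  unfold kap
  have h7 : Real.cosh (lam ^ 2 * q) ≤ (1 + lam ^ 4 / 2 * q ^ 2) + lam ^ 8 := by
    have : s = lam ^ 4 / 2 * q ^ 2 := by rw [hs]; ring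
    rw [← this]
    linarith
  calc Real.exp (-lam ^ 2) * Real.cosh (lam ^ 2 * q) ≤
      Real.exp (-lam ^ 2) * ((1 + lam ^ 4 / 2 * q ^ 2) + lam ^ 8) := by gcongr
    _ = Real.exp (-lam ^ 2) * (1 + lam ^ 4 / 2 * q ^ 2) + Real.exp (-lam ^ 2) * lam ^ 8 := by ring
    _ ≤ _ := by
      have : 0 ≤ lam ^ 8 := by positivity
      nlinarith

/-- Summation by parts. -/
lemma lo_abel {k : ℕ} {m : ℕ → ℝ} (hm : Exponents k m) (a : ℕ → ℝ) :
    a k - ∑ j ∈ Finset.range k, m (j + 1) * (a (j + 1) - a j) =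
      ∑ l ∈ Finset.range (k + 1), (m (l + 1) - m l) * a l := by
  have h : ∀ n : ℕ, m (n + 1) * a n - ∑ j ∈ Finset.range n, m (j + 1) * (a (j + 1) - a j) =
      ∑ l ∈ Finset.range (n + 1), (m (l + 1) - m l) * a l := by
    intro n
    induction n with
    | zero => simp [hm.1]
    | succ n ih =>
      rw [Finset.sum_range_succ _ (n + 1), ← ih, Finset.sum_range_succ]
      ring
  rw [← h k, hm.2.1, one_mul]

/-- **Lower bound of the pattern part** for the potential `log (1 - ε cos (λ s))`. -/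
theorem pattern_lower (hε : 0 < ε) (hε1 : ε ≤ 1 / 4) (hl : |lam| ≤ 1) {k : ℕ} {m q : ℕ → ℝ}
    (hm : Exponents k m) (hq : Path k q) (hq1 : q k ≤ 1) {f : ℝ → ℝ}
    (hf : ∀ s, Real.exp (f s) = 1 - ε * Real.cos (lam * s)) :
    -(ε * Real.exp (-lam ^ 2 / 2)) - ε ^ 2 / 2 * Real.exp (-lam ^ 2) *
      (1 + lam ^ 4 / 2 * ∑ l ∈ Finset.range (k + 1), (m (l + 1) - m l) * q l ^ 2) -
      (5 * ε ^ 3 + ε ^ 2 * lam ^ 8) ≤ patternPart f k m q := by
  have hmono : ∀ l ≤ k, m l ≤ 1 ∧ 0 ≤ m l := by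
    have h1 : ∀ i ≤ k + 1, m 0 ≤ m i := by
      intro i
      induction i with
      | zero => intro _; exact le_rfl
      | succ i ih => intro hi; exact (ih (by omega)).trans (hm.2.2 i (by omega)).le
    have h2 : ∀ j, ∀ i ≤ j, j ≤ k + 1 → m i ≤ m j := by
      intro j
      induction j with
      | zero => intro i hi _; rw [Nat.le_zero.1 hi]
      | succ j ih =>
        intro i hi hj
        rcases Nat.lt_or_ge i (j + 1) with h | h
        · exact (ih i (by omega) (by omega)).trans (hm.2.2 j (by omega)).le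
        · have : i = j + 1 := by omega
          rw [this]
    intro l hl
    refine ⟨?_, ?_⟩
    · rw [← hm.2.1]; exact h2 (k + 1) l (by omega) le_rfl
    · rw [← hm.1]; exact h1 l (by omega)
  have hmp : ∀ l < k, 0 < m (l + 1) ∧ m (l + 1) ≤ 1 := by
    intro l hl
    refine ⟨?_, (hmono (l + 1) (by omega)).1⟩
    exact (hmono l (by omega)).2.trans_lt (hm.2.2 l (by omega))
  have hq0' : ∀ l ≤ k, 0 ≤ q l := by
    intro l
    induction l with
    | zero => intro _; exact hq.1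
    | succ l ih => intro hl; exact (ih (by omega)).trans (hq.2 l (by omega))
  have hq1' : ∀ l ≤ k, q l ≤ 1 := by
    intro l hl
    have : ∀ d, ∀ l, l + d = k → q l ≤ 1 := by
      intro d
      induction d with
      | zero => intro l hl; rw [← Nat.add_zero l, hl]; exact hq1
      | succ d ih => intro l hl; exact (hq.2 l (by omega)).trans (ih (l + 1) (by omega))
    exact this (k - l) l (by omega)
  -- the top function
  set F : ℝ → ℝ := fun x => Real.log (1 + Xc ε lam (q k) x) with hF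
  have hFm : Measurable F := Real.measurable_log.comp (measurable_const.add Xc_meas)
  have hXb : ∀ x, |Xc ε lam (q k) x| ≤ ε := abs_Xc_le hε.le hq1
  have hpos : ∀ x, 0 < 1 + Xc ε lam (q k) x := one_add_Xc_pos hε.le (by linarith) hq1
  have hlog : ∀ x, Xc ε lam (q k) x - Xc ε lam (q k) x ^ 2 / 2 - 2 * ε ^ 3 ≤ F x := by
    intro x
    have h1 := hXb x
    have h2 : |-(Xc ε lam (q k) x)| < 1 := by rw [abs_neg]; linarith
    have h3 := Real.abs_log_sub_add_sum_range_le h2 2
    simp only [Finset.sum_range_succ, Finset.sum_range_zero, zero_add, pow_one, abs_neg] at h3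
    norm_num at h3
    have h4 : |Xc ε lam (q k) x| ^ 3 / (1 - |Xc ε lam (q k) x|) ≤ 2 * ε ^ 3 := by
      rw [div_le_iff₀ (by linarith)]
      have h5 : |Xc ε lam (q k) x| ^ 3 ≤ ε ^ 3 := pow_le_pow_left₀ (abs_nonneg _) h1 3
      have h6 : 0 ≤ ε ^ 3 := by positivity
      nlinarith
    have h7 := (abs_le.1 h3).1
    rw [hF]
    simp only
    linarith
  have hhi : ∀ x, F x ≤ Xc ε lam (q k) x := fun x => by
    have := Real.log_le_sub_one_of_pos (hpos x)
    rw [hF]
    simp only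
    linarith
  have hlo : ∀ x, Xc ε lam (q k) x - ε ^ 2 ≤ F x := fun x => by
    have h1 := hlog x
    have h2 := lo_sqb (hXb x)
    rw [abs_of_nonneg (sq_nonneg _)] at h2
    have h3 : 2 * ε ^ 3 ≤ ε ^ 2 / 2 := by nlinarith [sq_nonneg ε]
    linarith
  have hInv : Inv ε lam (q k) F := ⟨hFm, hlo, fun x => le_rfl⟩
  -- the top function of the pattern part
  have htop : (fun x => Real.log (∫ y, Real.exp (f (x + √(1 - q k) * y)) ∂(gaussianReal 0 1))) =
      F := by
    funext x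
    have h1 : ∫ y, Real.exp (f (x + √(1 - q k) * y)) ∂(gaussianReal 0 1) =
        1 + Xc ε lam (q k) x := by
      simp only [hf]
      rw [integral_sub (integrable_const _)
        ((bp_int (C := 1) (by fun_prop) fun z => Real.abs_cos_le_one _).const_mul ε),
        integral_const_mul, gauss_cos (by linarith)]
      simp only [integral_const, probReal_univ, smul_eq_mul, mul_one]
      unfold Xc
      ring
    rw [h1]
  have hpp : patternPart f k m q = ∫ z, cascade m q k F (√(q 0) * z) ∂(gaussianReal 0 1) := by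
    unfold patternPart
    rw [htop]
  rw [hpp]
  have key := cas_lower (lam := lam) hε hε1 hq.1 k hmp hq.2 hq1 hInv
  refine le_trans ?_ key
  -- the first term
  have mXs : Measurable fun z : ℝ => Xc ε lam (q k) (√(q k) * z) := Xc_meas.comp (by fun_prop)
  have mFs : Measurable fun z : ℝ => F (√(q k) * z) := hFm.comp (by fun_prop)
  have iX : Integrable (fun z : ℝ => Xc ε lam (q k) (√(q k) * z)) (gaussianReal 0 1) :=
    bp_int mXs fun z => hXb _
  have iX2 : Integrable (fun z : ℝ => Xc ε lam (q k) (√(q k) * z) ^ 2 / 2) (gaussianReal 0 1) :=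
    (bp_int (mXs.pow_const 2) fun z => lo_sqb (hXb _)).div_const _
  have hd : ∀ x, (F x - Xc ε lam (q k) x) ^ 2 ≤ (ε ^ 2) ^ 2 := fun x => by
    have h1 : |F x - Xc ε lam (q k) x| ≤ ε ^ 2 := by
      rw [abs_le]
      constructor
      · linarith [hlo x]
      · linarith [hhi x, sq_nonneg ε]
    have := lo_sqb h1
    rwa [abs_of_nonneg (sq_nonneg _)] at this
  have h1 : -(ε * Real.exp (-lam ^ 2 / 2)) - ε ^ 2 * kap lam (q k) / 2 - 5 / 2 * ε ^ 3 ≤
      ∫ z, (F (√(q k) * z) - (F (√(q k) * z) - Xc ε lam (q k) (√(q k) * z)) ^ 2 / (2 * ε))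
      ∂(gaussianReal 0 1) := by
    have e1 : ∫ z, (Xc ε lam (q k) (√(q k) * z) - Xc ε lam (q k) (√(q k) * z) ^ 2 / 2 -
        5 / 2 * ε ^ 3) ∂(gaussianReal 0 1) =
        -(ε * Real.exp (-lam ^ 2 / 2)) - ε ^ 2 * kap lam (q k) / 2 - 5 / 2 * ε ^ 3 := by
      have i3 : Integrable (fun z : ℝ => Xc ε lam (q k) (√(q k) * z) -
          Xc ε lam (q k) (√(q k) * z) ^ 2 / 2) (gaussianReal 0 1) := iX.sub iX2
      rw [integral_sub i3 (integrable_const _), integral_sub iX iX2, integral_div,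
        Xc_mean (hq0' k le_rfl), Xc_sq (hq0' k le_rfl)]
      simp
    rw [← e1]
    refine integral_mono ((iX.sub iX2).sub (integrable_const _)) ?_ fun z => ?_
    · refine bp_int (C := 2 * ε + (3 * ε) ^ 2 / (2 * ε))
        (mFs.sub (((mFs.sub mXs).pow_const 2).div_const _)) fun z => ?_
      have hb := hInv.bdd hε.le (by linarith) hq1 (√(q k) * z)
      have h3 : |F (√(q k) * z) - Xc ε lam (q k) (√(q k) * z)| ≤ 3 * ε :=
        (abs_sub _ _).trans (by linarith [hXb (√(q k) * z)])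
      refine (abs_sub _ _).trans (add_le_add hb ?_)
      rw [abs_div, abs_of_pos (show (0 : ℝ) < 2 * ε by positivity)]
      exact div_le_div_of_nonneg_right (lo_sqb h3) (by positivity)
    · have h4 := hlog (√(q k) * z)
      have h5 : (F (√(q k) * z) - Xc ε lam (q k) (√(q k) * z)) ^ 2 / (2 * ε) ≤ ε ^ 3 / 2 := by
        rw [div_le_iff₀ (by positivity)]
        refine (hd _).trans (le_of_eq ?_)
        ring
      simp only
      linarith
  -- the sum
  set S := ∑ j ∈ Finset.range k, m (j + 1) * (ε ^ 2 * kap lam (q (j + 1)) - ε ^ 2 * kap lam (q j))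
    with hS
  have hab := lo_abel hm (fun l => ε ^ 2 * kap lam (q l))
  rw [← hS] at hab
  have hinc : ∀ j < k, 0 ≤ ε ^ 2 * kap lam (q (j + 1)) - ε ^ 2 * kap lam (q j) := by
    intro j hj
    have := kap_mono (lam := lam) (hq0' j (by omega)) (hq.2 j hj)
    have h2 : 0 ≤ ε ^ 2 * (kap lam (q (j + 1)) - kap lam (q j)) :=
      mul_nonneg (sq_nonneg _) (by linarith)
    linarith
  have hS1 : S ≤ ε ^ 2 := by
    have h2 : S ≤ ∑ j ∈ Finset.range k, (ε ^ 2 * kap lam (q (j + 1)) - ε ^ 2 * kap lam (q j)) := by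
      refine Finset.sum_le_sum fun j hj => ?_
      have hj' := Finset.mem_range.1 hj
      have := mul_le_mul_of_nonneg_right (hmp j hj').2 (hinc j hj')
      linarith
    rw [Finset.sum_range_sub (fun l => ε ^ 2 * kap lam (q l))] at h2
    have h3 := kap_le_one (lam := lam) (hq0' k le_rfl) hq1
    have h4 : 0 ≤ kap lam (q 0) := by unfold kap; positivity
    nlinarith [sq_nonneg ε, mul_nonneg (sq_nonneg ε) h4]
  have hS0 : 0 ≤ S := Finset.sum_nonneg fun j hj =>
    mul_nonneg (hmp j (Finset.mem_range.1 hj)).1.le (hinc j (Finset.mem_range.1 hj))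
  have h2 : 1 / 2 * S - 5 / 2 * ε ^ 3 ≤ 1 / 2 * ((1 - 4 * ε) * (1 - ε)) * S := by
    have h3 : 1 / 2 * ((1 - 4 * ε) * (1 - ε)) * S = 1 / 2 * S - 5 / 2 * (ε * S) + 2 * ε ^ 2 * S := by
      ring
    have h4 : ε * S ≤ ε * ε ^ 2 := mul_le_mul_of_nonneg_left hS1 hε.le
    have h5 : 0 ≤ ε ^ 2 * S := by positivity
    have h6 : ε * ε ^ 2 = ε ^ 3 := by ring
    rw [h3]
    linarith
  have h3 : ∑ l ∈ Finset.range (k + 1), (m (l + 1) - m l) * (ε ^ 2 * kap lam (q l)) ≤
      ε ^ 2 * (Real.exp (-lam ^ 2) *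
        (1 + lam ^ 4 / 2 * ∑ l ∈ Finset.range (k + 1), (m (l + 1) - m l) * q l ^ 2) + lam ^ 8) := by
    have h4 : ∑ l ∈ Finset.range (k + 1), (m (l + 1) - m l) = 1 := by
      rw [Finset.sum_range_sub m, hm.2.1, hm.1, sub_zero]
    have h5 : ε ^ 2 * (Real.exp (-lam ^ 2) *
        (1 + lam ^ 4 / 2 * ∑ l ∈ Finset.range (k + 1), (m (l + 1) - m l) * q l ^ 2) + lam ^ 8) =
        ∑ l ∈ Finset.range (k + 1), (m (l + 1) - m l) * (ε ^ 2 *
          (Real.exp (-lam ^ 2) * (1 + lam ^ 4 / 2 * q l ^ 2) + lam ^ 8)) := by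
      have e : ∀ l, (m (l + 1) - m l) * (ε ^ 2 *
          (Real.exp (-lam ^ 2) * (1 + lam ^ 4 / 2 * q l ^ 2) + lam ^ 8)) =
          (ε ^ 2 * (Real.exp (-lam ^ 2) + lam ^ 8)) * (m (l + 1) - m l) +
          (ε ^ 2 * (Real.exp (-lam ^ 2) * (lam ^ 4 / 2))) * ((m (l + 1) - m l) * q l ^ 2) :=
        fun l => by ring
      simp only [e]
      rw [Finset.sum_add_distrib, ← Finset.mul_sum, ← Finset.mul_sum, h4]
      ring
    rw [h5]
    refine Finset.sum_le_sum fun l hll => ?_
    have hl' : l ≤ k := Nat.le_of_lt_succ (Finset.mem_range.1 hll)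
    have h6 := kap_le (lam := lam) hl (hq0' l hl') (hq1' l hl')
    refine mul_le_mul_of_nonneg_left ?_ (by linarith [hm.2.2 l hl'])
    exact mul_le_mul_of_nonneg_left h6 (sq_nonneg _)
  rw [← hab] at h3
  have h4 : 0 ≤ ε ^ 2 * lam ^ 8 := by positivity
  linarith

end Vale.Agent.P146.Sk.Low
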