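import Vale.Agent.P146.Sk.LowN
import Vale.Agent.P146.Sk.LowCas3
import Vale.Agent.P157.LvUpper
import Vale.Agent.P157.LvSchur
import Vale.Agent.P157.ParThm

/-!
# P146, lower bound for the SK model: the Parisi lower bound

The free energy of the SK model is at least the infimum of the Parisi functional. This follows from
the Parisi formula for the perceptron with the potential `log (1 - ε cos (λ s))` at the density
`α = β² / (2 c)`, `c = ε² e^{-λ²} λ⁴ / 2`, `ε = λ⁵`, `λ → 0`.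
-/

open MeasureTheory ProbabilityTheory Filter Topology
open Vale.Agent.P157 (spin meanPressure cube)
open Vale.Agent.P157.Par (cascade Exponents Path patternPart spinPart parisi)

namespace Vale.Agent.P146.Sk.Low

open Vale.Agent.P157.Lv in
/-- The spin part decreases at most linearly. -/
theorem spin_star {k : ℕ} {m r r' : ℕ → ℝ} (hm : Exponents k m) (hr : Path k r)
    (hr' : Path k r') (h : ∀ l ≤ k, r' l ≤ r l) :
    spinPart k m r' ≤ spinPart k m r +
      1 / 2 * ∑ l ∈ Finset.range (k + 1), (m (l + 1) - m l) * (r l - r' l) := by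
  have hpot : Pot (fun x => Real.log (Real.cosh x)) Real.tanh (fun x => 1 - Real.tanh x ^ 2) 1 1 := by
    refine ⟨fun x => ?_, fun x => ?_, fun x => (Real.abs_tanh_lt_one x).le, fun x => ?_⟩
    · have h1 := (Real.hasDerivAt_cosh x).log (Real.cosh_pos x).ne'
      rw [← Real.tanh_eq_sinh_div_cosh] at h1
      exact h1
    · have h1 : Real.tanh = Real.sinh / Real.cosh := by
        funext y
        exact Real.tanh_eq_sinh_div_cosh y
      have h2 := (Real.hasDerivAt_sinh x).div (Real.hasDerivAt_cosh x) (Real.cosh_pos x).ne'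
      rw [← h1] at h2
      refine h2.congr_deriv ?_
      rw [Real.tanh_eq_sinh_div_cosh]
      have h3 := (Real.cosh_pos x).ne'
      field_simp
    · have h1 := Real.tanh_sq_lt_one x
      have h2 := sq_nonneg (Real.tanh x)
      rw [abs_le]
      constructor <;> linarith
  have hm0 := hm.2.2 0 (Nat.zero_le _)
  rw [hm.1] at hm0
  have key := schur_int (K := k) (m := m) (Q := r') (R := r) hm.1 hm.2.1
    (fun l hl => (hm.2.2 l hl).le) hm0 hr' hr hpot
    (b := r' k - r k + ∑ l ∈ Finset.range (k + 1), (m (l + 1) - m l) * (r l - r' l))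
    (fun S' u hS' hK hu => ?_)
  · unfold spinPart
    linarith
  · have e0 : (fun z x => 1 - Real.tanh (u z x) ^ 2 + Real.tanh (u z x) ^ 2) =
        fun (_ : Fin (k + 1) × Bool → ℝ) (_ : Unit) => (1 : ℝ) := by
      funext z x
      ring
    have e1 : (r' k - r k) * S'.Ex (fun z x => 1 - Real.tanh (u z x) ^ 2 +
        Real.tanh (u z x) ^ 2) = r' k - r k := by
      rw [e0, hS'.Ex_const, mul_one]
    simp only [e1]
    have h1 : -∑ l ∈ Finset.range (k + 1), (m (l + 1) - m l) * ((r' l - r l) *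
        S'.Ex (fun z _ => S'.T l (fun z x => Real.tanh (u z x)) z ^ 2)) ≤
        ∑ l ∈ Finset.range (k + 1), (m (l + 1) - m l) * (r l - r' l) := by
      rw [← Finset.sum_neg_distrib]
      refine Finset.sum_le_sum fun l hl => ?_
      have hl' : l ≤ k := Nat.le_of_lt_succ (Finset.mem_range.1 hl)
      have h2 : S'.Ex (fun z _ => S'.T l (fun z x => Real.tanh (u z x)) z ^ 2) ≤ 1 := by
        have := hS'.schur_le (l := l) (by omega) hu (C := 1)
          (fun z x => (Real.abs_tanh_lt_one _).le)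
        simpa using this
      have h3 : 0 ≤ m (l + 1) - m l := by linarith [hm.2.2 l hl']
      have h4 : (r l - r' l) * S'.Ex (fun z _ => S'.T l (fun z x => Real.tanh (u z x)) z ^ 2) ≤
          (r l - r' l) * 1 := mul_le_mul_of_nonneg_left h2 (by linarith [h l hl'])
      have h5 := mul_le_mul_of_nonneg_left h4 h3
      linarith
    linarith

/-- The Parisi functional of the SK model. -/
noncomputable def Psk (β : ℝ) (k : ℕ) (m q : ℕ → ℝ) : ℝ :=
  β ^ 2 / 4 + β ^ 2 / 4 * ∑ l ∈ Finset.range (k + 1), (m (l + 1) - m l) * q l ^ 2 +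
    spinPart k m (fun l => β ^ 2 * q l)

/-- **The Parisi lower bound for the SK model.** -/
theorem sk_lower {β : ℝ} (hβ : 0 < β) {e : ℝ} (he : 0 < e) :
    ∃ (k : ℕ) (m q : ℕ → ℝ), Exponents k m ∧ Path k q ∧ q k ≤ 1 ∧
      ∀ᶠ N in atTop, Psk β k m q ≤ skP β N + e := by
  -- the parameters
  obtain ⟨lam, hl0, hl1, hl2⟩ : ∃ lam : ℝ, 0 < lam ∧ lam ≤ 1 / 2 ∧ 50 * β ^ 2 * lam ≤ e / 4 := by
    refine ⟨min (1 / 2) (e / (200 * β ^ 2)), by positivity, min_le_left _ _, ?_⟩
    have h1 := min_le_right (1 / 2) (e / (200 * β ^ 2))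
    have h2 : 50 * β ^ 2 * min (1 / 2) (e / (200 * β ^ 2)) ≤ 50 * β ^ 2 * (e / (200 * β ^ 2)) :=
      mul_le_mul_of_nonneg_left h1 (by positivity)
    refine h2.trans (le_of_eq ?_)
    field_simp
    norm_num
  set ε := lam ^ 5 with hε
  have hlp : ∀ n : ℕ, 1 ≤ n → lam ^ n ≤ 1 / 2 := by
    intro n hn
    obtain ⟨j, rfl⟩ : ∃ j, n = j + 1 := ⟨n - 1, by omega⟩
    rw [pow_succ]
    have h1 : lam ^ j ≤ 1 := pow_le_one₀ hl0.le (by linarith)
    have h2 : 0 ≤ lam ^ j := by positivity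
    nlinarith
  have hε0 : 0 < ε := by positivity
  have hε1 : ε ≤ 1 / 4 := by
    have : ε = lam * lam ^ 4 := by rw [hε]; ring
    rw [this]
    have h1 := hlp 4 (by norm_num)
    have h2 : 0 ≤ lam ^ 4 := by positivity
    nlinarith
  have hexp1 : Real.exp (-lam ^ 2) ≤ 1 := by
    rw [Real.exp_le_one_iff]; nlinarith
  have hexp0 : 1 / 2 ≤ Real.exp (-lam ^ 2) := by
    have := Real.add_one_le_exp (-lam ^ 2)
    nlinarith
  set c := cc ε lam with hc
  have hc0 : 0 < c := by rw [hc]; unfold cc; positivity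
  have hceq : c = lam ^ 14 / 2 * Real.exp (-lam ^ 2) := by
    rw [hc, hε]; unfold cc; ring
  have hcl : c ≤ lam / 4 := by
    have h1 : lam ^ 14 = lam * lam ^ 13 := by ring
    have h2 := hlp 13 (by norm_num)
    have h3 : 0 ≤ lam ^ 13 := by positivity
    rw [hceq, h1]
    have h4 : lam * lam ^ 13 / 2 * Real.exp (-lam ^ 2) ≤ lam * lam ^ 13 / 2 * 1 :=
      mul_le_mul_of_nonneg_left hexp1 (by positivity)
    nlinarith
  have hc8 : c ≤ 1 / 8 := by linarith
  set α := β ^ 2 / (2 * c) with hα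
  have hα0 : 0 < α := by positivity
  have hαc : α * c = β ^ 2 / 2 := by rw [hα]; field_simp
  -- the error
  have herr : α * (7 * ε ^ 3 + ε ^ 2 * lam ^ 8 + 96 * c ^ 2) ≤ e / 4 := by
    have h1 : α * (96 * c ^ 2) = 48 * β ^ 2 * c := by
      have : α * (96 * c ^ 2) = 96 * c * (α * c) := by ring
      rw [this, hαc]; ring
    have h2 : 7 * ε ^ 3 + ε ^ 2 * lam ^ 8 ≤ 32 * lam * c := by
      have e1 : 7 * ε ^ 3 + ε ^ 2 * lam ^ 8 = lam ^ 15 * (7 + lam ^ 3) := by rw [hε]; ring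
      have e2 : 32 * lam * c = lam ^ 15 * (16 * Real.exp (-lam ^ 2)) := by rw [hceq]; ring
      rw [e1, e2]
      refine mul_le_mul_of_nonneg_left ?_ (by positivity)
      have := hlp 3 (by norm_num)
      linarith
    have h3 : α * (7 * ε ^ 3 + ε ^ 2 * lam ^ 8) ≤ α * (32 * lam * c) :=
      mul_le_mul_of_nonneg_left h2 hα0.le
    have h4 : α * (32 * lam * c) = 16 * β ^ 2 * lam := by
      have : α * (32 * lam * c) = 32 * lam * (α * c) := by ring
      rw [this, hαc]; ring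
    have h5 : 48 * β ^ 2 * c ≤ 48 * β ^ 2 * (lam / 4) :=
      mul_le_mul_of_nonneg_left hcl (by positivity)
    have h6 : 0 ≤ β ^ 2 * lam := by positivity
    calc α * (7 * ε ^ 3 + ε ^ 2 * lam ^ 8 + 96 * c ^ 2) =
        α * (7 * ε ^ 3 + ε ^ 2 * lam ^ 8) + α * (96 * c ^ 2) := by ring
      _ ≤ 16 * β ^ 2 * lam + 48 * β ^ 2 * (lam / 4) := by linarith
      _ ≤ 50 * β ^ 2 * lam := by nlinarith
      _ ≤ e / 4 := hl2
  -- the potential
  set f : ℝ → ℝ := fun s => Real.log (1 - ε * Real.cos (lam * s)) with hfdef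
  have hf : ∀ s, Real.exp (f s) = 1 - ε * Real.cos (lam * s) := by
    intro s
    have h1 : |ε * Real.cos (lam * s)| ≤ 1 / 4 := by
      rw [abs_mul, abs_of_pos hε0]
      calc ε * |Real.cos (lam * s)| ≤ ε * 1 :=
            mul_le_mul_of_nonneg_left (Real.abs_cos_le_one _) hε0.le
        _ ≤ 1 / 4 := by linarith
    have h2 := (abs_le.1 h1).2
    rw [hfdef]
    exact Real.exp_log (by linarith)
  set ν : Measure ℝ := ENNReal.ofReal ε • Measure.dirac lam with hν
  have hfin : IsFiniteMeasure ν := ⟨by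
    rw [hν, Measure.smul_apply, measure_univ, smul_eq_mul, mul_one]
    exact ENNReal.ofReal_lt_top⟩
  have hνu : ν.real Set.univ < 1 := by
    rw [hν, measureReal_ennreal_smul_apply]
    simp
    rw [ENNReal.toReal_ofReal hε0.le]
    linarith
  have hfν : ∀ s : ℝ, Real.exp (f s) = 1 - ∫ l, Real.cos (l * s) ∂ν := by
    intro s
    rw [hf s, hν, integral_smul_measure, integral_dirac, ENNReal.toReal_ofReal hε0.le, smul_eq_mul]
  obtain ⟨L, hL, -, hglb⟩ := Vale.Agent.P157.Par.parisi_formula hνu hfν hα0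
  -- a nearly optimal element
  obtain ⟨y, ⟨k, m, r, hm, hr, hy⟩, hyL⟩ : ∃ y, (∃ (k : ℕ) (m r : ℕ → ℝ), Exponents k m ∧ Path k r ∧
      IsLUB {y | ∃ q, Path k q ∧ q k ≤ 1 ∧ y = parisi α f k m q r} y) ∧ y < L + e / 4 := by
    by_contra hcon
    push Not at hcon
    have : L + e / 4 ∈ lowerBounds {y | ∃ (k : ℕ) (m r : ℕ → ℝ), Exponents k m ∧ Path k r ∧
        IsLUB {y | ∃ q, Path k q ∧ q k ≤ 1 ∧ y = parisi α f k m q r} y} := by
      rintro y ⟨k, m, r, hm, hr, hy⟩
      exact hcon y ⟨k, m, r, hm, hr, hy⟩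
    have := hglb.2 this
    linarith
  set q : ℕ → ℝ := fun l => min (r l / β ^ 2) 1 with hq
  have hβ2 : 0 < β ^ 2 := by positivity
  have hr0 : ∀ l ≤ k, 0 ≤ r l := by
    intro l
    induction l with
    | zero => intro _; exact hr.1
    | succ l ih => intro hl; exact (ih (by omega)).trans (hr.2 l (by omega))
  have hqP : Path k q := by
    refine ⟨le_min (div_nonneg hr.1 hβ2.le) zero_le_one, fun l hl => ?_⟩
    exact min_le_min_right _ (div_le_div_of_nonneg_right (hr.2 l hl) hβ2.le)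
  have hq1 : q k ≤ 1 := min_le_right _ _
  refine ⟨k, m, q, hm, hqP, hq1, ?_⟩
  have hple : parisi α f k m q r ≤ y := hy.1 ⟨q, hqP, hq1, rfl⟩
  set Q := ∑ l ∈ Finset.range (k + 1), (m (l + 1) - m l) * q l ^ 2 with hQ
  set D := ∑ l ∈ Finset.range (k + 1), (m (l + 1) - m l) * (r l - β ^ 2 * q l) with hD
  have hrq : ∀ l ≤ k, β ^ 2 * q l ≤ r l ∧ (r l - β ^ 2 * q l) * q l = r l - β ^ 2 * q l := by
    intro l hl
    rcases le_total (r l / β ^ 2) 1 with h | h
    · have e1 : q l = r l / β ^ 2 := min_eq_left h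
      have e2 : β ^ 2 * q l = r l := by rw [e1]; field_simp
      rw [e2]
      exact ⟨le_rfl, by ring⟩
    · have e1 : q l = 1 := min_eq_right h
      rw [e1]
      refine ⟨?_, by ring⟩
      rw [le_div_iff₀ hβ2] at h
      linarith
  have hstar : spinPart k m (fun l => β ^ 2 * q l) ≤ spinPart k m r + 1 / 2 * D := by
    refine spin_star hm hr ⟨mul_nonneg hβ2.le hqP.1, fun l hl =>
      mul_le_mul_of_nonneg_left (hqP.2 l hl) hβ2.le⟩ fun l hl => (hrq l hl).1
  have hsum : ∑ l ∈ Finset.range (k + 1), (m (l + 1) - m l) * r l * q l = β ^ 2 * Q + D := by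
    rw [hQ, hD, Finset.mul_sum, ← Finset.sum_add_distrib]
    refine Finset.sum_congr rfl fun l hl => ?_
    have hl' : l ≤ k := Nat.le_of_lt_succ (Finset.mem_range.1 hl)
    linear_combination (m (l + 1) - m l) * (hrq l hl').2
  have hpat := pattern_lower hε0 hε1 (by rw [abs_of_pos hl0]; linarith : |lam| ≤ 1) hm hqP hq1 hf
  rw [← hQ] at hpat
  have hpat2 : kk ε lam + c / 2 - c / 2 * Q - (7 * ε ^ 3 + ε ^ 2 * lam ^ 8 + 96 * c ^ 2) ≤
      patternPart f k m q := by
    refine le_trans (le_of_eq ?_) hpat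
    rw [hc]
    unfold kk cc
    ring
  have hpat3 : α * kk ε lam + β ^ 2 / 4 - β ^ 2 / 4 * Q - e / 4 ≤ α * patternPart f k m q := by
    have h1 := mul_le_mul_of_nonneg_left hpat2 hα0.le
    have h2 : α * (kk ε lam + c / 2 - c / 2 * Q - (7 * ε ^ 3 + ε ^ 2 * lam ^ 8 + 96 * c ^ 2)) =
        α * kk ε lam + (α * c) / 2 - (α * c) / 2 * Q -
          α * (7 * ε ^ 3 + ε ^ 2 * lam ^ 8 + 96 * c ^ 2) := by ring
    rw [h2, hαc] at h1
    linarith
  have hpsk : α * kk ε lam + Psk β k m q - e / 4 ≤ y := by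
    refine le_trans ?_ hple
    unfold parisi Psk
    rw [hsum, ← hQ]
    linarith
  -- the limit
  have hev1 : ∀ᶠ N in atTop, L - e / 4 < meanPressure cube α f N :=
    hL.eventually (lt_mem_nhds (by linarith))
  have hev2 : ∀ᶠ N : ℕ in atTop, |kk ε lam| / (N : ℝ) < e / 4 := by
    have h1 : Tendsto (fun N : ℕ => |kk ε lam| / (N : ℝ)) atTop (𝓝 0) :=
      tendsto_const_nhds.div_atTop tendsto_natCast_atTop_atTop
    exact h1.eventually (gt_mem_nhds (by positivity))
  filter_upwards [hev1, hev2, eventually_gt_atTop 0] with N h1 h2 hN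
  have hN' : (0 : ℝ) < N := by exact_mod_cast hN
  have hA1 : ((⌊α * N⌋₊ : ℕ) : ℝ) ≤ α * N := Nat.floor_le (by positivity)
  have hA2 : α * N < (⌊α * N⌋₊ : ℕ) + 1 := Nat.lt_floor_add_one _
  have hA3 : ((⌊α * N⌋₊ : ℕ) : ℝ) * cc ε lam ≤ N / 2 * β ^ 2 := by
    calc ((⌊α * N⌋₊ : ℕ) : ℝ) * cc ε lam ≤ (α * N) * c := mul_le_mul_of_nonneg_right hA1 hc0.le
      _ = (α * c) * N := by ring
      _ = N / 2 * β ^ 2 := by rw [hαc]; ring
  have h3 := perceptron_le_sk hN hε0.le (by linarith) hβ hc8 hf hA3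
  rw [← Vale.Agent.P157.Lv.meanPressure_cube_eq] at h3
  have h4 : ((⌊α * N⌋₊ : ℕ) : ℝ) / N * kk ε lam ≤ α * kk ε lam + |kk ε lam| / N := by
    have h5 : |((⌊α * N⌋₊ : ℕ) : ℝ) / N - α| ≤ 1 / N := by
      rw [abs_le]
      constructor
      · have : -(1 / (N : ℝ)) = (-1) / N := by ring
        rw [this, div_le_iff₀ hN', sub_mul, div_mul_cancel₀ _ hN'.ne']
        linarith
      · rw [sub_le_iff_le_add, div_le_iff₀ hN', add_mul, one_div_mul_cancel hN'.ne']
        linarith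
    have h6 : (((⌊α * N⌋₊ : ℕ) : ℝ) / N - α) * kk ε lam ≤ 1 / N * |kk ε lam| := by
      calc (((⌊α * N⌋₊ : ℕ) : ℝ) / N - α) * kk ε lam ≤
          |(((⌊α * N⌋₊ : ℕ) : ℝ) / N - α) * kk ε lam| := le_abs_self _
        _ = |((⌊α * N⌋₊ : ℕ) : ℝ) / N - α| * |kk ε lam| := abs_mul _ _
        _ ≤ 1 / N * |kk ε lam| := mul_le_mul_of_nonneg_right h5 (abs_nonneg _)
    have h7 : 1 / (N : ℝ) * |kk ε lam| = |kk ε lam| / N := by ring
    rw [h7] at h6
    linarith
  linarith

end Vale.Agent.P146.Sk.Low
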