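import Vale.Agent.P146.Sk.Low
import Vale.Agent.P146.Sk.SDefs

/-!
# P146: the Parisi lower bound for the SK model, in the notation of `SDefs`
-/

open MeasureTheory ProbabilityTheory Filter Topology Matrix

namespace Vale.Agent.P146.Sk

open Vale.Agent.P157 (spin)
open Vale.Agent.P157.Par (Path Exponents spinPart)

lemma qf_Wm (N : ℕ) (g : Ix N → ℝ) (x : Fin N → ℝ) :
    qf (Wm N g) x = 2 / √(2 * (N : ℝ)) * ∑ i, ∑ j, g (i, j) * (x i * x j) := by
  unfold qf Wm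
  simp only [Matrix.of_apply]
  have e : ∀ i j, x i * ((g (i, j) + g (j, i)) / √(2 * (N : ℝ))) * x j =
      1 / √(2 * (N : ℝ)) * (g (i, j) * (x i * x j)) +
        1 / √(2 * (N : ℝ)) * (g (j, i) * (x j * x i)) := fun i j => by ring
  simp only [e, Finset.sum_add_distrib, ← Finset.mul_sum]
  rw [Finset.sum_comm (f := fun i j => g (j, i) * (x j * x i))]
  ring

lemma pN_eq_skP (β : ℝ) (N : ℕ) : pN β N = Low.skP β N := by
  unfold pN Low.skP
  congr 2
  funext g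
  unfold Ft Low.lse
  congr 1
  refine Finset.sum_congr rfl fun x _ => ?_
  rw [← Real.exp_add, qf_Wm]
  congr 1
  ring

lemma PSK_eq_Psk (β : ℝ) (k : ℕ) (m q : ℕ → ℝ) : PSK β k m q = Low.Psk β k m q := by
  unfold PSK Low.Psk
  ring

/-- **The Parisi lower bound for the SK model.** -/
theorem low_bound {β : ℝ} (hβ : 0 < β) (ε : ℝ) (hε : 0 < ε) : ∃ (K : ℕ) (m q : ℕ → ℝ),
    Exponents K m ∧ Path K q ∧ q K ≤ 1 ∧ ∀ᶠ N : ℕ in atTop, PSK β K m q ≤ pN β N + ε := by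
  obtain ⟨k, m, q, hm, hq, hq1, h⟩ := Low.sk_lower hβ hε
  refine ⟨k, m, q, hm, hq, hq1, h.mono fun N hN => ?_⟩
  rw [pN_eq_skP, PSK_eq_Psk]
  exact hN

end Vale.Agent.P146.Sk
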