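import Vale.Agent.P157.BorPat
import Vale.Agent.P157.ParUPat5

/-!
# P146, lower bound for the SK model: the pattern part for the weak potential `log (1 - ε cos (λ s))`
-/

open MeasureTheory ProbabilityTheory
open Vale.Agent.P157.Par (gstep cascade Exponents Path patternPart)

namespace Vale.Agent.P146.Sk.Low

/-! ### Elementary inequalities -/

lemma lo_exp_lower {B t : ℝ} (hB : B ≤ 1 / 2) (ht : |t| ≤ 2 * B) :
    1 + t + (1 - B) * (t ^ 2 / 2) ≤ Real.exp t := by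
  have h1 : |t| ≤ 1 := by linarith
  have h := Real.exp_bound h1 (n := 3) (by norm_num)
  simp only [Finset.sum_range_succ, Finset.sum_range_zero, Nat.factorial, pow_zero, pow_one,
    zero_add, Nat.cast_one, div_one, Nat.succ_eq_add_one] at h
  norm_num at h
  have h2 := (abs_le.1 h).1
  have h3 : |t| ^ 3 = t ^ 2 * |t| := by rw [pow_succ, sq_abs]
  have h4 : t ^ 2 * |t| ≤ t ^ 2 * (2 * B) := mul_le_mul_of_nonneg_left ht (sq_nonneg t)
  rw [h3] at h2
  have h5 : 0 ≤ t ^ 2 * B := mul_nonneg (sq_nonneg t) (by have := abs_nonneg t; linarith)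
  nlinarith [sq_nonneg t]

section step

variable {Ω : Type*} [MeasurableSpace Ω] (γ : Measure Ω) [IsProbabilityMeasure γ]

lemma lo_var {H : Ω → ℝ} (iH : Integrable H γ) (iH2 : Integrable (fun z => H z ^ 2) γ) {c : ℝ}
    (hc : c = ∫ z, H z ∂γ) : ∫ z, (H z - c) ^ 2 ∂γ = ∫ z, H z ^ 2 ∂γ - c ^ 2 := by
  have e : ∀ z, (H z - c) ^ 2 = (H z ^ 2 - (2 * c) * H z) + c ^ 2 := fun z => by ring
  have i1 : Integrable (fun z => (2 * c) * H z) γ := iH.const_mul _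
  have i2 : Integrable (fun z => H z ^ 2 - (2 * c) * H z) γ := iH2.sub i1
  simp only [e]
  rw [integral_add i2 (integrable_const _), integral_sub iH2 i1, integral_const_mul, ← hc]
  simp
  ring

lemma lo_bint {H : Ω → ℝ} {C : ℝ} (hH : Measurable H) (hC : ∀ z, |H z| ≤ C) : Integrable H γ :=
  (integrable_const C).mono' hH.aestronglyMeasurable
    (Filter.Eventually.of_forall fun x => by rw [Real.norm_eq_abs]; exact hC x)

lemma lo_sqb {a C : ℝ} (h : |a| ≤ C) : |a ^ 2| ≤ C ^ 2 := by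
  rw [abs_of_nonneg (sq_nonneg a), ← sq_abs]
  exact pow_le_pow_left₀ (abs_nonneg a) h 2

lemma lo_mean {H : Ω → ℝ} {B : ℝ} (hHB : ∀ z, |H z| ≤ B) : |∫ z, H z ∂γ| ≤ B := by
  have := norm_integral_le_of_norm_le_const (μ := γ) (f := H) (C := B)
    (Filter.Eventually.of_forall fun t => by rw [Real.norm_eq_abs]; exact hHB t)
  simpa using this

/-- Second order lower bound for one step. -/
theorem lo_jensen {F : Ω → ℝ} (hF : Measurable F) {B m : ℝ} (hB0 : 0 ≤ B) (hB : B ≤ 1 / 2)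
    (hFB : ∀ z, |F z| ≤ B) (hm : 0 < m) (hm1 : m ≤ 1) :
    ∫ z, F z ∂γ + m / 2 * (1 - 2 * B) * ∫ z, (F z - ∫ z, F z ∂γ) ^ 2 ∂γ ≤
      1 / m * Real.log (∫ z, Real.exp (m * F z) ∂γ) := by
  have iF : Integrable F γ := lo_bint γ hF hFB
  have iF2 : Integrable (fun z => F z ^ 2) γ := lo_bint γ (hF.pow_const 2) fun z => lo_sqb (hFB z)
  set EF := ∫ z, F z ∂γ with hEF
  have hEFB : |EF| ≤ B := lo_mean γ hFB
  set VF := ∫ z, (F z - EF) ^ 2 ∂γ with hVF
  have hdev : ∀ z, |F z - EF| ≤ 2 * B := fun z => (abs_sub _ _).trans (by linarith [hFB z])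
  have iD2 : Integrable (fun z => (F z - EF) ^ 2) γ :=
    lo_bint γ ((hF.sub measurable_const).pow_const 2) fun z => lo_sqb (hdev z)
  have hVF0 : 0 ≤ VF := integral_nonneg fun z => sq_nonneg _
  have hVF1 : VF = ∫ z, F z ^ 2 ∂γ - EF ^ 2 := lo_var γ iF iF2 hEF
  have hVFB : VF ≤ B ^ 2 := by
    rw [hVF1]
    have h1 : ∫ z, F z ^ 2 ∂γ ≤ ∫ _z, B ^ 2 ∂γ := integral_mono iF2 (integrable_const _) fun z => by
      have := lo_sqb (hFB z)
      rwa [abs_of_nonneg (sq_nonneg _)] at this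
    simp at h1
    nlinarith [sq_nonneg EF]
  have hmd : ∀ z, |m * (F z - EF)| ≤ 2 * B := by
    intro z
    rw [abs_mul, abs_of_pos hm]
    calc m * |F z - EF| ≤ 1 * (2 * B) := mul_le_mul hm1 (hdev z) (abs_nonneg _) zero_le_one
      _ = 2 * B := one_mul _
  have iexp : Integrable (fun z => Real.exp (m * (F z - EF))) γ := by
    refine lo_bint γ (C := Real.exp (2 * B)) (Real.measurable_exp.comp
      ((hF.sub measurable_const).const_mul m)) fun z => ?_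
    rw [abs_of_pos (Real.exp_pos _)]
    exact Real.exp_le_exp.2 ((le_abs_self _).trans (hmd z))
  have h1 : ∀ z, (1 + m * (F z - EF)) + (1 - B) * (m ^ 2 / 2) * (F z - EF) ^ 2 ≤
      Real.exp (m * (F z - EF)) := by
    intro z
    have h3 := lo_exp_lower hB (hmd z)
    have e : (1 - B) * ((m * (F z - EF)) ^ 2 / 2) = (1 - B) * (m ^ 2 / 2) * (F z - EF) ^ 2 := by ring
    rwa [e] at h3
  have iD : Integrable (fun z => m * (F z - EF)) γ := (iF.sub (integrable_const _)).const_mul m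
  have iQ : Integrable (fun z => (1 - B) * (m ^ 2 / 2) * (F z - EF) ^ 2) γ := iD2.const_mul _
  have i1 : Integrable (fun z => 1 + m * (F z - EF)) γ := (integrable_const (1 : ℝ)).add iD
  have i2 : Integrable (fun z => (1 + m * (F z - EF)) + (1 - B) * (m ^ 2 / 2) * (F z - EF) ^ 2) γ :=
    i1.add iQ
  have h2 := integral_mono i2 iexp h1
  set a := (1 - B) * (m ^ 2 / 2) * VF with ha
  have h3 : ∫ z, ((1 + m * (F z - EF)) + (1 - B) * (m ^ 2 / 2) * (F z - EF) ^ 2) ∂γ = 1 + a := by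
    rw [integral_add i1 iQ, integral_add (integrable_const _) iD,
      integral_const_mul, integral_const_mul, integral_sub iF (integrable_const _), ← hEF, ← hVF]
    simp
    exact ha.symm
  have ha0 : 0 ≤ a := mul_nonneg (mul_nonneg (by linarith) (by positivity)) hVF0
  have h4 : 1 + a ≤ ∫ z, Real.exp (m * (F z - EF)) ∂γ := by
    rw [← h3]
    exact h2
  have h5 : ∫ z, Real.exp (m * F z) ∂γ = Real.exp (m * EF) * ∫ z, Real.exp (m * (F z - EF)) ∂γ := by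
    rw [← integral_const_mul]
    refine integral_congr_ae (Filter.Eventually.of_forall fun z => ?_)
    simp only
    rw [← Real.exp_add]
    congr 1
    ring
  have hpos : 0 < ∫ z, Real.exp (m * (F z - EF)) ∂γ := by linarith
  have h6 : Real.log (∫ z, Real.exp (m * F z) ∂γ) = m * EF +
      Real.log (∫ z, Real.exp (m * (F z - EF)) ∂γ) := by
    rw [h5, Real.log_mul (Real.exp_pos _).ne' hpos.ne', Real.log_exp]
  have h7 : a * (1 - a) ≤ Real.log (∫ z, Real.exp (m * (F z - EF)) ∂γ) := by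
    have h8 := Real.one_sub_inv_le_log_of_pos (show 0 < 1 + a by linarith)
    have h9 : a * (1 - a) ≤ 1 - (1 + a)⁻¹ := by
      have : (1 : ℝ) - (1 + a)⁻¹ = a / (1 + a) := by field_simp; ring
      rw [this, le_div_iff₀ (by linarith)]
      nlinarith [mul_nonneg ha0 (sq_nonneg a)]
    exact h9.trans (h8.trans (Real.log_le_log (by linarith) h4))
  have hm2 : m ^ 2 / 2 ≤ 1 / 2 := by nlinarith
  have h8 : a ≤ B := by
    have h10 : (1 - B) * (m ^ 2 / 2) ≤ 1 := by nlinarith [sq_nonneg m]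
    have h11 : a ≤ 1 * B ^ 2 := mul_le_mul h10 hVFB hVF0 zero_le_one
    nlinarith
  have h9 : (m ^ 2 / 2) * VF * (1 - 2 * B) ≤ a * (1 - a) := by
    have h10 : a * (1 - B) ≤ a * (1 - a) := mul_le_mul_of_nonneg_left (by linarith) ha0
    have h12 : 0 ≤ (m ^ 2 / 2) * VF := by positivity
    have h11 : (m ^ 2 / 2) * VF * (1 - 2 * B) ≤ a * (1 - B) := by
      rw [ha]
      nlinarith [mul_nonneg h12 (sq_nonneg B)]
    linarith
  rw [h6]
  have h12 : 1 / m * (m * EF + Real.log (∫ z, Real.exp (m * (F z - EF)) ∂γ)) =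
      EF + 1 / m * Real.log (∫ z, Real.exp (m * (F z - EF)) ∂γ) := by
    field_simp
  rw [h12]
  have h13 : m / 2 * (1 - 2 * B) * VF = 1 / m * ((m ^ 2 / 2) * VF * (1 - 2 * B)) := by
    field_simp
  rw [h13]
  have h14 : 1 / m * ((m ^ 2 / 2) * VF * (1 - 2 * B)) ≤
      1 / m * Real.log (∫ z, Real.exp (m * (F z - EF)) ∂γ) :=
    mul_le_mul_of_nonneg_left (h9.trans h7) (by positivity)
  linarith

/-- The splitting of the variance. -/
theorem lo_split {F X : Ω → ℝ} (hF : Measurable F) (hX : Measurable X) {B ε : ℝ}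
    (hFB : ∀ z, |F z| ≤ B) (hXB : ∀ z, |X z| ≤ B) (hε : 0 < ε) :
    (1 - ε) * (∫ z, X z ^ 2 ∂γ - (∫ z, X z ∂γ) ^ 2) -
      1 / ε * (∫ z, (F z - X z) ^ 2 ∂γ - (∫ z, F z ∂γ - ∫ z, X z ∂γ) ^ 2) ≤
      ∫ z, (F z - ∫ z, F z ∂γ) ^ 2 ∂γ ∧
    0 ≤ ∫ z, (F z - X z) ^ 2 ∂γ - (∫ z, F z ∂γ - ∫ z, X z ∂γ) ^ 2 := by
  have iF : Integrable F γ := lo_bint γ hF hFB
  have iX : Integrable X γ := lo_bint γ hX hXB
  have iX2 : Integrable (fun z => X z ^ 2) γ := lo_bint γ (hX.pow_const 2) fun z => lo_sqb (hXB z)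
  set EF := ∫ z, F z ∂γ with hEF
  set EX := ∫ z, X z ∂γ with hEX
  have hEFB : |EF| ≤ B := lo_mean γ hFB
  have hEXB : |EX| ≤ B := lo_mean γ hXB
  have iD2 : Integrable (fun z => (F z - EF) ^ 2) γ :=
    lo_bint γ (C := (2 * B) ^ 2) ((hF.sub measurable_const).pow_const 2) fun z =>
      lo_sqb ((abs_sub _ _).trans (by linarith [hFB z]))
  have iR2 : Integrable (fun z => (F z - X z) ^ 2) γ :=
    lo_bint γ (C := (2 * B) ^ 2) ((hF.sub hX).pow_const 2) fun z =>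
      lo_sqb ((abs_sub _ _).trans (by linarith [hFB z, hXB z]))
  have iXd : Integrable (fun z => (X z - EX) ^ 2) γ :=
    lo_bint γ (C := (2 * B) ^ 2) ((hX.sub measurable_const).pow_const 2) fun z =>
      lo_sqb ((abs_sub _ _).trans (by linarith [hXB z]))
  have hVX1 : ∫ z, (X z - EX) ^ 2 ∂γ = ∫ z, X z ^ 2 ∂γ - EX ^ 2 := lo_var γ iX iX2 hEX
  have hrd : ∀ z, |(F z - X z) - (EF - EX)| ≤ 4 * B := by
    intro z
    have h1 : |F z - X z| ≤ 2 * B := (abs_sub _ _).trans (by linarith [hFB z, hXB z])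
    have h2 : |EF - EX| ≤ 2 * B := (abs_sub _ _).trans (by linarith)
    exact (abs_sub _ _).trans (by linarith)
  have iRd : Integrable (fun z => ((F z - X z) - (EF - EX)) ^ 2) γ :=
    lo_bint γ (((hF.sub hX).sub measurable_const).pow_const 2) fun z => lo_sqb (hrd z)
  have hVR1 : ∫ z, ((F z - X z) - (EF - EX)) ^ 2 ∂γ =
      ∫ z, (F z - X z) ^ 2 ∂γ - (EF - EX) ^ 2 :=
    lo_var γ (H := fun z => F z - X z) (iF.sub iX) iR2 (by rw [integral_sub iF iX])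
  rw [← hVX1, ← hVR1]
  refine ⟨?_, integral_nonneg fun z => sq_nonneg _⟩
  have h1 : ∀ z, (1 - ε) * (X z - EX) ^ 2 - 1 / ε * ((F z - X z) - (EF - EX)) ^ 2 ≤
      (F z - EF) ^ 2 := by
    intro z
    generalize hb : (F z - X z) - (EF - EX) = b
    generalize ha : X z - EX = a
    have e : F z - EF = a + b := by rw [← ha, ← hb]; ring
    rw [e]
    have h2 : 0 ≤ (ε * a + b) ^ 2 / ε := by positivity
    have h3 : (ε * a + b) ^ 2 / ε = ε * a ^ 2 + 2 * a * b + 1 / ε * b ^ 2 := by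
      field_simp; ring
    rw [h3] at h2
    nlinarith [sq_nonneg b]
  have i3 : Integrable (fun z => (1 - ε) * (X z - EX) ^ 2) γ := iXd.const_mul _
  have i4 : Integrable (fun z => 1 / ε * ((F z - X z) - (EF - EX)) ^ 2) γ := iRd.const_mul _
  have h2 := integral_mono (i3.sub i4) iD2 h1
  have h5 : ∫ z, ((1 - ε) * (X z - EX) ^ 2 - 1 / ε * ((F z - X z) - (EF - EX)) ^ 2) ∂γ =
      (1 - ε) * ∫ z, (X z - EX) ^ 2 ∂γ - 1 / ε * ∫ z, ((F z - X z) - (EF - EX)) ^ 2 ∂γ := by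
    rw [integral_sub i3 i4, integral_const_mul, integral_const_mul]
  rw [← h5]
  exact h2

/-- The one-step inequality. -/
theorem lo_one_step {F X : Ω → ℝ} (hF : Measurable F) (hX : Measurable X) {B m ε : ℝ}
    (hB0 : 0 ≤ B) (hB : B ≤ 1 / 2)
    (hFB : ∀ z, |F z| ≤ B) (hXB : ∀ z, |X z| ≤ B) (hm : 0 < m) (hm1 : m ≤ 1) (hε : 0 < ε)
    (hr : 1 / m * Real.log (∫ z, Real.exp (m * F z) ∂γ) ≤ ∫ z, X z ∂γ) :
    ∫ z, F z ∂γ ≤ 1 / m * Real.log (∫ z, Real.exp (m * F z) ∂γ) ∧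
    ∫ z, (F z - (F z - X z) ^ 2 / (2 * ε)) ∂γ +
      1 / 2 * ((1 - 2 * B) * (1 - ε)) * (m * (∫ z, X z ^ 2 ∂γ - (∫ z, X z ∂γ) ^ 2)) ≤
    1 / m * Real.log (∫ z, Real.exp (m * F z) ∂γ) -
      (1 / m * Real.log (∫ z, Real.exp (m * F z) ∂γ) - ∫ z, X z ∂γ) ^ 2 / (2 * ε) := by
  have key1 := lo_jensen γ hF hB0 hB hFB hm hm1
  obtain ⟨key2, key3⟩ := lo_split γ hF hX hFB hXB hε
  have iF : Integrable F γ := lo_bint γ hF hFB
  have iR2 : Integrable (fun z => (F z - X z) ^ 2) γ :=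
    lo_bint γ (C := (2 * B) ^ 2) ((hF.sub hX).pow_const 2) fun z =>
      lo_sqb ((abs_sub _ _).trans (by linarith [hFB z, hXB z]))
  have h1 : ∫ z, (F z - (F z - X z) ^ 2 / (2 * ε)) ∂γ =
      ∫ z, F z ∂γ - (∫ z, (F z - X z) ^ 2 ∂γ) / (2 * ε) := by
    rw [integral_sub iF (iR2.div_const _), integral_div]
  rw [h1]
  have hVF0 : 0 ≤ ∫ z, (F z - ∫ z, F z ∂γ) ^ 2 ∂γ := integral_nonneg fun z => sq_nonneg _
  generalize 1 / m * Real.log (∫ z, Real.exp (m * F z) ∂γ) = F' at *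
  generalize ∫ z, (F z - ∫ z, F z ∂γ) ^ 2 ∂γ = VF at *
  generalize ∫ z, (F z - X z) ^ 2 ∂γ = R2 at *
  generalize ∫ z, X z ^ 2 ∂γ - (∫ z, X z ∂γ) ^ 2 = VX at *
  generalize ∫ z, X z ∂γ = EX at *
  generalize ∫ z, F z ∂γ = EF at *
  have hθ : 0 ≤ 1 - 2 * B := by linarith
  have hEFF : EF ≤ F' := by
    have : 0 ≤ m / 2 * (1 - 2 * B) * VF := by positivity
    linarith
  refine ⟨hEFF, ?_⟩
  have hsq : (F' - EX) ^ 2 ≤ (EF - EX) ^ 2 := by nlinarith
  generalize hVR : R2 - (EF - EX) ^ 2 = VR at *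
  have hVR2 : VR ≤ R2 - (F' - EX) ^ 2 := by rw [← hVR]; linarith
  have hmθ : m * (1 - 2 * B) ≤ 1 := by nlinarith
  have h3 : m / 2 * (1 - 2 * B) * ((1 - ε) * VX - 1 / ε * VR) ≤ m / 2 * (1 - 2 * B) * VF :=
    mul_le_mul_of_nonneg_left key2 (by positivity)
  have h4 : m / 2 * (1 - 2 * B) * (1 / ε * VR) ≤ 1 / (2 * ε) * (R2 - (F' - EX) ^ 2) := by
    have h5 : m / 2 * (1 - 2 * B) * (1 / ε * VR) = 1 / (2 * ε) * (m * (1 - 2 * B) * VR) := by
      field_simp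
    rw [h5]
    refine mul_le_mul_of_nonneg_left ?_ (by positivity)
    calc m * (1 - 2 * B) * VR ≤ 1 * VR := mul_le_mul_of_nonneg_right hmθ key3
      _ = VR := one_mul _
      _ ≤ _ := hVR2
  have h2 : 1 / (2 * ε) * (R2 - (F' - EX) ^ 2) = R2 / (2 * ε) - (F' - EX) ^ 2 / (2 * ε) := by
    ring
  rw [h2] at h4
  have h6 : m / 2 * (1 - 2 * B) * ((1 - ε) * VX - 1 / ε * VR) =
      1 / 2 * ((1 - 2 * B) * (1 - ε)) * (m * VX) - m / 2 * (1 - 2 * B) * (1 / ε * VR) := by ring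
  linarith

end step

end Vale.Agent.P146.Sk.Low
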