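import Vale.Agent.P146.Sk.LowCas

/-!
# P146, lower bound for the SK model: the cascade of the weak potential
-/

open MeasureTheory ProbabilityTheory
open Vale.Agent.P157.Par (gstep cascade Exponents Path patternPart bp_int bp_conv gauss_cos
  ClsB_gstep_meas cascade_succ_def)

namespace Vale.Agent.P146.Sk.Low

/-- The averaged cosine. -/
noncomputable def Xc (ε lam q : ℝ) (x : ℝ) : ℝ :=
  -(ε * Real.exp (-(lam ^ 2 * (1 - q)) / 2)) * Real.cos (lam * x)

/-- The covariance `e^{-λ²} cosh (λ² q)`. -/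
noncomputable def kap (lam q : ℝ) : ℝ := Real.exp (-lam ^ 2) * Real.cosh (lam ^ 2 * q)

variable {ε lam q v : ℝ}

lemma Xc_meas : Measurable (Xc ε lam q) := by unfold Xc; fun_prop

lemma abs_Xc_le (hε : 0 ≤ ε) (hq : q ≤ 1) (x : ℝ) : |Xc ε lam q x| ≤ ε := by
  unfold Xc
  rw [abs_mul, abs_neg, abs_mul, abs_of_nonneg hε, abs_of_pos (Real.exp_pos _)]
  have h1 : Real.exp (-(lam ^ 2 * (1 - q)) / 2) ≤ 1 := by
    rw [Real.exp_le_one_iff]
    have : 0 ≤ lam ^ 2 * (1 - q) := mul_nonneg (sq_nonneg _) (by linarith)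
    linarith
  calc ε * Real.exp (-(lam ^ 2 * (1 - q)) / 2) * |Real.cos (lam * x)| ≤ ε * 1 * 1 := by
        gcongr
        exact Real.abs_cos_le_one _
    _ = ε := by ring

lemma Xc_step (hv : 0 ≤ v) (x : ℝ) :
    ∫ z, Xc ε lam (q + v) (x + √v * z) ∂(gaussianReal 0 1) = Xc ε lam q x := by
  unfold Xc
  rw [integral_const_mul, gauss_cos hv]
  have : Real.exp (-(lam ^ 2 * (1 - q)) / 2) =
      Real.exp (-(lam ^ 2 * (1 - (q + v))) / 2) * Real.exp (-(lam ^ 2 * v) / 2) := by
    rw [← Real.exp_add]; congr 1; ring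
  rw [this]
  ring

lemma Xc_mean (hq : 0 ≤ q) :
    ∫ z, Xc ε lam q (√q * z) ∂(gaussianReal 0 1) = -(ε * Real.exp (-lam ^ 2 / 2)) := by
  have h := Xc_step (ε := ε) (lam := lam) (q := 0) hq 0
  simp only [zero_add] at h
  rw [h]
  unfold Xc
  simp

lemma Xc_sq (hq : 0 ≤ q) :
    ∫ z, Xc ε lam q (√q * z) ^ 2 ∂(gaussianReal 0 1) = ε ^ 2 * kap lam q := by
  have h2 := gauss_cos hq (2 * lam) 0
  simp only [zero_add, mul_zero, Real.cos_zero, one_mul] at h2
  have e : ∀ z, Xc ε lam q (√q * z) ^ 2 = (ε ^ 2 * Real.exp (-(lam ^ 2 * (1 - q))) / 2) *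
      (1 + Real.cos (2 * lam * (√q * z))) := by
    intro z
    have h3 : Real.exp (-(lam ^ 2 * (1 - q))) = Real.exp (-(lam ^ 2 * (1 - q)) / 2) ^ 2 := by
      rw [← Real.exp_nat_mul]; congr 1; push_cast; ring
    have h4 : Real.cos (2 * lam * (√q * z)) = 2 * Real.cos (lam * (√q * z)) ^ 2 - 1 := by
      rw [← Real.cos_two_mul]; congr 1; ring
    unfold Xc
    rw [h3, h4]
    ring
  simp only [e]
  rw [integral_const_mul, integral_add (integrable_const _)
    (bp_int (C := 1) (by fun_prop) fun z => Real.abs_cos_le_one _), h2]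
  simp only [integral_const, probReal_univ, smul_eq_mul, mul_one]
  unfold kap
  rw [Real.cosh_eq]
  have e1 : Real.exp (-(lam ^ 2 * (1 - q))) = Real.exp (-lam ^ 2) * Real.exp (lam ^ 2 * q) := by
    rw [← Real.exp_add]; congr 1; ring
  have e2 : Real.exp (-((2 * lam) ^ 2 * q) / 2) =
      Real.exp (-(lam ^ 2 * q)) * Real.exp (-(lam ^ 2 * q)) := by
    rw [← Real.exp_add]; congr 1; ring
  have e3 : Real.exp (lam ^ 2 * q) * Real.exp (-(lam ^ 2 * q)) = 1 := by
    rw [← Real.exp_add]; simp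
  rw [e1, e2]
  linear_combination (ε ^ 2 * Real.exp (-lam ^ 2) / 2 * Real.exp (-(lam ^ 2 * q))) * e3

/-- The invariant of the cascade. -/
structure Inv (ε lam q : ℝ) (F : ℝ → ℝ) : Prop where
  meas : Measurable F
  lo : ∀ x, Xc ε lam q x - ε ^ 2 ≤ F x
  hi : ∀ x, F x ≤ Real.log (1 + Xc ε lam q x)

lemma one_add_Xc_pos (hε : 0 ≤ ε) (hε1 : ε < 1) (hq : q ≤ 1) (x : ℝ) : 0 < 1 + Xc ε lam q x := by
  have := (abs_le.1 (abs_Xc_le (lam := lam) hε hq x)).1
  linarith

lemma Inv.le {F : ℝ → ℝ} (h : Inv ε lam q F) (hε : 0 ≤ ε) (hε1 : ε < 1) (hq : q ≤ 1) (x : ℝ) :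
    F x ≤ Xc ε lam q x := by
  have h1 := h.hi x
  have h2 := Real.log_le_sub_one_of_pos (one_add_Xc_pos (lam := lam) hε hε1 hq x)
  linarith

lemma Inv.bdd {F : ℝ → ℝ} (h : Inv ε lam q F) (hε : 0 ≤ ε) (hε1 : ε < 1) (hq : q ≤ 1) (x : ℝ) :
    |F x| ≤ 2 * ε := by
  have h1 := h.lo x
  have h2 := h.le hε hε1 hq x
  have h3 := abs_le.1 (abs_Xc_le (lam := lam) hε hq x)
  rw [abs_le]
  constructor <;> nlinarith

/-- The invariant is preserved by one step, and the one-step inequality. -/
lemma Inv.step {F : ℝ → ℝ} {m : ℝ} (h : Inv ε lam (q + v) F) (hε : 0 < ε) (hε1 : ε ≤ 1 / 4)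
    (hv : 0 ≤ v) (hq : q + v ≤ 1) (hm : 0 < m) (hm1 : m ≤ 1) :
    Inv ε lam q (gstep m v F) ∧ ∀ x,
      ∫ z, (F (x + √v * z) - (F (x + √v * z) - Xc ε lam (q + v) (x + √v * z)) ^ 2 / (2 * ε))
        ∂(gaussianReal 0 1) + 1 / 2 * ((1 - 4 * ε) * (1 - ε)) *
        (m * (∫ z, Xc ε lam (q + v) (x + √v * z) ^ 2 ∂(gaussianReal 0 1) - Xc ε lam q x ^ 2)) ≤
      gstep m v F x - (gstep m v F x - Xc ε lam q x) ^ 2 / (2 * ε) := by
  have hq1 : q ≤ 1 := by linarith
  have hFm : ∀ x, Measurable fun z : ℝ => F (x + √v * z) := fun x => h.meas.comp (by fun_prop)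
  have hXm : ∀ x, Measurable fun z : ℝ => Xc ε lam (q + v) (x + √v * z) := fun x =>
    Xc_meas.comp (by fun_prop)
  have hhi : ∀ x, gstep m v F x ≤ Real.log (1 + Xc ε lam q x) := by
    intro x
    have hp := one_add_Xc_pos (lam := lam) (q := q) hε.le (by linarith) hq1 x
    have h1 : ∀ z : ℝ, Real.exp (m * (F (x + √v * z) - Real.log (1 + Xc ε lam q x))) ≤
        (1 - m) + m * ((1 + Xc ε lam (q + v) (x + √v * z)) / (1 + Xc ε lam q x)) := by
      intro z
      have h2 := convexOn_exp.2 (Set.mem_univ (0 : ℝ))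
        (Set.mem_univ (F (x + √v * z) - Real.log (1 + Xc ε lam q x))) (sub_nonneg.2 hm1) hm.le
        (by ring)
      simp only [smul_eq_mul, mul_zero, zero_add, Real.exp_zero, mul_one] at h2
      refine h2.trans ?_
      gcongr
      rw [Real.exp_sub, Real.exp_log hp]
      gcongr
      have h3 := Real.exp_le_exp.2 (h.hi (x + √v * z))
      rwa [Real.exp_log (one_add_Xc_pos hε.le (by linarith) hq _)] at h3
    have i1 : Integrable (fun z : ℝ => Xc ε lam (q + v) (x + √v * z)) (gaussianReal 0 1) :=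
      bp_int (hXm x) fun z => abs_Xc_le hε.le hq _
    have i0 : Integrable (fun z : ℝ => 1 + Xc ε lam (q + v) (x + √v * z)) (gaussianReal 0 1) :=
      (integrable_const _).add i1
    have i0' : Integrable (fun z : ℝ => m * ((1 + Xc ε lam (q + v) (x + √v * z)) /
        (1 + Xc ε lam q x))) (gaussianReal 0 1) := (i0.div_const _).const_mul _
    have i2 : Integrable (fun z : ℝ => (1 - m) + m * ((1 + Xc ε lam (q + v) (x + √v * z)) /
        (1 + Xc ε lam q x))) (gaussianReal 0 1) :=
      (integrable_const _).add i0'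
    have i3 : Integrable (fun z : ℝ => Real.exp (m * (F (x + √v * z) -
        Real.log (1 + Xc ε lam q x)))) (gaussianReal 0 1) :=
      i2.mono' (Real.measurable_exp.comp (((hFm x).sub measurable_const).const_mul m)).aestronglyMeasurable
        (Filter.Eventually.of_forall fun z => by
          rw [Real.norm_eq_abs, abs_of_pos (Real.exp_pos _)]; exact h1 z)
    have h4 := integral_mono i3 i2 h1
    have h5 : ∫ z, ((1 - m) + m * ((1 + Xc ε lam (q + v) (x + √v * z)) / (1 + Xc ε lam q x)))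
        ∂(gaussianReal 0 1) = 1 := by
      rw [integral_add (integrable_const _) i0', integral_const_mul,
        integral_div, integral_add (integrable_const _) i1, Xc_step hv]
      simp only [integral_const, probReal_univ, smul_eq_mul, mul_one, one_mul]
      rw [div_self hp.ne']
      ring
    rw [h5] at h4
    have h6 : ∫ z, Real.exp (m * (F (x + √v * z) - Real.log (1 + Xc ε lam q x)))
        ∂(gaussianReal 0 1) = Real.exp (-(m * Real.log (1 + Xc ε lam q x))) *
        ∫ z, Real.exp (m * F (x + √v * z)) ∂(gaussianReal 0 1) := by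
      rw [← integral_const_mul]
      refine integral_congr_ae (Filter.Eventually.of_forall fun z => ?_)
      simp only
      rw [← Real.exp_add]
      congr 1
      ring
    have hpos := (Vale.Agent.P157.Par.bp_exp_gstep (v := v) hm h.meas
      (fun x => h.bdd hε.le (by linarith) hq x) x).1
    have h7 : Real.log (∫ z, Real.exp (m * F (x + √v * z)) ∂(gaussianReal 0 1)) ≤
        m * Real.log (1 + Xc ε lam q x) := by
      rw [h6] at h4
      have h8 := Real.log_le_log (by positivity) h4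
      rw [Real.log_mul (Real.exp_pos _).ne' hpos.ne', Real.log_exp, Real.log_one] at h8
      linarith
    unfold gstep
    calc 1 / m * Real.log (∫ z, Real.exp (m * F (x + √v * z)) ∂(gaussianReal 0 1)) ≤
        1 / m * (m * Real.log (1 + Xc ε lam q x)) := mul_le_mul_of_nonneg_left h7 (by positivity)
      _ = _ := by field_simp
  have key := fun x => lo_one_step (gaussianReal 0 1) (hFm x) (hXm x) (B := 2 * ε) (m := m)
    (ε := ε) (by positivity) (by linarith) (fun z => h.bdd hε.le (by linarith) hq _)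
    (fun z => (abs_Xc_le hε.le hq _).trans (by linarith)) hm hm1 hε (by
      rw [Xc_step hv]
      have h1 := hhi x
      have h2 := Real.log_le_sub_one_of_pos
        (one_add_Xc_pos (lam := lam) (q := q) hε.le (by linarith) hq1 x)
      unfold gstep at h1
      linarith)
  refine ⟨⟨ClsB_gstep_meas h.meas, fun x => ?_, hhi⟩, fun x => ?_⟩
  · have h1 := (key x).1
    have h2 : Xc ε lam q x - ε ^ 2 ≤ ∫ z, F (x + √v * z) ∂(gaussianReal 0 1) := by
      have i1 : Integrable (fun z : ℝ => Xc ε lam (q + v) (x + √v * z)) (gaussianReal 0 1) :=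
        bp_int (hXm x) fun z => abs_Xc_le hε.le hq _
      have i2 : Integrable (fun z : ℝ => F (x + √v * z)) (gaussianReal 0 1) :=
        bp_int (hFm x) fun z => h.bdd hε.le (by linarith) hq _
      have h3 := integral_mono (i1.sub (integrable_const (ε ^ 2))) i2 fun z => h.lo _
      have h4 : ∫ z, (Xc ε lam (q + v) (x + √v * z) - ε ^ 2) ∂(gaussianReal 0 1) =
          Xc ε lam q x - ε ^ 2 := by
        rw [integral_sub i1 (integrable_const _), Xc_step hv]
        simp
      rw [← h4]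
      exact h3
    exact h2.trans h1
  · have h1 := (key x).2
    rw [Xc_step hv] at h1
    have e : 1 - 2 * (2 * ε) = 1 - 4 * ε := by ring
    rw [e] at h1
    exact h1

end Vale.Agent.P146.Sk.Low
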