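import Mathlib

/-!
# P146, lower bound for the SK model: replacing patterns one at a time
-/

open MeasureTheory ProbabilityTheory

namespace Vale.Agent.P146.Sk.Low

variable {X : Type*} [Fintype X]

/-- The log-sum-exp function. -/
noncomputable def lse (w u : X → ℝ) : ℝ := Real.log (∑ x, w x * Real.exp (u x))

lemma lse_sum_pos [Nonempty X] {w : X → ℝ} (hw : ∀ x, 0 < w x) (u : X → ℝ) :
    0 < ∑ x, w x * Real.exp (u x) :=
  Finset.sum_pos (fun x _ => mul_pos (hw x) (Real.exp_pos _)) Finset.univ_nonempty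

lemma abs_lse_le [Nonempty X] {w : X → ℝ} (hw : ∀ x, 0 < w x) (u : X → ℝ) :
    |lse w u| ≤ |Real.log (∑ x, w x)| + ∑ x, |u x| := by
  have hs : 0 < ∑ x, w x := Finset.sum_pos (fun x _ => hw x) Finset.univ_nonempty
  set C := ∑ x, |u x| with hC
  have hu : ∀ x, |u x| ≤ C := fun x =>
    Finset.single_le_sum (f := fun x => |u x|) (fun y _ => abs_nonneg (u y)) (Finset.mem_univ x)
  have h1 : ∑ x, w x * Real.exp (u x) ≤ (∑ x, w x) * Real.exp C := by
    rw [Finset.sum_mul]
    refine Finset.sum_le_sum fun x _ => ?_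
    exact mul_le_mul_of_nonneg_left (Real.exp_le_exp.2 ((le_abs_self _).trans (hu x))) (hw x).le
  have h2 : (∑ x, w x) * Real.exp (-C) ≤ ∑ x, w x * Real.exp (u x) := by
    rw [Finset.sum_mul]
    refine Finset.sum_le_sum fun x _ => ?_
    refine mul_le_mul_of_nonneg_left (Real.exp_le_exp.2 ?_) (hw x).le
    have := (abs_le.1 (hu x)).1
    linarith
  have h3 := Real.log_le_log (lse_sum_pos hw u) h1
  have h4 := Real.log_le_log (mul_pos hs (Real.exp_pos _)) h2
  rw [Real.log_mul hs.ne' (Real.exp_pos _).ne', Real.log_exp] at h3 h4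
  unfold lse
  have h5 := neg_abs_le (Real.log (∑ x, w x))
  have h6 := le_abs_self (Real.log (∑ x, w x))
  rw [abs_le]
  constructor <;> linarith

lemma lse_measurable {Ω : Type*} [MeasurableSpace Ω] {u : Ω → X → ℝ} (w : X → ℝ)
    (hu : ∀ x, Measurable fun ω => u ω x) : Measurable fun ω => lse w (u ω) := by
  unfold lse
  exact Real.measurable_log.comp (Finset.measurable_sum _ fun x _ =>
    (Real.measurable_exp.comp (hu x)).const_mul _)

lemma lse_integrable [Nonempty X] {Ω : Type*} [MeasurableSpace Ω] {μ : Measure Ω}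
    [IsProbabilityMeasure μ] {u : Ω → X → ℝ} {w : X → ℝ} (hw : ∀ x, 0 < w x)
    (hm : ∀ x, Measurable fun ω => u ω x) (hu : ∀ x, Integrable (fun ω => u ω x) μ) :
    Integrable (fun ω => lse w (u ω)) μ := by
  refine Integrable.mono' (g := fun ω => |Real.log (∑ x, w x)| + ∑ x, |u ω x|)
    ((integrable_const _).add (integrable_finsetSum _ fun x _ => (hu x).abs))
    (lse_measurable w hm).aestronglyMeasurable
    (Filter.Eventually.of_forall fun ω => ?_)
  rw [Real.norm_eq_abs]
  exact abs_lse_le hw _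

/-- The weights absorb a part of the energy. -/
lemma lse_add (w u u' : X → ℝ) :
    lse w (fun x => u x + u' x) = lse (fun x => w x * Real.exp (u x)) u' := by
  unfold lse
  congr 1
  refine Finset.sum_congr rfl fun x _ => ?_
  rw [Real.exp_add]
  ring

variable {Ω Ω' : Type*} [MeasurableSpace Ω] [MeasurableSpace Ω']

/-- **Replacing the patterns one at a time.** -/
theorem tele [Nonempty X] (ρ : Measure Ω) [IsProbabilityMeasure ρ] (μ : Measure Ω')
    [IsProbabilityMeasure μ] {U : Ω → X → ℝ} {V : ℕ → Ω' → X → ℝ}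
    (mU : ∀ x, Measurable fun ω => U ω x) (iU : ∀ x, Integrable (fun ω => U ω x) ρ)
    (mV : ∀ A x, Measurable fun ω => V A ω x) (iV : ∀ A x, Integrable (fun ω => V A ω x) μ)
    (hV0 : ∀ ω x, V 0 ω x = 0) {κ : ℝ}
    (h : ∀ (A : ℕ) (w : X → ℝ), (∀ x, 0 < w x) →
      ∫ ω', ∫ ω, lse w (fun x => V A ω' x + U ω x) ∂ρ ∂μ ≤ ∫ ω', lse w (V (A + 1) ω') ∂μ + κ)
    (A : ℕ) (w : X → ℝ) (hw : ∀ x, 0 < w x) :
    ∫ ω : Fin A → Ω, lse w (fun x => ∑ a, U (ω a) x) ∂(Measure.pi fun _ => ρ) ≤
      ∫ ω', lse w (V A ω') ∂μ + A * κ := by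
  induction A generalizing w with
  | zero =>
    have e1 : ∀ ω : Fin 0 → Ω, lse w (fun x => ∑ a, U (ω a) x) = lse w (fun _ => 0) := by
      intro ω; simp
    have e2 : ∀ ω' : Ω', V 0 ω' = fun _ => 0 := fun ω' => funext fun x => hV0 ω' x
    simp only [e1, e2]
    simp
  | succ A ih =>
    have mp := measurePreserving_piFinSuccAbove (fun _ : Fin (A + 1) => ρ) 0
    have e0 : ∀ ω : Fin (A + 1) → Ω, (fun x => ∑ a, U (ω a) x) =
        fun x => U ((MeasurableEquiv.piFinSuccAbove (fun _ => Ω) 0 ω).1) x +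
          ∑ a, U ((MeasurableEquiv.piFinSuccAbove (fun _ => Ω) 0 ω).2 a) x := by
      intro ω
      funext x
      rw [Fin.sum_univ_succ]
      rfl
    have e1 : ∫ ω : Fin (A + 1) → Ω, lse w (fun x => ∑ a, U (ω a) x) ∂(Measure.pi fun _ => ρ) =
        ∫ p : Ω × (Fin A → Ω), lse w (fun x => U p.1 x + ∑ a, U (p.2 a) x)
          ∂(ρ.prod (Measure.pi fun _ => ρ)) := by
      simp only [e0]
      exact mp.integral_comp (MeasurableEquiv.measurableEmbedding _)
        (fun p : Ω × (Fin A → Ω) => lse w (fun x => U p.1 x + ∑ a, U (p.2 a) x))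
    have iUa : ∀ x, Integrable (fun ω : Fin A → Ω => ∑ a, U (ω a) x) (Measure.pi fun _ => ρ) :=
      fun x => integrable_finsetSum _ fun a _ => integrable_comp_eval (μ := fun _ => ρ) (i := a) (iU x)
    have mUa : ∀ x, Measurable (fun ω : Fin A → Ω => ∑ a, U (ω a) x) := fun x =>
      Finset.measurable_sum _ fun a _ => (mU x).comp (measurable_pi_apply a)
    have iP : Integrable (fun p : Ω × (Fin A → Ω) => lse w (fun x => U p.1 x + ∑ a, U (p.2 a) x))
        (ρ.prod (Measure.pi fun _ => ρ)) := by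
      refine lse_integrable hw (fun x => ?_) (fun x => ?_)
      · exact ((mU x).comp measurable_fst).add ((mUa x).comp measurable_snd)
      · exact ((iU x).comp_fst _).add ((iUa x).comp_snd _)
    have iQ : Integrable (fun p : Ω × Ω' => lse w (fun x => U p.1 x + V A p.2 x)) (ρ.prod μ) := by
      refine lse_integrable hw (fun x => ?_) (fun x => ?_)
      · exact ((mU x).comp measurable_fst).add ((mV A x).comp measurable_snd)
      · exact ((iU x).comp_fst _).add ((iV A x).comp_snd _)
    rw [e1, integral_prod _ iP]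
    have h1 : ∀ ω : Ω, ∫ ω' : Fin A → Ω, lse w (fun x => U ω x + ∑ a, U (ω' a) x)
        ∂(Measure.pi fun _ => ρ) ≤ ∫ ω', lse w (fun x => U ω x + V A ω' x) ∂μ + A * κ := by
      intro ω
      have := ih (fun x => w x * Real.exp (U ω x)) (fun x => mul_pos (hw x) (Real.exp_pos _))
      simp only [lse_add]
      exact this
    have i5 : Integrable (fun ω => ∫ ω', lse w (fun x => U ω x + V A ω' x) ∂μ) ρ :=
      iQ.integral_prod_left
    have i6 : Integrable (fun ω => ∫ ω', lse w (fun x => U ω x + V A ω' x) ∂μ + A * κ) ρ :=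
      i5.add (integrable_const (A * κ))
    have h2 := integral_mono iP.integral_prod_left i6 h1
    refine h2.trans ?_
    rw [integral_add i5 (integrable_const _), integral_integral_swap iQ]
    simp only [integral_const, probReal_univ, smul_eq_mul, one_mul]
    have h3 := h A w hw
    have e3 : ∀ (ω' : Ω') (ω : Ω), (fun x => U ω x + V A ω' x) = fun x => V A ω' x + U ω x :=
      fun ω' ω => funext fun x => add_comm _ _
    simp only [e3]
    push_cast
    linarith

end Vale.Agent.P146.Sk.Low
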