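import Vale.Agent.P157.LvBasic
import Vale.Agent.P157.ParGram
import Vale.Agent.P146.Sk.LowTele

/-!
# P146, lower bound for the SK model: Gaussian linear forms
-/

open MeasureTheory ProbabilityTheory
open Vale.Agent.P157.Lv (gI EG Lip)

namespace Vale.Agent.P146.Sk.Low

variable {K : Type} [Fintype K]

/-- A linear form. -/
def lf (a ξ : K → ℝ) : ℝ := ∑ k, a k * ξ k

lemma lf_lip (a : K → ℝ) : Lip (lf a) := Lip.sum _ fun k _ => (Lip.coord k).const_mul (a k)

lemma lf_meas (a : K → ℝ) : Measurable (lf a) := (lf_lip a).measurable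

lemma lf_integrable (a : K → ℝ) : Integrable (lf a) (gI K) := (lf_lip a).eg.integrable

lemma exp_lf_integrable (a : K → ℝ) : Integrable (fun ξ => Real.exp (lf a ξ)) (gI K) := by
  simpa using ((lf_lip a).exp_eg 1).integrable

lemma lf_smul (c : ℝ) (a ξ : K → ℝ) : lf (fun k => c * a k) ξ = c * lf a ξ := by
  unfold lf
  rw [Finset.mul_sum]
  exact Finset.sum_congr rfl fun k _ => by ring

lemma lf_add (a b ξ : K → ℝ) : lf (fun k => a k + b k) ξ = lf a ξ + lf b ξ := by
  unfold lf
  rw [← Finset.sum_add_distrib]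
  exact Finset.sum_congr rfl fun k _ => by ring

lemma lf_sub (a b ξ : K → ℝ) : lf (fun k => a k - b k) ξ = lf a ξ - lf b ξ := by
  unfold lf
  rw [← Finset.sum_sub_distrib]
  exact Finset.sum_congr rfl fun k _ => by ring

lemma lf_sum {X : Type*} [Fintype X] (w : X → ℝ) (U : X → K → ℝ) (ξ : K → ℝ) :
    lf (fun k => ∑ x, w x * U x k) ξ = ∑ x, w x * lf (U x) ξ := by
  unfold lf
  simp_rw [Finset.sum_mul, Finset.mul_sum]
  rw [Finset.sum_comm]
  exact Finset.sum_congr rfl fun x _ => Finset.sum_congr rfl fun k _ => by ring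

lemma int_exp_lf (a : K → ℝ) :
    ∫ ξ, Real.exp (lf a ξ) ∂(gI K) = Real.exp ((∑ k, a k ^ 2) / 2) := by
  unfold lf
  simp_rw [Real.exp_sum]
  rw [integral_fintype_prod_eq_prod (μ := fun _ : K => gaussianReal 0 1)
    (f := fun k (x : ℝ) => Real.exp (a k * x))]
  have e2 : ∀ t : ℝ, ∫ x : ℝ, Real.exp (t * x) ∂(gaussianReal 0 1) = Real.exp (t ^ 2 / 2) := by
    intro t
    have h := mgf_id_gaussianReal (μ := 0) (v := 1)
    have h2 := congrFun h t
    simp only [mgf, id_eq] at h2
    rw [h2]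
    congr 1
    simp
  simp_rw [e2]
  rw [← Real.exp_sum, Finset.sum_div]

lemma int_cos_lf [DecidableEq K] (a : K → ℝ) :
    ∫ ξ, Real.cos (lf a ξ) ∂(gI K) = Real.exp (-(∑ k, a k ^ 2) / 2) := by
  have h := Vale.Agent.P157.Par.char_lin (J := Unit) (fun _ => a) (fun _ => 1)
  simp only [Finset.univ_unique, Finset.sum_singleton, mul_one, one_mul] at h
  have h1 : ∀ ξ, Vale.Agent.P157.Par.lin (fun _ : Unit => a) ξ default = lf a ξ := fun ξ => rfl
  have h2 : Vale.Agent.P157.Par.gram (fun _ : Unit => a) (fun _ : Unit => a) default default =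
      ∑ k, a k ^ 2 := by
    unfold Vale.Agent.P157.Par.gram
    exact Finset.sum_congr rfl fun k _ => (sq _).symm
  simp only [h1, h2] at h
  have h3 := congrArg Complex.re h
  have hI : Integrable (fun ξ : K → ℝ => Complex.exp ((lf a ξ : ℂ) * Complex.I)) (gI K) := by
    refine Integrable.mono' (integrable_const (1 : ℝ)) ?_ (Filter.Eventually.of_forall fun z => ?_)
    · exact (Complex.measurable_exp.comp
        ((Complex.measurable_ofReal.comp (lf_meas a)).mul_const _)).aestronglyMeasurable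
    · rw [Complex.norm_exp_ofReal_mul_I]
  have h4 := integral_re hI
  simp only [RCLike.re_to_complex, Complex.exp_ofReal_mul_I_re] at h4
  have h5 : (Complex.exp (-((∑ k, a k ^ 2 : ℝ) : ℂ) / 2)).re = Real.exp (-(∑ k, a k ^ 2) / 2) := by
    rw [← Complex.ofReal_neg, ← Complex.ofReal_ofNat, ← Complex.ofReal_div, ← Complex.ofReal_exp,
      Complex.ofReal_re]
  rw [h4, ← h5]
  exact h3

lemma int_lf (a : K → ℝ) : ∫ ξ, lf a ξ ∂(gI K) = 0 := by
  unfold lf
  rw [integral_finsetSum _ fun k _ => (EG.coord k).integrable.const_mul _]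
  refine Finset.sum_eq_zero fun k _ => ?_
  rw [integral_const_mul]
  have : ∫ ξ : K → ℝ, ξ k ∂(gI K) = ∫ x, x ∂(gaussianReal 0 1) :=
    integral_comp_eval (μ := fun _ : K => gaussianReal 0 1) (i := k) (f := fun x : ℝ => x)
      (by fun_prop)
  rw [this, integral_id_gaussianReal, mul_zero]

end Vale.Agent.P146.Sk.Low
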