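import Vale.Agent.P146.Sk.LowPat
import Vale.Agent.P157.SpinDefs

/-!
# P146, lower bound for the SK model: comparison of the perceptron with the SK model, size `N`
-/

open MeasureTheory ProbabilityTheory
open Vale.Agent.P157.Lv (gI EG Lip)
open Vale.Agent.P157 (spin)

namespace Vale.Agent.P146.Sk.Low

set_option linter.unusedSectionVars false

lemma pot_meas {ε lam : ℝ} {f : ℝ → ℝ}
    (hf : ∀ s, Real.exp (f s) = 1 - ε * Real.cos (lam * s)) : Measurable f := by
  have h1 : f = fun s => Real.log (1 - ε * Real.cos (lam * s)) := by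
    funext s
    rw [← hf, Real.log_exp]
  rw [h1]
  exact Real.measurable_log.comp (by fun_prop)

lemma pot_bdd {ε lam : ℝ} (hε : 0 ≤ ε) (hε1 : ε ≤ 1 / 2) {f : ℝ → ℝ}
    (hf : ∀ s, Real.exp (f s) = 1 - ε * Real.cos (lam * s)) (s : ℝ) :
    |f s| ≤ |Real.log (1 / 2)| + |Real.log 2| := by
  have h1 : f s = Real.log (1 - ε * Real.cos (lam * s)) := by rw [← hf, Real.log_exp]
  have h2 : |ε * Real.cos (lam * s)| ≤ 1 / 2 := by
    rw [abs_mul, abs_of_nonneg hε]
    calc ε * |Real.cos (lam * s)| ≤ ε * 1 :=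
          mul_le_mul_of_nonneg_left (Real.abs_cos_le_one _) hε
      _ ≤ 1 / 2 := by linarith
  have h3 := abs_le.1 h2
  have h4 := Real.log_le_log (by norm_num : (0 : ℝ) < 1 / 2)
    (by linarith : (1 : ℝ) / 2 ≤ 1 - ε * Real.cos (lam * s))
  have h5 := Real.log_le_log (by linarith : (0 : ℝ) < 1 - ε * Real.cos (lam * s))
    (by linarith : 1 - ε * Real.cos (lam * s) ≤ 2)
  rw [h1, abs_le]
  have h6 := neg_abs_le (Real.log (1 / 2))
  have h7 := le_abs_self (Real.log 2)
  have h8 := abs_nonneg (Real.log 2)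
  have h9 := abs_nonneg (Real.log (1 / 2))
  constructor <;> linarith

section law

variable {K : Type} [Fintype K] [DecidableEq K] {X : Type} [Fintype X] [DecidableEq X] [Nonempty X]

/-- The sum of two independent copies. -/
lemma law_add (U : X → K → ℝ) {a b c : ℝ} (habc : a ^ 2 + b ^ 2 = c ^ 2) {w : X → ℝ}
    (hw : ∀ x, 0 < w x) :
    ∫ ξ, ∫ ζ, lse w (fun x => a * lf (U x) ξ + b * lf (U x) ζ) ∂(gI K) ∂(gI K) =
      ∫ ξ, lse w (fun x => c * lf (U x) ξ) ∂(gI K) := by
  have i1 : Integrable (fun p : (K → ℝ) × (K → ℝ) =>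
      lse w (fun x => a * lf (U x) p.1 + b * lf (U x) p.2)) ((gI K).prod (gI K)) := by
    refine lse_integrable hw (fun x => ?_) (fun x => ?_)
    · exact (((lf_meas _).comp measurable_fst).const_mul a).add
        (((lf_meas _).comp measurable_snd).const_mul b)
    · exact (((lf_integrable (U x)).const_mul a).comp_fst _).add
        (((lf_integrable (U x)).const_mul b).comp_snd _)
  rw [← integral_prod _ i1]
  have mp := measurePreserving_sumPiEquivProdPi (X := fun _ : K ⊕ K => ℝ)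
    (fun _ : K ⊕ K => gaussianReal 0 1)
  set U' : X → (K ⊕ K) → ℝ := fun x => Sum.elim (fun k => a * U x k) (fun k => b * U x k) with hU'
  have e1 : ∀ ξ : K ⊕ K → ℝ, lse w (fun x => lf (U' x) ξ) =
      (fun p : (K → ℝ) × (K → ℝ) => lse w (fun x => a * lf (U x) p.1 + b * lf (U x) p.2))
        (MeasurableEquiv.sumPiEquivProdPi (fun _ : K ⊕ K => ℝ) ξ) := by
    intro ξ
    simp only
    congr 1
    funext x
    rw [← lf_smul, ← lf_smul]
    simp only [lf, hU', Fintype.sum_sum_type, Sum.elim_inl, Sum.elim_inr]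
    rfl
  have e2 : ∫ ξ, lse w (fun x => lf (U' x) ξ) ∂(gI (K ⊕ K)) =
      ∫ p : (K → ℝ) × (K → ℝ), lse w (fun x => a * lf (U x) p.1 + b * lf (U x) p.2)
        ∂((gI K).prod (gI K)) := by
    simp_rw [e1]
    exact mp.integral_comp' (g := fun p : (K → ℝ) × (K → ℝ) =>
      lse w (fun x => a * lf (U x) p.1 + b * lf (U x) p.2))
  rw [← e2]
  have mF : Measurable fun u : X → ℝ => lse w u := lse_measurable w fun x => measurable_pi_apply x
  have hG : ∀ x y, Vale.Agent.P157.Par.gram U' U' x y =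
      Vale.Agent.P157.Par.gram (fun x k => c * U x k) (fun x k => c * U x k) x y := by
    intro x y
    simp only [Vale.Agent.P157.Par.gram, hU', Fintype.sum_sum_type, Sum.elim_inl, Sum.elim_inr]
    rw [← Finset.sum_add_distrib]
    refine Finset.sum_congr rfl fun k _ => ?_
    linear_combination (U x k * U y k) * habc
  have h := Vale.Agent.P157.Par.integral_lin_congr hG mF
  have e3 : ∀ ξ : K → ℝ, (fun x => c * lf (U x) ξ) =
      Vale.Agent.P157.Par.lin (fun x k => c * U x k) ξ := by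
    intro ξ
    funext x
    rw [← lf_smul]
    rfl
  simp only [e3]
  exact h

/-- The law is symmetric. -/
lemma law_neg (U : X → K → ℝ) (w : X → ℝ) :
    ∫ ξ, lse w (fun x => -lf (U x) ξ) ∂(gI K) = ∫ ξ, lse w (fun x => lf (U x) ξ) ∂(gI K) := by
  have mF : Measurable fun u : X → ℝ => lse w u := lse_measurable w fun x => measurable_pi_apply x
  have hG : ∀ x y, Vale.Agent.P157.Par.gram (fun x k => -1 * U x k) (fun x k => -1 * U x k) x y =
      Vale.Agent.P157.Par.gram U U x y := by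
    intro x y
    simp only [Vale.Agent.P157.Par.gram]
    exact Finset.sum_congr rfl fun k _ => by ring
  have h := Vale.Agent.P157.Par.integral_lin_congr hG mF
  have e3 : ∀ ξ : K → ℝ, (fun x => -lf (U x) ξ) =
      Vale.Agent.P157.Par.lin (fun x k => -1 * U x k) ξ := by
    intro ξ
    funext x
    rw [neg_eq_neg_one_mul, ← lf_smul]
    rfl
  simp only [e3]
  exact h

/-- Convexity of the log-sum-exp function. -/
lemma lse_convex {w : X → ℝ} (hw : ∀ x, 0 < w x) (u v : X → ℝ) {θ : ℝ} (h0 : 0 ≤ θ) (h1 : θ ≤ 1) :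
    lse w (fun x => (1 - θ) * u x + θ * v x) ≤ (1 - θ) * lse w u + θ * lse w v := by
  -- tangent at the intermediate point
  set m : X → ℝ := fun x => (1 - θ) * u x + θ * v x with hm
  have hZ := lse_sum_pos hw m
  set p : X → ℝ := fun x => w x * Real.exp (m x) / ∑ x, w x * Real.exp (m x) with hp
  have hp0 : ∀ x, 0 ≤ p x := fun x => div_nonneg (mul_pos (hw x) (Real.exp_pos _)).le hZ.le
  have hp1 : ∑ x, p x = 1 := by
    rw [hp]
    simp only
    rw [← Finset.sum_div, div_self hZ.ne']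
  have tang : ∀ y : X → ℝ, lse w m + ∑ x, p x * (y x - m x) ≤ lse w y := by
    intro y
    have h2 : Real.exp (∑ x, p x * (y x - m x)) ≤ ∑ x, p x * Real.exp (y x - m x) := by
      have := convexOn_exp.map_sum_le (t := Finset.univ) (w := p) (p := fun x => y x - m x)
        (fun x _ => hp0 x) hp1 (fun x _ => Set.mem_univ _)
      simpa only [smul_eq_mul] using this
    have h3 : ∑ x, p x * Real.exp (y x - m x) =
        (∑ x, w x * Real.exp (y x)) / ∑ x, w x * Real.exp (m x) := by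
      rw [Finset.sum_div]
      refine Finset.sum_congr rfl fun x _ => ?_
      simp only [hp]
      rw [div_mul_eq_mul_div, mul_assoc, ← Real.exp_add]
      congr 3
      ring
    rw [h3, le_div_iff₀ hZ] at h2
    have h4 := Real.log_le_log (mul_pos (Real.exp_pos _) hZ) h2
    rw [Real.log_mul (Real.exp_pos _).ne' hZ.ne', Real.log_exp] at h4
    unfold lse
    linarith
  have h2 := mul_le_mul_of_nonneg_left (tang u) (sub_nonneg.2 h1)
  have h3 := mul_le_mul_of_nonneg_left (tang v) h0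
  have h4 : (1 - θ) * ∑ x, p x * (u x - m x) + θ * ∑ x, p x * (v x - m x) = 0 := by
    rw [Finset.mul_sum, Finset.mul_sum, ← Finset.sum_add_distrib]
    refine Finset.sum_eq_zero fun x _ => ?_
    simp only [hm]
    ring
  have h5 : (1 - θ) * (lse w m + ∑ x, p x * (u x - m x)) + θ * (lse w m + ∑ x, p x * (v x - m x)) =
      lse w m + ((1 - θ) * ∑ x, p x * (u x - m x) + θ * ∑ x, p x * (v x - m x)) := by ring
  linarith

/-- The mean free energy increases with the variance. -/
lemma lse_mono_var (U : X → K → ℝ) {w : X → ℝ} (hw : ∀ x, 0 < w x) {t : ℝ} (h0 : 0 ≤ t)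
    (h1 : t ≤ 1) :
    ∫ ξ, lse w (fun x => t * lf (U x) ξ) ∂(gI K) ≤ ∫ ξ, lse w (fun x => lf (U x) ξ) ∂(gI K) := by
  have i1 : Integrable (fun ξ => lse w (fun x => lf (U x) ξ)) (gI K) :=
    lse_integrable hw (fun x => lf_meas _) (fun x => lf_integrable _)
  have i2 : Integrable (fun ξ => lse w (fun x => -lf (U x) ξ)) (gI K) :=
    lse_integrable hw (fun x => (lf_meas _).neg) (fun x => (lf_integrable _).neg)
  have i3 : Integrable (fun ξ => lse w (fun x => t * lf (U x) ξ)) (gI K) :=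
    lse_integrable hw (fun x => (lf_meas _).const_mul _) (fun x => (lf_integrable _).const_mul _)
  have hpt : ∀ ξ, lse w (fun x => t * lf (U x) ξ) ≤
      (1 - (1 + t) / 2) * lse w (fun x => -lf (U x) ξ) + (1 + t) / 2 * lse w (fun x => lf (U x) ξ) := by
    intro ξ
    have h := lse_convex hw (fun x => -lf (U x) ξ) (fun x => lf (U x) ξ)
      (θ := (1 + t) / 2) (by linarith) (by linarith)
    refine le_trans (le_of_eq ?_) h
    congr 1
    funext x
    ring
  have i4 : Integrable (fun ξ => (1 - (1 + t) / 2) * lse w (fun x => -lf (U x) ξ)) (gI K) :=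
    i2.const_mul _
  have i5 : Integrable (fun ξ => (1 + t) / 2 * lse w (fun x => lf (U x) ξ)) (gI K) := i1.const_mul _
  have h := integral_mono i3 (i4.add i5) hpt
  have e : ∫ ξ, ((1 - (1 + t) / 2) * lse w (fun x => -lf (U x) ξ) +
      (1 + t) / 2 * lse w (fun x => lf (U x) ξ)) ∂(gI K) =
      ∫ ξ, lse w (fun x => lf (U x) ξ) ∂(gI K) := by
    rw [integral_add i4 i5, integral_const_mul, integral_const_mul, law_neg]
    ring
  rw [← e]
  exact h

lemma lse_normalize {w : X → ℝ} (hw : ∀ x, 0 < w x) (u : X → ℝ) :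
    lse w u = Real.log (∑ x, w x) + lse (fun x => w x / ∑ x, w x) u := by
  have hs : 0 < ∑ x, w x := Finset.sum_pos (fun x _ => hw x) Finset.univ_nonempty
  have hw' : ∀ x, 0 < w x / ∑ x, w x := fun x => div_pos (hw x) hs
  unfold lse
  rw [← Real.log_mul hs.ne' (lse_sum_pos hw' u).ne', Finset.mul_sum]
  congr 1
  refine Finset.sum_congr rfl fun x _ => ?_
  field_simp

end law

/-! ### The perceptron and the SK model -/

variable {N : ℕ}

/-- The pattern vectors. -/
noncomputable def Up (N : ℕ) (x : Fin N → Bool) (i : Fin N) : ℝ := 1 / √(N : ℝ) * spin x i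

/-- The vectors of the SK model, of variance one. -/
noncomputable def Us (N : ℕ) (x : Fin N → Bool) (p : Fin N × Fin N) : ℝ :=
  1 / (N : ℝ) * (spin x p.1 * spin x p.2)

lemma spin_sq' (x : Fin N → Bool) (i : Fin N) : spin x i ^ 2 = 1 := by
  unfold spin; split_ifs <;> norm_num

lemma Up_gram (hN : 0 < N) (x y : Fin N → Bool) :
    ∑ i, Up N x i * Up N y i = 1 / (N : ℝ) * ∑ i, spin x i * spin y i := by
  have h : (√(N : ℝ)) ^ 2 = N := Real.sq_sqrt (Nat.cast_nonneg N)
  have hN' : (0 : ℝ) < N := by exact_mod_cast hN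
  have h0 : √(N : ℝ) ≠ 0 := (Real.sqrt_pos.2 hN').ne'
  rw [Finset.mul_sum]
  refine Finset.sum_congr rfl fun i _ => ?_
  unfold Up
  have : 1 / √(N : ℝ) * spin x i * (1 / √(N : ℝ) * spin y i) =
      1 / (√(N : ℝ)) ^ 2 * (spin x i * spin y i) := by
    field_simp
  rw [this, h]

lemma Up_sq (hN : 0 < N) (x : Fin N → Bool) : ∑ i, Up N x i ^ 2 = 1 := by
  have h := Up_gram hN x x
  have hN' : (0 : ℝ) < N := by exact_mod_cast hN
  simp only [← sq, spin_sq'] at h
  rw [h]
  simp
  field_simp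

lemma Us_gram (x y : Fin N → Bool) :
    ∑ p, Us N x p * Us N y p = (1 / (N : ℝ) * ∑ i, spin x i * spin y i) ^ 2 := by
  rw [Fintype.sum_prod_type, mul_pow, sq (∑ i, spin x i * spin y i), Finset.sum_mul_sum,
    Finset.mul_sum]
  refine Finset.sum_congr rfl fun i _ => ?_
  rw [Finset.mul_sum]
  refine Finset.sum_congr rfl fun j _ => ?_
  unfold Us
  ring

lemma Us_sq (hN : 0 < N) (x : Fin N → Bool) : ∑ p, Us N x p ^ 2 = 1 := by
  have h := Us_gram x x
  have h2 := Up_sq hN x
  have h3 := Up_gram hN x x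
  simp only [← sq] at h h3
  rw [h, ← h3, h2, one_pow]

/-- The constants. -/
noncomputable def cc (ε lam : ℝ) : ℝ := ε ^ 2 / 2 * Real.exp (-lam ^ 2) * lam ^ 4

/-- The constants. -/
noncomputable def kk (ε lam : ℝ) : ℝ :=
  -(ε * Real.exp (-lam ^ 2 / 2)) - ε ^ 2 / 2 * Real.exp (-lam ^ 2) - cc ε lam / 2 + 2 * ε ^ 3 +
    96 * cc ε lam ^ 2

/-- One pattern is replaced by one slice. -/
lemma one_pattern (hN : 0 < N) {ε lam : ℝ} (hε : 0 ≤ ε) (hε1 : ε ≤ 1 / 2)
    (hc : cc ε lam ≤ 1 / 8) {f : ℝ → ℝ}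
    (hf : ∀ s, Real.exp (f s) = 1 - ε * Real.cos (lam * s)) {w : (Fin N → Bool) → ℝ}
    (hw : ∀ x, 0 < w x) :
    ∫ ξ, lse w (fun x => f (lf (Up N x) ξ)) ∂(gI (Fin N)) ≤
      ∫ ξ, lse w (fun x => √(cc ε lam) * lf (Us N x) ξ) ∂(gI (Fin N × Fin N)) + kk ε lam := by
  have hcc : 0 ≤ cc ε lam := by unfold cc; positivity
  have hs : 0 < ∑ x, w x := Finset.sum_pos (fun x _ => hw x) Finset.univ_nonempty
  have hw' : ∀ x, 0 < w x / ∑ x, w x := fun x => div_pos (hw x) hs
  have hw1 : ∑ x, w x / ∑ x, w x = 1 := by rw [← Finset.sum_div, div_self hs.ne']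
  have h1 := pat_upper (Up N) (Up_sq hN) hε hε1 hf hw' hw1
  have hU : ∀ x, ∑ p, (√(cc ε lam) * Us N x p) ^ 2 = cc ε lam := by
    intro x
    simp only [mul_pow, Real.sq_sqrt hcc]
    rw [← Finset.mul_sum, Us_sq hN, mul_one]
  have h2 := gau_lower (fun x p => √(cc ε lam) * Us N x p) hc hU hw' hw1
  simp only [lf_smul] at h2
  have e1 : ∀ x y : Fin N → Bool, ∑ p, √(cc ε lam) * Us N x p * (√(cc ε lam) * Us N y p) =
      cc ε lam * (∑ i, Up N x i * Up N y i) ^ 2 := by
    intro x y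
    rw [Up_gram hN, ← Us_gram, Finset.mul_sum]
    refine Finset.sum_congr rfl fun p _ => ?_
    have : √(cc ε lam) * √(cc ε lam) = cc ε lam := Real.mul_self_sqrt hcc
    linear_combination (Us N x p * Us N y p) * this
  simp only [e1] at h2
  set Q := ∑ x, ∑ y, w x / (∑ x, w x) * (w y / ∑ x, w x) * (∑ i, Up N x i * Up N y i) ^ 2 with hQ
  have e2 : ∑ x, ∑ y, w x / (∑ x, w x) * (w y / ∑ x, w x) *
      (cc ε lam * (∑ i, Up N x i * Up N y i) ^ 2) = cc ε lam * Q := by
    rw [hQ, Finset.mul_sum]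
    refine Finset.sum_congr rfl fun x _ => ?_
    rw [Finset.mul_sum]
    exact Finset.sum_congr rfl fun y _ => by ring
  rw [e2] at h2
  have i1 : Integrable (fun ξ => lse (fun x => w x / ∑ x, w x)
      (fun x => √(cc ε lam) * lf (Us N x) ξ)) (gI (Fin N × Fin N)) :=
    lse_integrable hw' (fun x => (lf_meas _).const_mul _) (fun x => (lf_integrable _).const_mul _)
  have fm := pot_meas hf
  have i2 : Integrable (fun ξ => lse (fun x => w x / ∑ x, w x)
      (fun x => f (lf (Up N x) ξ))) (gI (Fin N)) :=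
    lse_integrable hw' (fun x => fm.comp (lf_meas _)) fun x =>
      (EG.of_bdd (fm.comp (lf_meas _)) fun ξ => pot_bdd hε hε1 hf _).integrable
  simp only [lse_normalize hw]
  rw [integral_add (integrable_const _) i1, integral_add (integrable_const _) i2]
  simp only [integral_const, probReal_univ, smul_eq_mul, one_mul]
  have e3 : ε ^ 2 / 2 * Real.exp (-lam ^ 2) * (1 + lam ^ 4 / 2 * Q) =
      ε ^ 2 / 2 * Real.exp (-lam ^ 2) + cc ε lam * Q / 2 := by
    unfold cc; ring
  rw [e3] at h1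
  unfold kk
  linarith

/-- **Comparison of the perceptron with the SK model.** -/
theorem perceptron_le (hN : 0 < N) {ε lam : ℝ} (hε : 0 ≤ ε) (hε1 : ε ≤ 1 / 2)
    (hc : cc ε lam ≤ 1 / 8) {f : ℝ → ℝ}
    (hf : ∀ s, Real.exp (f s) = 1 - ε * Real.cos (lam * s)) (A : ℕ) {w : (Fin N → Bool) → ℝ}
    (hw : ∀ x, 0 < w x) :
    ∫ g : Fin A → Fin N → ℝ, lse w (fun x => ∑ a, f (lf (Up N x) (g a)))
      ∂(Measure.pi fun _ => gI (Fin N)) ≤
      ∫ ξ, lse w (fun x => √(A * cc ε lam) * lf (Us N x) ξ) ∂(gI (Fin N × Fin N)) +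
        A * kk ε lam := by
  have hcc : 0 ≤ cc ε lam := by unfold cc; positivity
  have fm := pot_meas hf
  refine tele (gI (Fin N)) (gI (Fin N × Fin N)) (U := fun g x => f (lf (Up N x) g))
    (V := fun A ξ x => √(A * cc ε lam) * lf (Us N x) ξ)
    (fun x => fm.comp (lf_meas _))
    (fun x => (EG.of_bdd (fm.comp (lf_meas _)) fun ξ => pot_bdd hε hε1 hf _).integrable)
    (fun A x => (lf_meas _).const_mul _) (fun A x => (lf_integrable _).const_mul _)
    (fun ω x => by simp) (κ := kk ε lam) (fun A w hw => ?_) A w hw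
  have h1 : ∀ ξ : Fin N × Fin N → ℝ,
      ∫ ω, lse w (fun x => √(A * cc ε lam) * lf (Us N x) ξ + f (lf (Up N x) ω)) ∂(gI (Fin N)) ≤
      ∫ ζ, lse w (fun x => √(A * cc ε lam) * lf (Us N x) ξ + √(cc ε lam) * lf (Us N x) ζ)
        ∂(gI (Fin N × Fin N)) + kk ε lam := by
    intro ξ
    simp only [lse_add]
    exact one_pattern hN hε hε1 hc hf fun x => mul_pos (hw x) (Real.exp_pos _)
  have i1 : Integrable (fun p : (Fin N × Fin N → ℝ) × (Fin N → ℝ) =>
      lse w (fun x => √(A * cc ε lam) * lf (Us N x) p.1 + f (lf (Up N x) p.2)))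
      ((gI (Fin N × Fin N)).prod (gI (Fin N))) := by
    refine lse_integrable hw (fun x => ?_) (fun x => ?_)
    · exact (((lf_meas _).comp measurable_fst).const_mul _).add
        ((fm.comp (lf_meas _)).comp measurable_snd)
    · exact (((lf_integrable (Us N x)).const_mul _).comp_fst _).add
        ((EG.of_bdd (fm.comp (lf_meas (Up N x))) fun ξ => pot_bdd hε hε1 hf _).integrable.comp_snd _)
  have i2 : Integrable (fun p : (Fin N × Fin N → ℝ) × (Fin N × Fin N → ℝ) =>
      lse w (fun x => √(A * cc ε lam) * lf (Us N x) p.1 + √(cc ε lam) * lf (Us N x) p.2))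
      ((gI (Fin N × Fin N)).prod (gI (Fin N × Fin N))) := by
    refine lse_integrable hw (fun x => ?_) (fun x => ?_)
    · exact (((lf_meas _).comp measurable_fst).const_mul _).add
        (((lf_meas _).comp measurable_snd).const_mul _)
    · exact (((lf_integrable (Us N x)).const_mul _).comp_fst _).add
        (((lf_integrable (Us N x)).const_mul _).comp_snd _)
  have i3 : Integrable (fun ξ => ∫ ζ, lse w (fun x => √(A * cc ε lam) * lf (Us N x) ξ +
      √(cc ε lam) * lf (Us N x) ζ) ∂(gI (Fin N × Fin N)) + kk ε lam) (gI (Fin N × Fin N)) :=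
    i2.integral_prod_left.add (integrable_const _)
  have h2 := integral_mono i1.integral_prod_left i3 h1
  refine h2.trans (le_of_eq ?_)
  rw [integral_add i2.integral_prod_left (integrable_const _),
    law_add (Us N) (c := √((A + 1 : ℕ) * cc ε lam)) ?_ hw]
  · simp
  · rw [Real.sq_sqrt (by positivity), Real.sq_sqrt hcc, Real.sq_sqrt (by positivity)]
    push_cast
    ring

/-- The pressure of the SK model. -/
noncomputable def skP (β : ℝ) (N : ℕ) : ℝ :=
  1 / N * ∫ ξ, lse (fun _ : Fin N → Bool => Real.exp (-(N * Real.log 2)))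
    (fun x => β / √(2 * N) * ∑ i, ∑ j, ξ (i, j) * (spin x i * spin x j)) ∂(gI (Fin N × Fin N))

lemma skP_eq {β : ℝ} (hN : 0 < N) :
    skP β N = 1 / N * ∫ ξ, lse (fun _ : Fin N → Bool => Real.exp (-(N * Real.log 2)))
      (fun x => √(N / 2) * β * lf (Us N x) ξ) ∂(gI (Fin N × Fin N)) := by
  unfold skP
  congr 2
  funext ξ
  congr 1
  funext x
  have hN' : (0 : ℝ) < N := by exact_mod_cast hN
  have e1 : lf (Us N x) ξ = 1 / N * ∑ i, ∑ j, ξ (i, j) * (spin x i * spin x j) := by
    unfold lf Us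
    rw [Fintype.sum_prod_type, Finset.mul_sum]
    refine Finset.sum_congr rfl fun i _ => ?_
    rw [Finset.mul_sum]
    exact Finset.sum_congr rfl fun j _ => by ring
  rw [e1, ← mul_assoc]
  congr 1
  have h2 : √(2 * (N : ℝ)) * √(N / 2) = N := by
    rw [← Real.sqrt_mul (by positivity)]
    have : 2 * (N : ℝ) * (N / 2) = N ^ 2 := by ring
    rw [this, Real.sqrt_sq hN'.le]
  have h3 : 0 < √(2 * (N : ℝ)) := Real.sqrt_pos.2 (by positivity)
  rw [div_eq_iff h3.ne']
  have : √(N / 2 : ℝ) * β * (1 / N) * √(2 * N) = (√(2 * (N : ℝ)) * √(N / 2)) * (β / N) := by ring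
  rw [this, h2]
  field_simp

/-- **Comparison of the perceptron with the SK model, per spin.** -/
theorem perceptron_le_sk (hN : 0 < N) {ε lam β : ℝ} (hε : 0 ≤ ε) (hε1 : ε ≤ 1 / 2) (hβ : 0 < β)
    (hc : cc ε lam ≤ 1 / 8) {f : ℝ → ℝ}
    (hf : ∀ s, Real.exp (f s) = 1 - ε * Real.cos (lam * s)) {A : ℕ}
    (hA : A * cc ε lam ≤ N / 2 * β ^ 2) :
    1 / N * ∫ g : Fin A → Fin N → ℝ, Real.log (∑ x : Fin N → Bool, Real.exp (-(N * Real.log 2) +
        ∑ b, f (1 / √(N : ℝ) * ∑ i, spin x i * g b i)))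
        ∂(Measure.pi fun _ => Measure.pi fun _ => gaussianReal 0 1) ≤
      skP β N + A / N * kk ε lam := by
  have hN' : (0 : ℝ) < N := by exact_mod_cast hN
  have hcc : 0 ≤ cc ε lam := by unfold cc; positivity
  set w : (Fin N → Bool) → ℝ := fun _ => Real.exp (-(N * Real.log 2)) with hw
  have hw0 : ∀ x, 0 < w x := fun _ => Real.exp_pos _
  have h1 := perceptron_le hN hε hε1 hc hf A hw0
  have e1 : ∫ g : Fin A → Fin N → ℝ, Real.log (∑ x : Fin N → Bool, Real.exp (-(N * Real.log 2) +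
        ∑ b, f (1 / √(N : ℝ) * ∑ i, spin x i * g b i)))
        ∂(Measure.pi fun _ => Measure.pi fun _ => gaussianReal 0 1) =
      ∫ g : Fin A → Fin N → ℝ, lse w (fun x => ∑ a, f (lf (Up N x) (g a)))
      ∂(Measure.pi fun _ => gI (Fin N)) := by
    refine integral_congr_ae (Filter.Eventually.of_forall fun g => ?_)
    simp only [lse, hw]
    congr 1
    refine Finset.sum_congr rfl fun x _ => ?_
    rw [← Real.exp_add]
    congr 2
    refine Finset.sum_congr rfl fun b _ => ?_
    congr 1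
    unfold lf Up
    rw [Finset.mul_sum]
    exact Finset.sum_congr rfl fun i _ => by ring
  rw [e1, skP_eq hN]
  have hB : 0 < √(N / 2 : ℝ) * β := mul_pos (Real.sqrt_pos.2 (by positivity)) hβ
  have h2 : √(A * cc ε lam) ≤ √(N / 2 : ℝ) * β := by
    rw [Real.sqrt_le_left hB.le, mul_pow, Real.sq_sqrt (by positivity)]
    exact hA
  have h3 := lse_mono_var (fun x p => √(N / 2 : ℝ) * β * Us N x p) hw0
    (t := √(A * cc ε lam) / (√(N / 2 : ℝ) * β)) (by positivity) ((div_le_one hB).2 h2)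
  simp only [lf_smul] at h3
  have e2 : ∀ (x : Fin N → Bool) (ξ : Fin N × Fin N → ℝ),
      √(A * cc ε lam) / (√(N / 2 : ℝ) * β) * (√(N / 2 : ℝ) * β * lf (Us N x) ξ) =
      √(A * cc ε lam) * lf (Us N x) ξ := by
    intro x ξ
    field_simp
  simp only [e2] at h3
  have h4 := mul_le_mul_of_nonneg_left (h1.trans (add_le_add h3 le_rfl))
    (show (0 : ℝ) ≤ 1 / N by positivity)
  refine h4.trans (le_of_eq ?_)
  rw [mul_add]
  congr 1
  ring

end Vale.Agent.P146.Sk.Low
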