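import Vale.Agent.P146.Sk.LowGau

/-!
# P146, lower bound for the SK model: one pattern and one Gaussian slice
-/

open MeasureTheory ProbabilityTheory
open Vale.Agent.P157.Lv (gI EG Lip)

namespace Vale.Agent.P146.Sk.Low

variable {K : Type} [Fintype K] {X : Type} [Fintype X] [Nonempty X]

/-! ### Elementary inequalities -/

lemma one_add_sq_le_cosh (t : ℝ) : 1 + t ^ 2 / 2 ≤ Real.cosh t := by
  have h1 : Real.cosh t = 1 + 2 * Real.sinh (t / 2) ^ 2 := by
    have h2 : Real.cosh t = Real.cosh (2 * (t / 2)) := by congr 1; ring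
    rw [h2, Real.cosh_two_mul, Real.cosh_sq]
    ring
  have h2 : (t / 2) ^ 2 ≤ Real.sinh (t / 2) ^ 2 := by
    rw [sq_le_sq]
    rcases le_total 0 (t / 2) with h | h
    · have h3 := Real.self_le_sinh_iff.2 h
      rw [abs_of_nonneg h, abs_of_nonneg (h.trans h3)]
      exact h3
    · have h3 := Real.sinh_le_self_iff.2 h
      rw [abs_of_nonpos h, abs_of_nonpos (h3.trans h)]
      linarith
  rw [h1]
  nlinarith

lemma log_lower {a : ℝ} (ha : 0 ≤ a) : a - a ^ 2 / 2 ≤ Real.log (1 + a) := by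
  have h1 := Real.le_log_one_add_of_nonneg ha
  refine le_trans ?_ h1
  rw [le_div_iff₀ (by linarith)]
  have : 0 ≤ a ^ 3 := by positivity
  nlinarith

lemma log_upper {a ε : ℝ} (ha : |a| ≤ ε) (hε : ε ≤ 1 / 2) :
    Real.log (1 + a) ≤ a - a ^ 2 / 2 + 2 * ε ^ 3 := by
  have h2 : |-a| < 1 := by rw [abs_neg]; linarith
  have h3 := Real.abs_log_sub_add_sum_range_le h2 2
  simp only [Finset.sum_range_succ, Finset.sum_range_zero, zero_add, pow_one, abs_neg] at h3
  norm_num at h3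
  have h0 : 0 ≤ ε := (abs_nonneg _).trans ha
  have h4 : |a| ^ 3 / (1 - |a|) ≤ 2 * ε ^ 3 := by
    rw [div_le_iff₀ (by linarith)]
    have h5 : |a| ^ 3 ≤ ε ^ 3 := pow_le_pow_left₀ (abs_nonneg _) ha 3
    have h6 : 0 ≤ ε ^ 3 := by positivity
    nlinarith
  have h7 := (abs_le.1 h3).2
  linarith

lemma exp_sub_sq_le (v : ℝ) : (Real.exp v - 1 - v) ^ 2 ≤
    Real.exp (2 * v) + Real.exp (-2 * v) - 4 * Real.exp v - 4 * Real.exp (-1 * v) + 6 := by
  have h1 := Real.add_one_le_exp v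
  have h2 := Real.add_one_le_exp (-v)
  have e1 : Real.exp (2 * v) = Real.exp v ^ 2 := by rw [← Real.exp_nat_mul]; congr 1
  have e2 : Real.exp (-2 * v) = Real.exp (-v) ^ 2 := by
    rw [← Real.exp_nat_mul]; congr 1; push_cast; ring
  have e3 : Real.exp (-1 * v) = Real.exp (-v) := by congr 1; ring
  have e4 : Real.exp v * Real.exp (-v) = 1 := by rw [← Real.exp_add]; simp
  rw [e1, e2, e3]
  have h3 : (Real.exp v - 1 - v) ^ 2 ≤ (Real.exp v + Real.exp (-v) - 2) ^ 2 := by
    apply pow_le_pow_left₀ (by linarith)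
    linarith
  refine h3.trans (le_of_eq ?_)
  linear_combination 2 * e4

lemma exp_moment {s : ℝ} (hs0 : 0 ≤ s) (hs : s ≤ 1 / 2) :
    Real.exp (2 * s) + Real.exp (2 * s) - 4 * Real.exp (s / 2) - 4 * Real.exp (s / 2) + 6 ≤
      12 * s ^ 2 := by
  have h1 := Real.add_one_le_exp (s / 2)
  have h2 : Real.exp (2 * s) ≤ 1 + 2 * s + (2 * s) ^ 2 := by
    have h3 := Real.abs_exp_sub_one_sub_id_le (x := 2 * s)
      (by rw [abs_of_nonneg (by linarith)]; linarith)
    have := (abs_le.1 h3).2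
    linarith
  nlinarith

/-! ### One Gaussian slice -/

theorem gau_lower (U : X → K → ℝ) {c : ℝ} (hc : c ≤ 1 / 8)
    (hU : ∀ x, ∑ k, U x k ^ 2 = c) {w : X → ℝ} (hw : ∀ x, 0 < w x) (hw1 : ∑ x, w x = 1) :
    1 / 2 * (c - ∑ x, ∑ y, w x * w y * ∑ k, U x k * U y k) - 96 * c ^ 2 ≤
      ∫ ξ, lse w (fun x => lf (U x) ξ) ∂(gI K) := by
  set b : K → ℝ := fun k => ∑ x, w x * U x k with hb
  set V : X → K → ℝ := fun x k => U x k - b k with hV
  set s : X → ℝ := fun x => ∑ k, V x k ^ 2 with hs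
  have hs0 : ∀ x, 0 ≤ s x := fun x => Finset.sum_nonneg fun k _ => sq_nonneg _
  have hb2 : ∑ k, b k ^ 2 = ∑ x, ∑ y, w x * w y * ∑ k, U x k * U y k := by
    have e : ∀ k, b k ^ 2 = ∑ x, ∑ y, w x * w y * (U x k * U y k) := by
      intro k
      rw [hb]
      simp only
      rw [sq, Finset.sum_mul_sum]
      exact Finset.sum_congr rfl fun x _ => Finset.sum_congr rfl fun y _ => by ring
    simp only [e, Finset.mul_sum]
    rw [Finset.sum_comm]
    refine Finset.sum_congr rfl fun x _ => ?_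
    rw [Finset.sum_comm]
  have hws : ∑ x, w x * s x = c - ∑ k, b k ^ 2 := by
    have e : ∀ x, w x * s x = w x * c - 2 * ∑ k, (w x * U x k) * b k + w x * ∑ k, b k ^ 2 := by
      intro x
      rw [← hU x, hs]
      simp only [hV, Finset.mul_sum]
      rw [← Finset.sum_sub_distrib, ← Finset.sum_add_distrib]
      exact Finset.sum_congr rfl fun k _ => by ring
    simp only [e]
    rw [Finset.sum_add_distrib, Finset.sum_sub_distrib, ← Finset.sum_mul, ← Finset.sum_mul, hw1,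
      ← Finset.mul_sum, Finset.sum_comm]
    have e2 : ∑ k, ∑ x, w x * U x k * b k = ∑ k, b k ^ 2 := by
      refine Finset.sum_congr rfl fun k _ => ?_
      rw [← Finset.sum_mul, sq]
    rw [e2]
    ring
  have hb2c : ∑ k, b k ^ 2 ≤ c := by
    have h1 : 0 ≤ ∑ x, w x * s x := Finset.sum_nonneg fun x _ => mul_nonneg (hw x).le (hs0 x)
    linarith
  have hs4 : ∀ x, s x ≤ 4 * c := by
    intro x
    have h1 : s x ≤ ∑ k, (2 * U x k ^ 2 + 2 * b k ^ 2) := Finset.sum_le_sum fun k _ => by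
      simp only [hV]
      nlinarith [sq_nonneg (U x k + b k)]
    rw [Finset.sum_add_distrib, ← Finset.mul_sum, ← Finset.mul_sum, hU x] at h1
    linarith
  -- the pointwise lower bound
  have hv0 : ∀ ξ, ∑ x, w x * lf (V x) ξ = 0 := by
    intro ξ
    have e : ∀ x, w x * lf (V x) ξ = w x * lf (U x) ξ - w x * lf b ξ := by
      intro x
      simp only [hV]
      rw [lf_sub]
      ring
    simp only [e]
    rw [Finset.sum_sub_distrib, ← Finset.sum_mul, hw1, one_mul, hb, lf_sum, sub_self]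
  have hpt : ∀ ξ, lf b ξ + (∑ x, w x * Real.exp (lf (V x) ξ) - 1) - 1 / 2 * ∑ x, w x *
      (Real.exp (2 * lf (V x) ξ) + Real.exp (-2 * lf (V x) ξ) - 4 * Real.exp (lf (V x) ξ) -
        4 * Real.exp (-1 * lf (V x) ξ) + 6) ≤ lse w (fun x => lf (U x) ξ) := by
    intro ξ
    have e1 : (fun x => lf (U x) ξ) = fun x => lf (V x) ξ + lf b ξ := by
      funext x
      simp only [hV]
      rw [lf_sub]
      ring
    have e2 : lse w (fun x => lf (U x) ξ) = lf b ξ + Real.log (∑ x, w x * Real.exp (lf (V x) ξ)) := by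
      rw [e1]
      unfold lse
      have e3 : ∑ x, w x * Real.exp (lf (V x) ξ + lf b ξ) =
          (∑ x, w x * Real.exp (lf (V x) ξ)) * Real.exp (lf b ξ) := by
        rw [Finset.sum_mul]
        refine Finset.sum_congr rfl fun x _ => ?_
        rw [Real.exp_add]
        ring
      rw [e3, Real.log_mul (lse_sum_pos hw _).ne' (Real.exp_pos _).ne', Real.log_exp, add_comm]
    set a := ∑ x, w x * Real.exp (lf (V x) ξ) - 1 with ha
    have ha1 : a = ∑ x, w x * (Real.exp (lf (V x) ξ) - 1 - lf (V x) ξ) := by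
      simp only [mul_sub, Finset.sum_sub_distrib, mul_one, hw1, hv0 ξ, sub_zero]
      exact ha
    have ha0 : 0 ≤ a := by
      rw [ha1]
      refine Finset.sum_nonneg fun x _ => mul_nonneg (hw x).le ?_
      have := Real.add_one_le_exp (lf (V x) ξ)
      linarith
    have ha2 : a ^ 2 ≤ ∑ x, w x * (Real.exp (lf (V x) ξ) - 1 - lf (V x) ξ) ^ 2 := by
      rw [ha1]
      have h1 := Finset.sum_mul_sq_le_sq_mul_sq Finset.univ (fun x => √(w x))
        (fun x => √(w x) * (Real.exp (lf (V x) ξ) - 1 - lf (V x) ξ))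
      have e4 : ∀ x, √(w x) * (√(w x) * (Real.exp (lf (V x) ξ) - 1 - lf (V x) ξ)) =
          w x * (Real.exp (lf (V x) ξ) - 1 - lf (V x) ξ) := by
        intro x
        rw [← mul_assoc, Real.mul_self_sqrt (hw x).le]
      have e5 : ∀ x, √(w x) ^ 2 = w x := fun x => Real.sq_sqrt (hw x).le
      have e6 : ∀ x, (√(w x) * (Real.exp (lf (V x) ξ) - 1 - lf (V x) ξ)) ^ 2 =
          w x * (Real.exp (lf (V x) ξ) - 1 - lf (V x) ξ) ^ 2 := by
        intro x
        rw [mul_pow, e5]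
      simp only [e4, e5, e6, hw1, one_mul] at h1
      exact h1
    have ha3 : a ^ 2 ≤ ∑ x, w x * (Real.exp (2 * lf (V x) ξ) + Real.exp (-2 * lf (V x) ξ) -
        4 * Real.exp (lf (V x) ξ) - 4 * Real.exp (-1 * lf (V x) ξ) + 6) :=
      ha2.trans (Finset.sum_le_sum fun x _ => mul_le_mul_of_nonneg_left (exp_sub_sq_le _) (hw x).le)
    have h5 := log_lower ha0
    have e7 : 1 + a = ∑ x, w x * Real.exp (lf (V x) ξ) := by rw [ha]; ring
    rw [e7] at h5
    rw [e2]
    linarith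
  -- integration
  have iE : ∀ (t : ℝ) (x : X), Integrable (fun ξ => Real.exp (t * lf (V x) ξ)) (gI K) := by
    intro t x
    simp only [← lf_smul]
    exact exp_lf_integrable _
  have iE1 : ∀ (x : X), Integrable (fun ξ => Real.exp (lf (V x) ξ)) (gI K) := fun x =>
    exp_lf_integrable _
  have vE : ∀ (t : ℝ) (x : X), ∫ ξ, Real.exp (t * lf (V x) ξ) ∂(gI K) =
      Real.exp (t ^ 2 * s x / 2) := by
    intro t x
    simp only [← lf_smul]
    rw [int_exp_lf]
    congr 2
    rw [hs, Finset.mul_sum]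
    exact Finset.sum_congr rfl fun k _ => by ring
  have vE1 : ∀ (x : X), ∫ ξ, Real.exp (lf (V x) ξ) ∂(gI K) = Real.exp (s x / 2) := fun x =>
    int_exp_lf _
  have iQ : ∀ x : X, Integrable (fun ξ => w x * (Real.exp (2 * lf (V x) ξ) +
      Real.exp (-2 * lf (V x) ξ) - 4 * Real.exp (lf (V x) ξ) - 4 * Real.exp (-1 * lf (V x) ξ) + 6))
      (gI K) := fun x =>
    (((((iE 2 x).add (iE (-2) x)).sub ((iE1 x).const_mul 4)).sub ((iE (-1) x).const_mul 4)).add
      (integrable_const 6)).const_mul _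
  have vQ : ∀ x : X, ∫ ξ, w x * (Real.exp (2 * lf (V x) ξ) +
      Real.exp (-2 * lf (V x) ξ) - 4 * Real.exp (lf (V x) ξ) - 4 * Real.exp (-1 * lf (V x) ξ) + 6)
      ∂(gI K) ≤ w x * (192 * c ^ 2) := by
    intro x
    have i1 : Integrable (fun ξ => Real.exp (2 * lf (V x) ξ) + Real.exp (-2 * lf (V x) ξ)) (gI K) :=
      (iE 2 x).add (iE (-2) x)
    have i2 : Integrable (fun ξ => Real.exp (2 * lf (V x) ξ) + Real.exp (-2 * lf (V x) ξ) -
        4 * Real.exp (lf (V x) ξ)) (gI K) := i1.sub ((iE1 x).const_mul 4)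
    have i3 : Integrable (fun ξ => Real.exp (2 * lf (V x) ξ) + Real.exp (-2 * lf (V x) ξ) -
        4 * Real.exp (lf (V x) ξ) - 4 * Real.exp (-1 * lf (V x) ξ)) (gI K) :=
      i2.sub ((iE (-1) x).const_mul 4)
    rw [integral_const_mul, integral_add i3 (integrable_const _),
      integral_sub i2 ((iE (-1) x).const_mul 4), integral_sub i1 ((iE1 x).const_mul 4),
      integral_add (iE 2 x) (iE (-2) x), integral_const_mul, integral_const_mul, vE, vE, vE, vE1]
    refine mul_le_mul_of_nonneg_left ?_ (hw x).le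
    have h1 := exp_moment (hs0 x) ((hs4 x).trans (by linarith))
    have e1 : (2 : ℝ) ^ 2 * s x / 2 = 2 * s x := by ring
    have e2 : (-2 : ℝ) ^ 2 * s x / 2 = 2 * s x := by ring
    have e3 : (-1 : ℝ) ^ 2 * s x / 2 = s x / 2 := by ring
    rw [e1, e2, e3]
    simp only [integral_const, probReal_univ, smul_eq_mul, one_mul]
    refine h1.trans ?_
    have h2 : s x ^ 2 ≤ (4 * c) ^ 2 := pow_le_pow_left₀ (hs0 x) (hs4 x) 2
    nlinarith
  have iL : Integrable (fun ξ => lse w (fun x => lf (U x) ξ)) (gI K) :=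
    lse_integrable hw (fun x => lf_meas _) (fun x => lf_integrable _)
  have iA : Integrable (fun ξ => ∑ x, w x * Real.exp (lf (V x) ξ)) (gI K) :=
    integrable_finsetSum _ fun x _ => (iE1 x).const_mul _
  have iA1 : Integrable (fun ξ => ∑ x, w x * Real.exp (lf (V x) ξ) - 1) (gI K) :=
    iA.sub (integrable_const 1)
  have iB : Integrable (fun ξ => ∑ x, w x *
      (Real.exp (2 * lf (V x) ξ) + Real.exp (-2 * lf (V x) ξ) - 4 * Real.exp (lf (V x) ξ) -
        4 * Real.exp (-1 * lf (V x) ξ) + 6)) (gI K) := integrable_finsetSum _ fun x _ => iQ x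
  have iC : Integrable (fun ξ => lf b ξ + (∑ x, w x * Real.exp (lf (V x) ξ) - 1)) (gI K) :=
    (lf_integrable b).add iA1
  have h1 := integral_mono (iC.sub (iB.const_mul (1 / 2))) iL hpt
  have e1 : ∫ ξ, (lf b ξ + (∑ x, w x * Real.exp (lf (V x) ξ) - 1) - 1 / 2 * ∑ x, w x *
      (Real.exp (2 * lf (V x) ξ) + Real.exp (-2 * lf (V x) ξ) - 4 * Real.exp (lf (V x) ξ) -
        4 * Real.exp (-1 * lf (V x) ξ) + 6)) ∂(gI K) =
      (∑ x, w x * Real.exp (s x / 2) - 1) - 1 / 2 * ∑ x, ∫ ξ, w x *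
      (Real.exp (2 * lf (V x) ξ) + Real.exp (-2 * lf (V x) ξ) - 4 * Real.exp (lf (V x) ξ) -
        4 * Real.exp (-1 * lf (V x) ξ) + 6) ∂(gI K) := by
    rw [integral_sub iC (iB.const_mul _), integral_add (lf_integrable b) iA1, int_lf, zero_add,
      integral_sub iA (integrable_const _), integral_const_mul,
      integral_finsetSum _ fun x _ => (iE1 x).const_mul _, integral_finsetSum _ fun x _ => iQ x]
    simp only [integral_const_mul, vE1, integral_const, probReal_univ, smul_eq_mul, one_mul]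
  have h2 : ∑ x, ∫ ξ, w x *
      (Real.exp (2 * lf (V x) ξ) + Real.exp (-2 * lf (V x) ξ) - 4 * Real.exp (lf (V x) ξ) -
        4 * Real.exp (-1 * lf (V x) ξ) + 6) ∂(gI K) ≤ 192 * c ^ 2 := by
    refine (Finset.sum_le_sum fun x _ => vQ x).trans ?_
    rw [← Finset.sum_mul, hw1, one_mul]
  have h3 : 1 / 2 * (c - ∑ k, b k ^ 2) ≤ ∑ x, w x * Real.exp (s x / 2) - 1 := by
    rw [← hws, Finset.mul_sum]
    have h4 : ∑ x, w x * (1 + s x / 2) ≤ ∑ x, w x * Real.exp (s x / 2) :=
      Finset.sum_le_sum fun x _ => mul_le_mul_of_nonneg_left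
        (by have := Real.add_one_le_exp (s x / 2); linarith) (hw x).le
    have h5 : ∑ x, w x * (1 + s x / 2) = 1 + ∑ x, 1 / 2 * (w x * s x) := by
      simp only [mul_add, mul_one, Finset.sum_add_distrib, hw1]
      congr 1
      exact Finset.sum_congr rfl fun x _ => by ring
    linarith
  rw [← hb2]
  have h6 : ∫ ξ, (lf b ξ + (∑ x, w x * Real.exp (lf (V x) ξ) - 1) - 1 / 2 * ∑ x, w x *
      (Real.exp (2 * lf (V x) ξ) + Real.exp (-2 * lf (V x) ξ) - 4 * Real.exp (lf (V x) ξ) -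
        4 * Real.exp (-1 * lf (V x) ξ) + 6)) ∂(gI K) ≤ ∫ ξ, lse w (fun x => lf (U x) ξ) ∂(gI K) := h1
  rw [e1] at h6
  linarith

/-! ### One pattern -/

theorem pat_upper [DecidableEq K] (U : X → K → ℝ) (hU : ∀ x, ∑ k, U x k ^ 2 = 1) {ε lam : ℝ}
    (hε : 0 ≤ ε) (hε1 : ε ≤ 1 / 2) {f : ℝ → ℝ} (hf : ∀ s, Real.exp (f s) = 1 - ε * Real.cos (lam * s))
    {w : X → ℝ} (hw : ∀ x, 0 < w x) (hw1 : ∑ x, w x = 1) :
    ∫ ξ, lse w (fun x => f (lf (U x) ξ)) ∂(gI K) ≤
      -(ε * Real.exp (-lam ^ 2 / 2)) - ε ^ 2 / 2 * Real.exp (-lam ^ 2) *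
        (1 + lam ^ 4 / 2 * ∑ x, ∑ y, w x * w y * (∑ k, U x k * U y k) ^ 2) + 2 * ε ^ 3 := by
  set C : X → (K → ℝ) → ℝ := fun x ξ => Real.cos (lf (fun k => lam * U x k) ξ) with hC
  have mC : ∀ x, Measurable (C x) := fun x => Real.measurable_cos.comp (lf_meas _)
  have bC : ∀ x ξ, |C x ξ| ≤ 1 := fun x ξ => Real.abs_cos_le_one _
  have bint : ∀ {H : (K → ℝ) → ℝ} {D : ℝ}, Measurable H → (∀ z, |H z| ≤ D) →
      Integrable H (gI K) := fun hH hD => (EG.of_bdd hH hD).integrable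
  have iC : ∀ x, Integrable (C x) (gI K) := fun x => bint (mC x) (bC x)
  have iCC : ∀ x y, Integrable (fun ξ => C x ξ * C y ξ) (gI K) := fun x y =>
    bint (D := 1) ((mC x).mul (mC y)) fun ξ => by
      rw [abs_mul]
      calc |C x ξ| * |C y ξ| ≤ 1 * 1 := mul_le_mul (bC x ξ) (bC y ξ) (abs_nonneg _) zero_le_one
        _ = 1 := one_mul 1
  have vC : ∀ x, ∫ ξ, C x ξ ∂(gI K) = Real.exp (-lam ^ 2 / 2) := by
    intro x
    rw [int_cos_lf]
    congr 3
    simp only [mul_pow]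
    rw [← Finset.mul_sum, hU x, mul_one]
  have vCC : ∀ x y, ∫ ξ, C x ξ * C y ξ ∂(gI K) =
      Real.exp (-lam ^ 2) * Real.cosh (lam ^ 2 * ∑ k, U x k * U y k) := by
    intro x y
    have e : ∀ ξ, C x ξ * C y ξ = 1 / 2 * Real.cos (lf (fun k => lam * U x k - lam * U y k) ξ) +
        1 / 2 * Real.cos (lf (fun k => lam * U x k + lam * U y k) ξ) := by
      intro ξ
      rw [lf_sub, lf_add, Real.cos_sub, Real.cos_add]
      simp only [hC]
      ring
    have ic : ∀ a : K → ℝ, Integrable (fun ξ => Real.cos (lf a ξ)) (gI K) := fun a =>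
      bint (Real.measurable_cos.comp (lf_meas _)) fun ξ => Real.abs_cos_le_one _
    simp only [e]
    rw [integral_add ((ic _).const_mul _) ((ic _).const_mul _), integral_const_mul,
      integral_const_mul, int_cos_lf, int_cos_lf]
    set R := ∑ k, U x k * U y k with hR
    have e1 : ∑ k, (lam * U x k - lam * U y k) ^ 2 = lam ^ 2 * (2 - 2 * R) := by
      have : ∀ k, (lam * U x k - lam * U y k) ^ 2 = lam ^ 2 * U x k ^ 2 + lam ^ 2 * U y k ^ 2 -
          2 * lam ^ 2 * (U x k * U y k) := fun k => by ring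
      simp only [this]
      rw [Finset.sum_sub_distrib, Finset.sum_add_distrib, ← Finset.mul_sum, ← Finset.mul_sum,
        ← Finset.mul_sum, hU x, hU y]
      ring
    have e2 : ∑ k, (lam * U x k + lam * U y k) ^ 2 = lam ^ 2 * (2 + 2 * R) := by
      have : ∀ k, (lam * U x k + lam * U y k) ^ 2 = lam ^ 2 * U x k ^ 2 + lam ^ 2 * U y k ^ 2 +
          2 * lam ^ 2 * (U x k * U y k) := fun k => by ring
      simp only [this]
      rw [Finset.sum_add_distrib, Finset.sum_add_distrib, ← Finset.mul_sum, ← Finset.mul_sum,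
        ← Finset.mul_sum, hU x, hU y]
      ring
    rw [e1, e2, Real.cosh_eq]
    have e3 : Real.exp (-(lam ^ 2 * (2 - 2 * R)) / 2) =
        Real.exp (-lam ^ 2) * Real.exp (lam ^ 2 * R) := by
      rw [← Real.exp_add]; congr 1; ring
    have e4 : Real.exp (-(lam ^ 2 * (2 + 2 * R)) / 2) =
        Real.exp (-lam ^ 2) * Real.exp (-(lam ^ 2 * R)) := by
      rw [← Real.exp_add]; congr 1; ring
    rw [e3, e4]
    ring
  set M : (K → ℝ) → ℝ := fun ξ => ∑ x, w x * C x ξ with hM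
  have bM : ∀ ξ, |M ξ| ≤ 1 := by
    intro ξ
    refine (Finset.abs_sum_le_sum_abs _ _).trans ?_
    rw [← hw1]
    refine Finset.sum_le_sum fun x _ => ?_
    rw [abs_mul, abs_of_pos (hw x)]
    calc w x * |C x ξ| ≤ w x * 1 := mul_le_mul_of_nonneg_left (bC x ξ) (hw x).le
      _ = w x := mul_one _
  have mM : Measurable M := Finset.measurable_sum _ fun x _ => (mC x).const_mul _
  have iM : Integrable M (gI K) := bint mM bM
  have iM2 : Integrable (fun ξ => M ξ ^ 2) (gI K) := bint (D := 1) (mM.pow_const 2) fun ξ => by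
    rw [abs_pow]
    exact pow_le_one₀ (abs_nonneg _) (bM ξ)
  have vM : ∫ ξ, M ξ ∂(gI K) = Real.exp (-lam ^ 2 / 2) := by
    rw [hM]
    rw [integral_finsetSum _ fun x _ => (iC x).const_mul _]
    simp only [integral_const_mul, vC]
    rw [← Finset.sum_mul, hw1, one_mul]
  have vM2 : ∫ ξ, M ξ ^ 2 ∂(gI K) = ∑ x, ∑ y, w x * w y *
      (Real.exp (-lam ^ 2) * Real.cosh (lam ^ 2 * ∑ k, U x k * U y k)) := by
    have e : ∀ ξ, M ξ ^ 2 = ∑ x, ∑ y, w x * w y * (C x ξ * C y ξ) := by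
      intro ξ
      rw [hM]
      simp only
      rw [sq, Finset.sum_mul_sum]
      exact Finset.sum_congr rfl fun x _ => Finset.sum_congr rfl fun y _ => by ring
    simp only [e]
    rw [integral_finsetSum _ fun x _ => integrable_finsetSum _ fun y _ => (iCC x y).const_mul _]
    refine Finset.sum_congr rfl fun x _ => ?_
    rw [integral_finsetSum _ fun y _ => (iCC x y).const_mul _]
    refine Finset.sum_congr rfl fun y _ => ?_
    rw [integral_const_mul, vCC]
  have hM2 : Real.exp (-lam ^ 2) * (1 + lam ^ 4 / 2 * ∑ x, ∑ y, w x * w y *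
      (∑ k, U x k * U y k) ^ 2) ≤ ∫ ξ, M ξ ^ 2 ∂(gI K) := by
    rw [vM2]
    have e : Real.exp (-lam ^ 2) * (1 + lam ^ 4 / 2 * ∑ x, ∑ y, w x * w y *
        (∑ k, U x k * U y k) ^ 2) = ∑ x, ∑ y, w x * w y * (Real.exp (-lam ^ 2) *
        (1 + (lam ^ 2 * ∑ k, U x k * U y k) ^ 2 / 2)) := by
      have e1 : ∀ x y, w x * w y * (Real.exp (-lam ^ 2) *
          (1 + (lam ^ 2 * ∑ k, U x k * U y k) ^ 2 / 2)) = Real.exp (-lam ^ 2) * (w x * w y) +
          (Real.exp (-lam ^ 2) * (lam ^ 4 / 2)) * (w x * w y * (∑ k, U x k * U y k) ^ 2) :=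
        fun x y => by ring
      simp only [e1, Finset.sum_add_distrib, ← Finset.mul_sum, hw1, mul_one]
      ring
    rw [e]
    refine Finset.sum_le_sum fun x _ => Finset.sum_le_sum fun y _ => ?_
    refine mul_le_mul_of_nonneg_left ?_ (mul_pos (hw x) (hw y)).le
    exact mul_le_mul_of_nonneg_left (one_add_sq_le_cosh _) (Real.exp_pos _).le
  have hpt : ∀ ξ, lse w (fun x => f (lf (U x) ξ)) ≤ -(ε * M ξ) - ε ^ 2 / 2 * M ξ ^ 2 + 2 * ε ^ 3 := by
    intro ξ
    have e : lse w (fun x => f (lf (U x) ξ)) = Real.log (1 + -(ε * M ξ)) := by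
      unfold lse
      congr 1
      simp only [hf, ← lf_smul]
      simp only [mul_sub, mul_one, Finset.sum_sub_distrib, hw1, hM, hC, Finset.mul_sum]
      rw [sub_eq_add_neg]
      congr 2
      exact Finset.sum_congr rfl fun x _ => by ring
    rw [e]
    have h1 : |-(ε * M ξ)| ≤ ε := by
      rw [abs_neg, abs_mul, abs_of_nonneg hε]
      calc ε * |M ξ| ≤ ε * 1 := mul_le_mul_of_nonneg_left (bM ξ) hε
        _ = ε := mul_one _
    refine (log_upper h1 hε1).trans (le_of_eq ?_)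
    ring
  have i1 : Integrable (fun ξ => -(ε * M ξ)) (gI K) := (iM.const_mul ε).neg
  have i2 : Integrable (fun ξ => ε ^ 2 / 2 * M ξ ^ 2) (gI K) := iM2.const_mul _
  have i3 : Integrable (fun ξ => -(ε * M ξ) - ε ^ 2 / 2 * M ξ ^ 2) (gI K) := i1.sub i2
  have i4 : Integrable (fun ξ => -(ε * M ξ) - ε ^ 2 / 2 * M ξ ^ 2 + 2 * ε ^ 3) (gI K) :=
    i3.add (integrable_const _)
  have fm : Measurable f := by
    have h1 : f = fun s => Real.log (1 - ε * Real.cos (lam * s)) := by
      funext s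
      rw [← hf, Real.log_exp]
    rw [h1]
    exact Real.measurable_log.comp (by fun_prop)
  have fb : ∀ s, |f s| ≤ |Real.log (1 / 2)| + |Real.log 2| := by
    intro s
    have h1 : f s = Real.log (1 - ε * Real.cos (lam * s)) := by rw [← hf, Real.log_exp]
    have h2 : |ε * Real.cos (lam * s)| ≤ 1 / 2 := by
      rw [abs_mul, abs_of_nonneg hε]
      calc ε * |Real.cos (lam * s)| ≤ ε * 1 :=
            mul_le_mul_of_nonneg_left (Real.abs_cos_le_one _) hε
        _ ≤ 1 / 2 := by linarith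
    have h3 := abs_le.1 h2
    have h4 := Real.log_le_log (by norm_num : (0 : ℝ) < 1 / 2)
      (by linarith : (1 : ℝ) / 2 ≤ 1 - ε * Real.cos (lam * s))
    have h5 := Real.log_le_log (by linarith : (0 : ℝ) < 1 - ε * Real.cos (lam * s))
      (by linarith : 1 - ε * Real.cos (lam * s) ≤ 2)
    rw [h1, abs_le]
    have h6 := neg_abs_le (Real.log (1 / 2))
    have h7 := le_abs_self (Real.log 2)
    have h8 := abs_nonneg (Real.log 2)
    have h9 := abs_nonneg (Real.log (1 / 2))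
    constructor <;> linarith
  have iL : Integrable (fun ξ => lse w (fun x => f (lf (U x) ξ))) (gI K) :=
    lse_integrable hw (fun x => fm.comp (lf_meas _)) fun x =>
      bint (fm.comp (lf_meas _)) fun ξ => fb _
  have h1 := integral_mono iL i4 hpt
  rw [integral_add i3 (integrable_const _), integral_sub i1 i2, integral_neg, integral_const_mul,
    integral_const_mul, vM] at h1
  simp only [integral_const, probReal_univ, smul_eq_mul, one_mul] at h1
  have h2 : ε ^ 2 / 2 * (Real.exp (-lam ^ 2) * (1 + lam ^ 4 / 2 * ∑ x, ∑ y, w x * w y *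
      (∑ k, U x k * U y k) ^ 2)) ≤ ε ^ 2 / 2 * ∫ ξ, M ξ ^ 2 ∂(gI K) :=
    mul_le_mul_of_nonneg_left hM2 (by positivity)
  refine h1.trans ?_
  linarith

end Vale.Agent.P146.Sk.Low
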