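import Vale.Agent.P157.ParGram
import Vale.Agent.P146.Sk.Goe
import Vale.Agent.P146.Defs

/-!
# P146, module VAR: the disorder as a function of `z`
-/

open MeasureTheory ProbabilityTheory Finset Matrix Filter Topology

namespace Vale.Agent.P146.Sk

open Vale.Agent.P157.Lv
open Vale.Agent.P157.Par (lin integral_lin_congr)

set_option linter.all false

variable {N : ℕ}

/-- the disorder `g_p = (z_p + z_{p'})/√2` -/
noncomputable def phi (z : Ix N → ℝ) (p : Pair N) : ℝ := (z p.1 + z (p.1.2, p.1.1)) / √2

lemma measurable_phi : Measurable (phi (N := N)) := by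
  unfold phi; fun_prop

lemma lin_one (g : Pair N → ℝ) :
    lin (fun a b : Pair N => if b = a then (1 : ℝ) else 0) g = g := by
  funext a
  simp [lin]

lemma lin_phi (z : Ix N → ℝ) :
    lin (fun (p : Pair N) (e : Ix N) => (if e = p.1 then (1 : ℝ) / √2 else 0) +
      (if e = (p.1.2, p.1.1) then (1 : ℝ) / √2 else 0)) z = phi z := by
  funext p
  simp only [lin, add_mul, sum_add_distrib, ite_mul, zero_mul, sum_ite_eq', mem_univ, if_true, phi]
  ring

/-- change of variables -/
theorem integral_disorder {G : (Pair N → ℝ) → ℝ} (hG : Measurable G) :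
    ∫ g, G g ∂(disorder N) = ∫ z, G (phi z) ∂(gI (Ix N)) := by
  have h := integral_lin_congr (J := Pair N) (K := Pair N) (K' := Ix N)
    (U := fun a b : Pair N => if b = a then (1 : ℝ) else 0)
    (V := fun (p : Pair N) (e : Ix N) => (if e = p.1 then (1 : ℝ) / √2 else 0) +
      (if e = (p.1.2, p.1.1) then (1 : ℝ) / √2 else 0)) ?_ hG
  · simp only [lin_one, lin_phi] at h
    exact h
  · intro p q
    have hs : (√2 : ℝ) * √2 = 2 := Real.mul_self_sqrt (by norm_num)
    have hs0 : (√2 : ℝ) ≠ 0 := by positivity
    have hs2 : (1 / √2 : ℝ) * (1 / √2) = 1 / 2 := by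
      rw [one_div_mul_one_div, hs]
    simp only [Vale.Agent.P157.Par.gram, mul_add, add_mul, sum_add_distrib, ite_mul, zero_mul, mul_ite, mul_zero,
      sum_ite_eq', mem_univ, if_true, mul_one, one_mul]
    have h1 : (q = p) ↔ (q.1 = p.1) := Subtype.ext_iff
    have hp := p.2
    have hq := q.2
    have h2 : ¬ (q.1 = (p.1.2, p.1.1)) := by
      intro h
      rw [Prod.ext_iff] at h
      have := h.1; have := h.2
      simp only at *
      omega
    have h3 : ¬ ((q.1.2, q.1.1) = p.1) := by
      intro h
      rw [Prod.ext_iff] at h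
      have := h.1; have := h.2
      simp only at *
      omega
    have h4 : ((q.1.2, q.1.1) = (p.1.2, p.1.1)) ↔ (q.1 = p.1) := by
      constructor
      · intro h
        rw [Prod.ext_iff] at h ⊢
        exact ⟨h.2, h.1⟩
      · intro h
        rw [h]
    rw [if_neg h2, if_neg h3, hs2]
    simp only [h1, h4]
    split_ifs <;> norm_num

end Vale.Agent.P146.Sk
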