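import Vale.Agent.P146.Sk.Alg
import Vale.Agent.P157.LvPair

/-!
# P146, module IBPW: replica estimates in a general system
-/

open MeasureTheory ProbabilityTheory Finset Matrix

namespace Vale.Agent.P146.Sk.Rec

set_option linter.all false

open Vale.Agent.P157 Vale.Agent.P157.Lv Vale.Agent.P157.Lv.Sy

variable {ι X : Type} [Fintype ι] [DecidableEq ι] [Fintype X] [DecidableEq X] [Nonempty X]
  {S : Sy ι X} {N : ℕ} {φ : X → Fin N → ℝ} {A : (ι → ℝ) → Matrix (Fin N) (Fin N) ℝ}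
  {α : (ι → ℝ) → ℝ}

/-- The magnetization of the level `j`; the configuration if `j > K`. -/
noncomputable def yv (S : Sy ι X) (φ : X → Fin N → ℝ) (j : ℕ) (z : ι → ℝ) (x : X) : Fin N → ℝ :=
  if j ≤ S.K then fun a => S.mg φ j a z else φ x

/-- The overlap of the level `j`. -/
noncomputable def RR (S : Sy ι X) (φ : X → Fin N → ℝ) (j : ℕ) : ℝ :=
  if j ≤ S.K then S.Rl φ j else 1

/-- The variance of the overlap of the level `j`. -/
noncomputable def vv (S : Sy ι X) (φ : X → Fin N → ℝ) (j : ℕ) : ℝ :=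
  if j ≤ S.K then S.pairEx j (fun x x' => (Rov φ x x' - S.Rl φ j) ^ 2) else 0

/-- The average over two replicas which split at the level `i`; the same replica if `i > K`. -/
noncomputable def PE (S : Sy ι X) (i : ℕ) (F : (ι → ℝ) → X → X → ℝ) : ℝ :=
  if i ≤ S.K then S.Ex (fun z x => ∑ x', S.pr i z x' * F z x x') else S.Ex (fun z x => F z x x)

lemma yv_le {j : ℕ} (hj : j ≤ S.K) (z : ι → ℝ) (x : X) :
    yv S φ j z x = fun a => S.mg φ j a z := if_pos hj

lemma yv_gt {j : ℕ} (hj : S.K < j) (z : ι → ℝ) (x : X) : yv S φ j z x = φ x :=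
  if_neg (not_le.2 hj)

lemma nv_phi (hφ : ∀ x, ∑ i, φ x i ^ 2 = N) (x : X) : nv (φ x) ^ 2 = N := by
  rw [nv_sq, hφ]

lemma nv_yv (hS : S.Reg) (hφ : ∀ x, ∑ i, φ x i ^ 2 = N) (j : ℕ) (z : ι → ℝ) (x : X) :
    nv (yv S φ j z x) ^ 2 ≤ N := by
  rcases le_or_gt j S.K with hj | hj
  · rw [yv_le hj, nv_sq]
    have h1 : ∀ a, S.mg φ j a z ^ 2 ≤ ∑ y, S.pr j z y * φ y a ^ 2 := by
      intro a
      rw [Fld.mg_eq hS hj]
      exact Sy.lvp_sq _ _ (fun y => hS.pr_nonneg hj z y) (hS.sum_pr hj z)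
    refine (sum_le_sum fun a _ => h1 a).trans (le_of_eq ?_)
    rw [sum_comm]
    simp only [← mul_sum, hφ, ← sum_mul, hS.sum_pr hj z, one_mul]
  · rw [yv_gt hj, nv_phi hφ]

/-- Observables with values in the vectors. -/
def NhV (u : (ι → ℝ) → X → Fin N → ℝ) : Prop := ∀ a, Nh (fun z x => u z x a)

lemma nhv_phi : NhV (ι := ι) (fun _ x => φ x) := fun a => Nh.snd fun x => φ x a

lemma nhv_mg (hS : S.Reg) {j : ℕ} (hj : j ≤ S.K) : NhV (X := X) (fun z _ a => S.mg φ j a z) :=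
  fun a => Nh.fst (Fld.eg_mg hS hj a)

lemma nhv_yv (hS : S.Reg) (j : ℕ) : NhV (yv S φ j) := by
  rcases le_or_gt j S.K with hj | hj
  · have h := nhv_mg (φ := φ) hS hj
    intro a
    have e : (fun z x => yv S φ j z x a) = fun z x => S.mg φ j a z := by
      funext z x
      rw [yv_le hj]
    rw [e]
    exact h a
  · intro a
    have e : (fun z x => yv S φ j z x a) = fun z x => φ x a := by
      funext z x
      rw [yv_gt hj]
    rw [e]
    exact nhv_phi a

lemma NhV.dot {u v : (ι → ℝ) → X → Fin N → ℝ} (hu : NhV u) (hv : NhV v) :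
    Nh (fun z x => u z x ⬝ᵥ v z x) := by
  simp only [dotProduct]
  exact Nh.sum _ fun a _ => Nh.mul (hu a) (hv a)

lemma NhV.mulVec {u : (ι → ℝ) → X → Fin N → ℝ} (hu : NhV u) (hA : EGM A) :
    NhV (fun z x => A z *ᵥ u z x) := by
  intro a
  simp only [Matrix.mulVec, dotProduct]
  exact Nh.sum _ fun b _ => Nh.mul (Nh.fst (hA a b)) (hu b)

lemma NhV.me {u v : (ι → ℝ) → X → Fin N → ℝ} (hu : NhV u) (hv : NhV v) (e : Ix N) :
    Nh (fun z x => Me (u z x) (v z x) e) := by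
  have h := Nh.const_mul (1 / √(2 * (N : ℝ))) (Nh.add (Nh.mul (hu e.1) (hv e.2))
    (Nh.mul (hu e.2) (hv e.1)))
  have e1 : (fun (z : ι → ℝ) (x : X) => Me (u z x) (v z x) e) = fun z x =>
      1 / √(2 * (N : ℝ)) * (u z x e.1 * v z x e.2 + u z x e.2 * v z x e.1) := by
    funext z x
    simp only [Me]
    ring
  rw [e1]
  exact h

/-- Conditional averages of functions of lower levels and of the configuration. -/
lemma T_pr' (hS : S.Reg) {i : ℕ} (hi : i ≤ S.K) {F : (ι → ℝ) → X → ℝ}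
    (hd : ∀ x, Dep S.lev i (fun z => F z x)) (hn : Nh F) (z : ι → ℝ) :
    S.T i F z = ∑ x, S.pr i z x * F z x := by
  have e : F = fun (z : ι → ℝ) (y : X) => ∑ x, F z x * (fun (_ : ι → ℝ) (y : X) =>
        if y = x then (1 : ℝ) else 0) z y := by
    funext z y
    simp
  conv_lhs => rw [e]
  rw [hS.T_sum hi Finset.univ (fun x _ => Nh.mul (Nh.fst (hn x))
    (Nh.snd fun y => if y = x then (1 : ℝ) else 0))]
  refine Finset.sum_congr rfl fun x _ => ?_
  rw [Sy.T_mul_left S (hd x), mul_comm]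
  rfl

/-- Pulling out functions of lower levels. -/
lemma Ex_dep_mg (hS : S.Reg) {i j : ℕ} (hij : i ≤ j) (hj : j ≤ S.K) {r : (ι → ℝ) → ℝ}
    (hr : Dep S.lev i r) (he : EG r) (a : Fin N) :
    S.Ex (fun z _ => r z * S.mg φ j a z) = S.Ex (fun z x => r z * φ x a) :=
  hS.Ex_mul_T hj (hr.mono hij) he (Nh.snd fun x => φ x a)

lemma Ex_dep_yv (hS : S.Reg) {i j : ℕ} (hij : i ≤ j) {r : (ι → ℝ) → ℝ}
    (hr : Dep S.lev i r) (he : EG r) (a : Fin N) :
    S.Ex (fun z x => r z * yv S φ j z x a) = S.Ex (fun z x => r z * φ x a) := by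
  rcases le_or_gt j S.K with hj | hj
  · have e : (fun z x => r z * yv S φ j z x a) = fun z x => r z * S.mg φ j a z := by
      funext z x
      rw [yv_le hj]
    rw [e]
    exact Ex_dep_mg hS hij hj hr he a
  · have e : (fun z x => r z * yv S φ j z x a) = fun z x => r z * φ x a := by
      funext z x
      rw [yv_gt hj]
    rw [e]

/-- the vector form -/
lemma Ex_dep_dot (hS : S.Reg) {i j : ℕ} (hij : i ≤ j) {r : (ι → ℝ) → Fin N → ℝ}
    (hr : ∀ a, Dep S.lev i (fun z => r z a)) (he : ∀ a, EG (fun z => r z a)) :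
    S.Ex (fun z x => r z ⬝ᵥ yv S φ j z x) = S.Ex (fun z x => r z ⬝ᵥ φ x) := by
  simp only [dotProduct]
  rw [hS.Ex_sum _ fun a _ => Nh.mul (Nh.fst (he a)) (nhv_yv hS j a),
    hS.Ex_sum _ fun a _ => Nh.mul (Nh.fst (he a)) (nhv_phi a)]
  exact sum_congr rfl fun a _ => Ex_dep_yv hS hij (hr a) (he a) a

/-! ### Averages over two replicas -/

/-- Observables of two replicas. -/
def Nh2 (F : (ι → ℝ) → X → X → ℝ) : Prop := ∀ x', Nh (fun z x => F z x x')

lemma Nh2.diag {F : (ι → ℝ) → X → X → ℝ} (hF : Nh2 F) : Nh (fun z x => F z x x) := fun x => hF x x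

lemma Nh2.add {F G : (ι → ℝ) → X → X → ℝ} (hF : Nh2 F) (hG : Nh2 G) :
    Nh2 (fun z x x' => F z x x' + G z x x') := fun x' => Nh.add (hF x') (hG x')

lemma Nh2.sub {F G : (ι → ℝ) → X → X → ℝ} (hF : Nh2 F) (hG : Nh2 G) :
    Nh2 (fun z x x' => F z x x' - G z x x') := fun x' => Nh.sub (hF x') (hG x')

lemma Nh2.mul {F G : (ι → ℝ) → X → X → ℝ} (hF : Nh2 F) (hG : Nh2 G) :
    Nh2 (fun z x x' => F z x x' * G z x x') := fun x' => Nh.mul (hF x') (hG x')

lemma Nh2.const_mul {F : (ι → ℝ) → X → X → ℝ} (c : ℝ) (hF : Nh2 F) :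
    Nh2 (fun z x x' => c * F z x x') := fun x' => Nh.const_mul c (hF x')

lemma Nh2.pow {F : (ι → ℝ) → X → X → ℝ} (hF : Nh2 F) (n : ℕ) :
    Nh2 (fun z x x' => F z x x' ^ n) := fun x' => Nh.pow (hF x') n

lemma Nh2.const (c : ℝ) : Nh2 (ι := ι) (X := X) (fun _ _ _ => c) := fun x' => Nh.fst (EG.const c)

lemma Nh2.of (f : (ι → ℝ) → X → ℝ) (hf : Nh f) : Nh2 (fun z x _ => f z x) := fun x' => hf

lemma nh_PE (hS : S.Reg) {i : ℕ} (hi : i ≤ S.K) {F : (ι → ℝ) → X → X → ℝ} (hF : Nh2 F) :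
    Nh (fun z x => ∑ x', S.pr i z x' * F z x x') :=
  Nh.sum _ fun x' _ => Nh.mul (Nh.fst (hS.eg_pr hi x')) (hF x')

lemma PE_add (hS : S.Reg) (i : ℕ) {F G : (ι → ℝ) → X → X → ℝ} (hF : Nh2 F) (hG : Nh2 G) :
    PE S i (fun z x x' => F z x x' + G z x x') = PE S i F + PE S i G := by
  unfold PE
  split_ifs with hi
  · rw [← hS.Ex_add (nh_PE hS hi hF) (nh_PE hS hi hG)]
    simp only [mul_add, sum_add_distrib]
  · exact hS.Ex_add hF.diag hG.diag

lemma PE_const_mul (i : ℕ) (c : ℝ) (F : (ι → ℝ) → X → X → ℝ) :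
    PE S i (fun z x x' => c * F z x x') = c * PE S i F := by
  unfold PE
  split_ifs with hi
  · rw [← Sy.Ex_const_mul]
    congr 1
    funext z x
    rw [mul_sum]
    exact sum_congr rfl fun x' _ => by ring
  · exact S.Ex_const_mul c _

lemma PE_sub (hS : S.Reg) (i : ℕ) {F G : (ι → ℝ) → X → X → ℝ} (hF : Nh2 F) (hG : Nh2 G) :
    PE S i (fun z x x' => F z x x' - G z x x') = PE S i F - PE S i G := by
  have h := PE_add (S := S) hS i hF (Nh2.const_mul (-1) hG)
  rw [PE_const_mul] at h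
  have e : (fun z x x' => F z x x' - G z x x') = fun z x x' => F z x x' + -1 * G z x x' := by
    funext z x x'
    ring
  rw [e, h]
  ring

lemma PE_mono (hS : S.Reg) (i : ℕ) {F G : (ι → ℝ) → X → X → ℝ} (hF : Nh2 F) (hG : Nh2 G)
    (h : ∀ z x x', F z x x' ≤ G z x x') : PE S i F ≤ PE S i G := by
  unfold PE
  split_ifs with hi
  · exact hS.Ex_mono (nh_PE hS hi hF) (nh_PE hS hi hG) fun z x => sum_le_sum fun x' _ =>
      mul_le_mul_of_nonneg_left (h z x x') (hS.pr_nonneg hi z x')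
  · exact hS.Ex_mono hF.diag hG.diag fun z x => h z x x

/-- Observables of the first replica. -/
lemma PE_fst (hS : S.Reg) (i : ℕ) (f : (ι → ℝ) → X → ℝ) : PE S i (fun z x _ => f z x) = S.Ex f := by
  unfold PE
  split_ifs with hi
  · congr 1
    funext z x
    rw [← sum_mul, hS.sum_pr hi, one_mul]
  · rfl

lemma abs_le_of_quad {a b c : ℝ} (h : ∀ t : ℝ, 0 ≤ c * (t * t) + (-2 * b) * t + a) (ha : 0 ≤ a) :
    |b| ≤ √a * √c := by
  have h3 := discrim_le_zero h
  unfold discrim at h3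
  have h4 : b ^ 2 ≤ a * c := by nlinarith
  rw [← Real.sqrt_mul ha]
  exact Real.abs_le_sqrt h4

/-- Cauchy-Schwarz. -/
lemma PE_cs (hS : S.Reg) (i : ℕ) {F G : (ι → ℝ) → X → X → ℝ} (hF : Nh2 F) (hG : Nh2 G) :
    |PE S i (fun z x x' => F z x x' * G z x x')| ≤
      √(PE S i (fun z x x' => F z x x' ^ 2)) * √(PE S i (fun z x x' => G z x x' ^ 2)) := by
  have hz : PE S i (fun _ _ _ => (0 : ℝ)) = 0 := by
    rw [PE_fst hS, hS.Ex_const]
  have ha : 0 ≤ PE S i (fun z x x' => F z x x' ^ 2) := by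
    rw [← hz]
    exact PE_mono hS i (Nh2.const 0) (hF.pow 2) fun z x x' => sq_nonneg _
  refine abs_le_of_quad (fun t => ?_) ha
  have h2 := PE_mono hS i (Nh2.const 0) ((hF.sub (hG.const_mul t)).pow 2)
    fun z x x' => sq_nonneg _
  rw [hz] at h2
  have e : (fun (z : ι → ℝ) (x x' : X) => (F z x x' - t * G z x x') ^ 2) =
      fun z x x' => (F z x x' ^ 2 + (-2 * t) * (F z x x' * G z x x')) + t * t * G z x x' ^ 2 := by
    funext z x x'
    ring
  rw [e, PE_add hS i ((hF.pow 2).add ((hF.mul hG).const_mul _)) ((hG.pow 2).const_mul _),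
    PE_add hS i (hF.pow 2) ((hF.mul hG).const_mul _), PE_const_mul, PE_const_mul] at h2
  linarith

lemma Ex_abs_cs (hS : S.Reg) {f g : (ι → ℝ) → X → ℝ} (hf : Nh f) (hg : Nh g) :
    |S.Ex (fun z x => f z x * g z x)| ≤
      √(S.Ex (fun z x => f z x ^ 2)) * √(S.Ex (fun z x => g z x ^ 2)) := by
  have h := PE_cs hS (S.K + 1) (Nh2.of f hf) (Nh2.of g hg)
  rwa [PE_fst hS, PE_fst hS, PE_fst hS] at h

/-! ### The overlap variances -/

/-- the overlap with the magnetization -/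
lemma mg_dot_eq (hS : S.Reg) {j : ℕ} (hj : j ≤ S.K) (z : ι → ℝ) (x' : X) :
    1 / N * ((fun a => S.mg φ j a z) ⬝ᵥ φ x') = S.T j (fun _ x => Rov φ x x') z := by
  rw [hS.T_pr hj (fun x => Rov φ x x')]
  simp only [dotProduct, Fld.mg_eq hS hj, sum_mul, Rov]
  rw [sum_comm, mul_sum]
  refine sum_congr rfl fun x _ => ?_
  rw [mul_sum, mul_sum, mul_sum]
  exact sum_congr rfl fun a _ => by ring

lemma Rov_comm (x x' : X) : Rov φ x x' = Rov φ x' x := by
  unfold Rov
  congr 1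
  exact sum_congr rfl fun i _ => mul_comm _ _

lemma pairEx_eq (hS : S.Reg) {i : ℕ} (hi : i ≤ S.K) (ψ : X → X → ℝ) :
    S.Ex (fun z x => ∑ x', S.pr i z x' * ψ x x') = S.pairEx i ψ := by
  rw [← hS.Ex_T hi (nh_PE hS hi (F := fun _ x x' => ψ x x') fun x' => Nh.snd fun x => ψ x x')]
  unfold Sy.pairEx
  congr 1
  funext z _
  rw [hS.T_sum hi _ fun x' _ => Nh.mul (Nh.fst (hS.eg_pr hi x')) (Nh.snd fun x => ψ x x')]
  rw [sum_comm]
  refine sum_congr rfl fun x' _ => ?_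
  rw [Sy.T_mul_left S (φ := fun z => S.pr i z x') (S.dep_T i _) (fun _ x => ψ x x'),
    hS.T_pr hi (fun x => ψ x x'), mul_sum]
  exact sum_congr rfl fun x _ => by ring

/-- the variance of the overlap -/
lemma PE_ov (hS : S.Reg) (hN : 0 < N) (hφ : ∀ x, ∑ i, φ x i ^ 2 = N) {i j : ℕ} (hi : i ≤ S.K + 1)
    (hj : j ≤ S.K + 1) :
    PE S i (fun z x x' => (1 / N * (yv S φ j z x ⬝ᵥ φ x') - RR S φ (min i j)) ^ 2) ≤
      vv S φ (min i j) := by
  have hN' : (0 : ℝ) < N := by exact_mod_cast hN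
  have hself : ∀ x, 1 / (N : ℝ) * (φ x ⬝ᵥ φ x) = 1 := by
    intro x
    rw [dot_self_eq, nv_phi hφ]
    field_simp
  -- the overlap with the magnetization of the level `j ≤ K`
  have key : ∀ j ≤ S.K, ∀ (c : ℝ) (z : ι → ℝ) (x' : X),
      (1 / N * ((fun a => S.mg φ j a z) ⬝ᵥ φ x') - c) ^ 2 ≤
        S.T j (fun _ x => (Rov φ x x' - c) ^ 2) z := by
    intro j hj c z x'
    rw [mg_dot_eq hS hj]
    have h1 : S.T j (fun _ x => Rov φ x x') z - c = S.T j (fun _ x => Rov φ x x' - c) z := by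
      rw [hS.T_sub hj (Nh.snd fun x => Rov φ x x') (Nh.snd fun _ => c), hS.T_const hj]
    rw [h1]
    exact hS.sq_T_le hj (Nh.snd fun x => Rov φ x x' - c) z
  rcases le_or_gt i S.K with hi' | hi'
  · rcases le_or_gt j i with hji | hji
    · -- `j ≤ i ≤ K`
      have hjK : j ≤ S.K := hji.trans hi'
      rw [min_eq_right hji]
      unfold PE
      rw [if_pos hi']
      have e1 : (fun z x => ∑ x', S.pr i z x' *
          (1 / N * (yv S φ j z x ⬝ᵥ φ x') - RR S φ j) ^ 2) = fun (z : ι → ℝ) (_ : X) =>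
          S.T i (fun z x' => (1 / N * ((fun a => S.mg φ j a z) ⬝ᵥ φ x') - RR S φ j) ^ 2) z := by
        funext z x
        rw [T_pr' hS hi']
        · simp only [yv_le hjK]
        · intro x z w
          have h1 : ∀ a, S.mg φ j a (mix S.lev i z w) = S.mg φ j a z := fun a =>
            ((Fld.dep_mg S φ j a).mono hji) z w
          simp only [h1]
        · exact Nh.pow (Nh.sub (Nh.const_mul _ ((nhv_mg hS hjK).dot nhv_phi))
            (Nh.fst (EG.const _))) 2
      rw [e1, hS.Ex_T hi' (Nh.pow (Nh.sub (Nh.const_mul _ ((nhv_mg hS hjK).dot nhv_phi))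
            (Nh.fst (EG.const _))) 2)]
      unfold vv RR
      rw [if_pos hjK, if_pos hjK, ← pairEx_eq hS hjK]
      refine hS.Ex_mono (Nh.pow (Nh.sub (Nh.const_mul _ ((nhv_mg hS hjK).dot nhv_phi))
            (Nh.fst (EG.const _))) 2) (nh_PE hS hjK (F := fun _ x x' => (Rov φ x x' - S.Rl φ j) ^ 2)
            fun x' => Nh.snd fun x => (Rov φ x x' - S.Rl φ j) ^ 2) fun z x => ?_
      refine (key j hjK _ z x).trans (le_of_eq ?_)
      rw [hS.T_pr hjK (fun x' => (Rov φ x' x - S.Rl φ j) ^ 2)]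
      exact sum_congr rfl fun x' _ => by rw [Rov_comm]
    · -- `i < j`, `i ≤ K`
      rw [min_eq_left hji.le]
      unfold PE vv RR
      rw [if_pos hi', if_pos hi', if_pos hi', ← pairEx_eq hS hi']
      rcases le_or_gt j S.K with hjK | hjK
      · have n1 : ∀ x', Nh (fun (z : ι → ℝ) (x : X) => S.pr i z x' *
            (1 / N * ((fun a => S.mg φ j a z) ⬝ᵥ φ x') - S.Rl φ i) ^ 2) := fun x' =>
          Nh.mul (Nh.fst (hS.eg_pr hi' x')) (Nh.pow (Nh.sub (Nh.const_mul _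
            ((nhv_mg hS hjK).dot fun a => Nh.snd fun _ => φ x' a)) (Nh.fst (EG.const _))) 2)
        have e1 : (fun z x => ∑ x', S.pr i z x' *
            (1 / N * (yv S φ j z x ⬝ᵥ φ x') - S.Rl φ i) ^ 2) = fun (z : ι → ℝ) (_ : X) =>
            ∑ x', S.pr i z x' * (1 / N * ((fun a => S.mg φ j a z) ⬝ᵥ φ x') - S.Rl φ i) ^ 2 := by
          funext z x
          simp only [yv_le hjK]
        rw [e1, hS.Ex_sum _ fun x' _ => n1 x', hS.Ex_sum _ fun x' _ =>
          Nh.mul (Nh.fst (hS.eg_pr hi' x')) (Nh.snd fun x => (Rov φ x x' - S.Rl φ i) ^ 2)]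
        refine sum_le_sum fun x' _ => ?_
        have h2 := hS.Ex_mul_T hjK ((S.dep_T i (fun _ y => if y = x' then 1 else 0)).mono hji.le)
          (hS.eg_pr hi' x') (Nh.snd fun x => (Rov φ x x' - S.Rl φ i) ^ 2)
        refine le_trans ?_ (le_of_eq h2)
        refine hS.Ex_mono (n1 x') (Nh.fst ((hS.eg_pr hi' x').mul
          (hS.eg_T hjK (Nh.snd fun x => (Rov φ x x' - S.Rl φ i) ^ 2)))) fun z x => ?_
        exact mul_le_mul_of_nonneg_left (key j hjK _ z x') (hS.pr_nonneg hi' z x')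
      · refine le_of_eq ?_
        congr 1
        funext z x
        refine sum_congr rfl fun x' _ => ?_
        simp only [yv_gt hjK]
        rfl
  · -- `i = K + 1`
    unfold PE
    rw [if_neg (not_le.2 hi')]
    rcases le_or_gt j S.K with hjK | hjK
    · rw [min_eq_right (by omega)]
      unfold vv RR
      rw [if_pos hjK, if_pos hjK, ← pairEx_eq hS hjK]
      have e1 : (fun z x => (1 / N * (yv S φ j z x ⬝ᵥ φ x) - S.Rl φ j) ^ 2) =
          fun (z : ι → ℝ) (x : X) =>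
          (1 / N * ((fun a => S.mg φ j a z) ⬝ᵥ φ x) - S.Rl φ j) ^ 2 := by
        funext z x
        rw [yv_le hjK]
      rw [e1]
      refine hS.Ex_mono (Nh.pow (Nh.sub (Nh.const_mul _ ((nhv_mg hS hjK).dot nhv_phi))
            (Nh.fst (EG.const _))) 2) (nh_PE hS hjK (F := fun _ x x' => (Rov φ x x' - S.Rl φ j) ^ 2)
            fun x' => Nh.snd fun x => (Rov φ x x' - S.Rl φ j) ^ 2) fun z x => ?_
      refine (key j hjK _ z x).trans (le_of_eq ?_)
      rw [hS.T_pr hjK (fun x' => (Rov φ x' x - S.Rl φ j) ^ 2)]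
      exact sum_congr rfl fun x' _ => by rw [Rov_comm]
    · rw [show min i j = S.K + 1 by omega]
      unfold vv RR
      rw [if_neg (by omega), if_neg (by omega)]
      refine le_of_eq ?_
      have e1 : (fun z x => (1 / N * (yv S φ j z x ⬝ᵥ φ x) - 1) ^ 2) =
          fun (_ : ι → ℝ) (_ : X) => (0 : ℝ) := by
        funext z x
        rw [yv_gt hjK, hself]
        ring
      rw [e1, hS.Ex_const]

end Vale.Agent.P146.Sk.Rec
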