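import Vale.Agent.P146.Sk.Trace

/-!
# P146, module GOE: convergence of the normalized traces of Chebyshev polynomials of `W`
-/

open MeasureTheory ProbabilityTheory Finset Matrix Filter Topology Polynomial

namespace Vale.Agent.P146.Sk

open Vale.Agent.P157.Lv

set_option linter.all false

/-- normalized trace of `q(W)` -/
noncomputable def tp (N : ℕ) (q : ℝ[X]) (z : Ix N → ℝ) : ℝ := (aeval (Wm N z) q).trace / N

/-- Chebyshev polynomials of the second kind (on `[-2,2]`) -/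
noncomputable def Sp : ℕ → ℝ[X]
  | 0 => 1
  | 1 => X
  | p + 2 => X * Sp (p + 1) - Sp p

variable {N : ℕ}

lemma Um_eq_aeval (W : Matrix (Fin N) (Fin N) ℝ) (p : ℕ) : Um W p = aeval W (Sp p) := by
  induction p using Nat.strong_induction_on with
  | _ p ih =>
    match p with
    | 0 => simp [Sp]
    | 1 => simp [Sp]
    | p + 2 => rw [Um_add_two, Sp, map_sub, map_mul, aeval_X, ih p (by omega), ih (p + 1) (by omega)]

/-- the product formula -/
theorem Sp_mul (a b : ℕ) (hab : a ≤ b) :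
    Sp a * Sp b = ∑ j ∈ range (a + 1), Sp (b - a + 2 * j) := by
  have hX : ∀ p, X * Sp (p + 1) = Sp (p + 2) + Sp p := fun p => by rw [Sp]; ring
  induction a using Nat.strong_induction_on generalizing b with
  | _ a ih =>
    match a with
    | 0 => simp [Sp]
    | 1 =>
      obtain ⟨c, rfl⟩ : ∃ c, b = c + 1 := ⟨b - 1, by omega⟩
      rw [show Sp 1 = X from rfl, hX, sum_range_succ, sum_range_one, add_comm]
      congr 1
    | a + 2 =>
      have h1 := ih (a + 1) (by omega) b (by omega)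
      have h0 := ih a (by omega) b (by omega)
      rw [show Sp (a + 2) = X * Sp (a + 1) - Sp a from rfl, sub_mul, mul_assoc, h1, h0, mul_sum]
      have h2 : ∀ j ∈ range (a + 1 + 1), X * Sp (b - (a + 1) + 2 * j) =
          Sp (b - a + 2 * j) + Sp (b - (a + 2) + 2 * j) := by
        intro j _
        obtain ⟨c, hc⟩ : ∃ c, b = a + 2 + c := ⟨b - (a + 2), by omega⟩
        have e1 : b - (a + 1) + 2 * j = (c + 2 * j) + 1 := by omega
        have e2 : b - a + 2 * j = (c + 2 * j) + 2 := by omega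
        have e3 : b - (a + 2) + 2 * j = c + 2 * j := by omega
        rw [e1, e2, e3, hX]
      rw [sum_congr rfl h2, sum_add_distrib, sum_range_succ (n := a + 1),
        sum_range_succ (fun j => Sp (b - (a + 2) + 2 * j)) (a + 2)]
      have e4 : b - a + 2 * (a + 1) = b - (a + 2) + 2 * (a + 2) := by omega
      rw [e4]
      abel

lemma tp_eq_sum (q : ℝ[X]) (z : Ix N → ℝ) : tp N q z = (∑ i, q.eval (ew N z i)) / N := by
  unfold tp
  congr 1
  rw [aeval_eq_sum_range, Matrix.trace_sum]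
  simp only [Matrix.trace_smul, trace_pow_W, smul_eq_mul, mul_sum]
  rw [sum_comm]
  refine sum_congr rfl fun i _ => ?_
  rw [eval_eq_sum_range]

lemma tp_add (q r : ℝ[X]) (z : Ix N → ℝ) : tp N (q + r) z = tp N q z + tp N r z := by
  unfold tp
  rw [map_add, Matrix.trace_add, add_div]

lemma tp_sub (q r : ℝ[X]) (z : Ix N → ℝ) : tp N (q - r) z = tp N q z - tp N r z := by
  unfold tp
  rw [map_sub, Matrix.trace_sub, sub_div]

lemma tp_C_mul (c : ℝ) (q : ℝ[X]) (z : Ix N → ℝ) : tp N (C c * q) z = c * tp N q z := by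
  unfold tp
  rw [← smul_eq_C_mul, map_smul, Matrix.trace_smul, smul_eq_mul, mul_div_assoc]

lemma tp_sum {κ : Type*} (s : Finset κ) (q : κ → ℝ[X]) (z : Ix N → ℝ) :
    tp N (∑ k ∈ s, q k) z = ∑ k ∈ s, tp N (q k) z := by
  unfold tp
  rw [map_sum, Matrix.trace_sum, sum_div]

lemma egm_aeval (q : ℝ[X]) : EGM (fun z => aeval (Wm N z) q) := by
  intro i j
  simp only [aeval_eq_sum_range, Matrix.sum_apply, Matrix.smul_apply, smul_eq_mul]
  exact EG.sum _ fun k _ => (egm_pow k i j).const_mul _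

lemma eg_tp (q : ℝ[X]) : EG (fun z => tp N q z) := by
  have h := (egm_aeval (N := N) q).trace.const_mul (N : ℝ)⁻¹
  simp only [← div_eq_inv_mul] at h
  exact h

lemma poly_bound (q : ℝ[X]) : ∃ C : ℝ, 0 ≤ C ∧ ∀ x : ℝ, |q.eval x| ≤ C * (1 + x ^ (2 * q.natDegree)) := by
  refine ⟨∑ k ∈ range (q.natDegree + 1), |q.coeff k|, sum_nonneg fun k _ => abs_nonneg _, fun x => ?_⟩
  rw [eval_eq_sum_range, sum_mul]
  refine (abs_sum_le_sum_abs _ _).trans (sum_le_sum fun k hk => ?_)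
  rw [mem_range] at hk
  rw [abs_mul, abs_pow]
  refine mul_le_mul_of_nonneg_left ?_ (abs_nonneg _)
  have h1 : x ^ (2 * q.natDegree) = |x| ^ (2 * q.natDegree) := by
    rw [pow_mul, pow_mul, sq_abs]
  rw [h1]
  rcases le_total |x| 1 with h | h
  · have := pow_le_one₀ (n := k) (abs_nonneg x) h
    have h2 : 0 ≤ |x| ^ (2 * q.natDegree) := by positivity
    linarith
  · have : |x| ^ k ≤ |x| ^ (2 * q.natDegree) := pow_le_pow_right₀ h (by omega)
    linarith

lemma tp_abs_bound (q : ℝ[X]) : ∃ C : ℝ, 0 ≤ C ∧ ∀ (N : ℕ) (z : Ix N → ℝ), 0 < N →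
    |tp N q z| ≤ C * (1 + ((Wm N z) ^ (2 * q.natDegree)).trace / N) := by
  obtain ⟨C, hC, h⟩ := poly_bound q
  refine ⟨C, hC, fun N z hN => ?_⟩
  have hN' : (0 : ℝ) < N := by exact_mod_cast hN
  rw [tp_eq_sum, abs_div, Nat.abs_cast, trace_pow_W, div_le_iff₀ hN']
  calc |∑ i, q.eval (ew N z i)| ≤ ∑ i, |q.eval (ew N z i)| := abs_sum_le_sum_abs _ _
    _ ≤ ∑ i : Fin N, C * (1 + ew N z i ^ (2 * q.natDegree)) := sum_le_sum fun i _ => h _
    _ = C * (1 + (∑ i, ew N z i ^ (2 * q.natDegree)) / N) * N := by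
        rw [← mul_sum, sum_add_distrib, sum_const, card_univ, Fintype.card_fin, nsmul_eq_mul,
          mul_one]
        field_simp

theorem tp_int_bound (q : ℝ[X]) : ∃ C : ℝ, 0 ≤ C ∧ ∀ N : ℕ, 0 < N →
    ∫ z, |tp N q z| ∂(gI (Ix N)) ≤ C := by
  obtain ⟨C, hC, h⟩ := tp_abs_bound q
  refine ⟨C * (1 + Cb q.natDegree), mul_nonneg hC (add_nonneg zero_le_one (Cb_nonneg _)),
    fun N hN => ?_⟩
  have h1 : ∫ z, |tp N q z| ∂(gI (Ix N)) ≤
      ∫ z, C * (1 + ((Wm N z) ^ (2 * q.natDegree)).trace / N) ∂(gI (Ix N)) := by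
    refine integral_mono (eg_tp q).abs.integrable ?_ fun z => h N z hN
    have h2 : EG (fun z : Ix N → ℝ => ((Wm N z) ^ (2 * q.natDegree)).trace / N) := by
      have h3 := (egm_pow (N := N) (2 * q.natDegree)).trace.const_mul (N : ℝ)⁻¹
      simp only [← div_eq_inv_mul] at h3
      exact h3
    exact (((EG.const 1).add h2).const_mul C).integrable
  refine h1.trans ?_
  rw [integral_const_mul, integral_add (integrable_const _), integral_const, probReal_univ,
    one_smul]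
  · exact mul_le_mul_of_nonneg_left (by linarith [moment_bound hN q.natDegree]) hC
  · have h3 := (egm_pow (N := N) (2 * q.natDegree)).trace.const_mul (N : ℝ)⁻¹
    simp only [← div_eq_inv_mul] at h3
    exact h3.integrable

theorem tp_int_bound' (q : ℝ[X]) : ∃ C : ℝ, 0 ≤ C ∧ ∀ N : ℕ, 0 < N →
    |∫ z, tp N q z ∂(gI (Ix N))| ≤ C := by
  obtain ⟨C, hC, h⟩ := tp_int_bound q
  exact ⟨C, hC, fun N hN => abs_integral_le_integral_abs.trans (h N hN)⟩

/-- the sum of the products of Chebyshev matrices -/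
noncomputable def Pp (p : ℕ) : ℝ[X] := ∑ s ∈ range p, Sp (p - 1 - s) * Sp s

lemma trace_DU (W : Matrix (Fin N) (Fin N) ℝ) (hW : Wᵀ = W) (e : Ix N) (p : ℕ) :
    (DU W (Em N e) p).trace = 2 * (aeval W (Pp p)) e.1 e.2 / √(2 * (N : ℝ)) := by
  have hT : ∀ q : ℝ[X], ∀ i j, (aeval W q) i j = (aeval W q) j i := by
    intro q i j
    rw [aeval_eq_sum_range]
    simp only [Matrix.sum_apply, Matrix.smul_apply]
    refine sum_congr rfl fun k _ => ?_
    have h1 : (W ^ k)ᵀ = W ^ k := by rw [Matrix.transpose_pow, hW]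
    conv_lhs => rw [← h1]
    rfl
  rw [DU_eq, Matrix.trace_sum]
  have h1 : ∀ s ∈ range p, (Um W s * Em N e * Um W (p - 1 - s)).trace =
      (1 * Em N e * aeval W (Sp (p - 1 - s) * Sp s)).trace := by
    intro s _
    rw [map_mul, ← Um_eq_aeval, ← Um_eq_aeval, one_mul, Matrix.trace_mul_comm, ← mul_assoc,
      Matrix.trace_mul_comm]
  rw [sum_congr rfl h1, ← Matrix.trace_sum, ← mul_sum, ← map_sum]
  change (1 * Em N e * aeval W (Pp p)).trace = _
  simp only [Matrix.trace, Matrix.diag_apply, mul_Em_mul, Matrix.one_apply]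
  rw [← sum_div, sum_add_distrib]
  simp only [ite_mul, one_mul, zero_mul, sum_ite_eq', mem_univ, if_true]
  rw [hT (Pp p) e.2 e.1]
  ring

lemma pd_tp_Sp (e : Ix N) (p : ℕ) : PD e (fun z => tp N (Sp p) z)
    (fun z => (2 / (N * √(2 * (N : ℝ)))) * (aeval (Wm N z) (Pp p)) e.1 e.2) := by
  have h := ((pdm_Um e p).trace).const_mul (N : ℝ)⁻¹
  simp only [Um_eq_aeval] at h
  simp only [← div_eq_inv_mul] at h
  refine PD.congr h fun z => ?_
  rw [trace_DU _ (Wm_transpose z)]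
  field_simp

lemma sum_sq_aeval (q : ℝ[X]) (z : Ix N → ℝ) :
    ∑ e : Ix N, ((aeval (Wm N z) q) e.1 e.2) ^ 2 = (aeval (Wm N z) (q * q)).trace := by
  rw [map_mul, trace_mul_eq_sum]
  refine sum_congr rfl fun e _ => ?_
  have h2 : (aeval (Wm N z) q) e.2 e.1 = (aeval (Wm N z) q) e.1 e.2 := by
    rw [aeval_eq_sum_range]
    simp only [Matrix.sum_apply, Matrix.smul_apply]
    refine sum_congr rfl fun k _ => ?_
    have h1 := pow_transpose z k
    conv_lhs => rw [← h1]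
    rfl
  rw [h2]
  ring

/-- variance of the normalized traces -/
theorem var_tp (p : ℕ) : ∃ C : ℝ, 0 ≤ C ∧ ∀ N : ℕ, 0 < N →
    ∫ z, (tp N (Sp p) z - ∫ w, tp N (Sp p) w ∂(gI (Ix N))) ^ 2 ∂(gI (Ix N)) ≤ C / (N : ℝ) ^ 2 := by
  obtain ⟨C, hC, h⟩ := tp_int_bound' (Pp p * Pp p)
  refine ⟨2 * C, by positivity, fun N hN => ?_⟩
  have hN' : (0 : ℝ) < N := by exact_mod_cast hN
  refine (cc_var_le_one (eg_tp (Sp p)) (fun e => pd_tp_Sp e p)
    (fun e => (egm_aeval (Pp p) _ _).const_mul _)).trans ?_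
  have h1 : ∀ e : Ix N, ∫ z, ((2 / (N * √(2 * (N : ℝ)))) * (aeval (Wm N z) (Pp p)) e.1 e.2) ^ 2
      ∂(gI (Ix N)) = (2 / (N : ℝ) ^ 3) * ∫ z, ((aeval (Wm N z) (Pp p)) e.1 e.2) ^ 2 ∂(gI (Ix N)) := by
    intro e
    rw [← integral_const_mul]
    congr 1
    funext z
    rw [mul_pow, div_pow, mul_pow, Real.sq_sqrt (by positivity)]
    congr 1
    field_simp
  simp only [h1]
  rw [← mul_sum, ← integral_finsetSum _ fun e _ => ((egm_aeval (Pp p) _ _).pow 2).integrable]
  simp only [sum_sq_aeval]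
  have h2 := le_trans (le_abs_self _) (h N hN)
  unfold tp at h2
  rw [integral_div, div_le_iff₀ hN'] at h2
  calc 2 / (N : ℝ) ^ 3 * ∫ z, (aeval (Wm N z) (Pp p * Pp p)).trace ∂(gI (Ix N))
      ≤ 2 / (N : ℝ) ^ 3 * (C * N) := by gcongr
    _ = 2 * C / (N : ℝ) ^ 2 := by field_simp

end Vale.Agent.P146.Sk
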