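import Vale.Agent.P146.Sk.Goe

/-!
# P146, module GOE: normalized traces of polynomials of `W`
-/

open MeasureTheory ProbabilityTheory Finset Matrix Filter Topology Polynomial

namespace Vale.Agent.P146.Sk

open Vale.Agent.P157.Lv

set_option linter.all false

variable {N : ℕ}

/-- the derivative of the power -/
lemma pdm_pow (e : Ix N) (p : ℕ) : PDM e (fun z => (Wm N z) ^ p)
    (fun z => ∑ s ∈ range p, (Wm N z) ^ s * Em N e * (Wm N z) ^ (p - 1 - s)) := by
  induction p with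
  | zero =>
    simp only [pow_zero, range_zero, sum_empty]
    exact PDM.const 1
  | succ p ih =>
    have h := ih.mul (pdm_Wm e)
    simp only [← pow_succ] at h
    refine h.congr fun z => ?_
    rw [sum_range_succ, sum_mul]
    simp only [Nat.add_sub_cancel, Nat.sub_self, pow_zero, mul_one]
    congr 1
    refine sum_congr rfl fun s hs => ?_
    rw [mem_range] at hs
    rw [mul_assoc, ← pow_succ]
    congr 2
    omega

lemma egm_pow (p : ℕ) : EGM (fun z => (Wm N z) ^ p) := by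
  induction p with
  | zero => simpa using EGM.const (ι := Ix N) (N := N) 1
  | succ p ih => simpa only [pow_succ] using ih.mul egm_Wm

lemma pow_transpose (z : Ix N → ℝ) (p : ℕ) : ((Wm N z) ^ p)ᵀ = (Wm N z) ^ p := by
  rw [Matrix.transpose_pow, Wm_transpose]

lemma sum_Ix_swap (f : Fin N → Fin N → ℝ) :
    ∑ e : Ix N, f e.2 e.1 = ∑ e : Ix N, f e.1 e.2 := by
  rw [Fintype.sum_prod_type, Fintype.sum_prod_type_right]

lemma trace_mul_eq_sum (A B : Matrix (Fin N) (Fin N) ℝ) :
    (A * B).trace = ∑ e : Ix N, A e.1 e.2 * B e.2 e.1 := by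
  rw [Fintype.sum_prod_type]
  simp only [Matrix.trace, Matrix.diag_apply, Matrix.mul_apply]

lemma trace_mul_trace (A B : Matrix (Fin N) (Fin N) ℝ) :
    A.trace * B.trace = ∑ e : Ix N, A e.1 e.1 * B e.2 e.2 := by
  rw [Fintype.sum_prod_type]
  simp only [Matrix.trace, Matrix.diag_apply, sum_mul_sum]

/-- Gaussian integration by parts for `tr (W A)` -/
theorem ibp_trace {A : (Ix N → ℝ) → Matrix (Fin N) (Fin N) ℝ} (hA : EGM A)
    {p : ℕ} {P Q : ℕ → (Ix N → ℝ) → Matrix (Fin N) (Fin N) ℝ}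
    (hP : ∀ s, EGM (P s)) (hQ : ∀ s, EGM (Q s)) (hPt : ∀ s z, (P s z)ᵀ = P s z)
    (hQt : ∀ s z, (Q s z)ᵀ = Q s z)
    (hd : ∀ e, PDM e A (fun z => ∑ s ∈ range p, P s z * Em N e * Q s z)) :
    ∫ z, (Wm N z * A z).trace ∂(gI (Ix N)) = (1 / (N : ℝ)) * ∑ s ∈ range p,
      ∫ z, ((P s z).trace * (Q s z).trace + (P s z * Q s z).trace) ∂(gI (Ix N)) := by
  set c : ℝ := √(2 * (N : ℝ)) with hc
  have hc2 : c * c = 2 * N := Real.mul_self_sqrt (by positivity)
  have hPs : ∀ s z i j, P s z i j = P s z j i := fun s z i j => by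
    conv_lhs => rw [← hPt s z]
    rfl
  have hQs : ∀ s z i j, Q s z i j = Q s z j i := fun s z i j => by
    conv_lhs => rw [← hQt s z]
    rfl
  have hE : ∀ s e, EGM (fun z => P s z * Em N e * Q s z) := fun s e =>
    ((hP s).mul (EGM.const _)).mul (hQ s)
  have hA' : ∀ e i j, EG (fun z => (∑ s ∈ range p, P s z * Em N e * Q s z) i j) := by
    intro e i j
    simp only [Matrix.sum_apply]
    exact EG.sum _ fun s _ => hE s e i j
  have h1 : ∀ z, (Wm N z * A z).trace = ∑ e : Ix N, (c⁻¹ * (z e * (A z e.2 e.1 + A z e.1 e.2))) := by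
    intro z
    rw [trace_mul_eq_sum]
    have h2 : ∀ e : Ix N, Wm N z e.1 e.2 * A z e.2 e.1 =
        c⁻¹ * (z (e.1, e.2) * A z e.2 e.1) + c⁻¹ * (z (e.2, e.1) * A z e.2 e.1) := by
      intro e
      simp only [Wm, Matrix.of_apply, ← hc]
      ring
    simp only [h2]
    rw [sum_add_distrib, sum_Ix_swap (fun i j => c⁻¹ * (z (i, j) * A z i j)), ← sum_add_distrib]
    refine sum_congr rfl fun e _ => ?_
    ring
  have h3 : ∀ e : Ix N, ∫ z, c⁻¹ * (z e * (A z e.2 e.1 + A z e.1 e.2)) ∂(gI (Ix N)) =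
      ∫ z, c⁻¹ * ((∑ s ∈ range p, P s z * Em N e * Q s z) e.2 e.1 +
        (∑ s ∈ range p, P s z * Em N e * Q s z) e.1 e.2) ∂(gI (Ix N)) := by
    intro e
    rw [integral_const_mul, integral_const_mul]
    congr 1
    exact PD.stein ((hd e e.2 e.1).add (hd e e.1 e.2)) ((hA _ _).add (hA _ _))
      ((hA' e _ _).add (hA' e _ _))
  simp only [h1]
  rw [integral_finsetSum _ fun e _ => (((EG.coord e).mul ((hA e.2 e.1).add (hA e.1 e.2))).const_mul
    c⁻¹).integrable]
  rw [sum_congr rfl fun e _ => h3 e,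
    ← integral_finsetSum _ fun e _ => (((hA' e e.2 e.1).add (hA' e e.1 e.2)).const_mul
      c⁻¹).integrable]
  rw [← integral_finsetSum, ← integral_const_mul]
  · congr 1
    funext z
    simp only [Matrix.sum_apply, mul_Em_mul, ← hc]
    have h4 : ∀ e : Ix N, c⁻¹ * (∑ s ∈ range p, (P s z e.2 e.1 * Q s z e.2 e.1 +
        P s z e.2 e.2 * Q s z e.1 e.1) / c + ∑ s ∈ range p,
        (P s z e.1 e.1 * Q s z e.2 e.2 + P s z e.1 e.2 * Q s z e.1 e.2) / c) =
        ∑ s ∈ range p, (c⁻¹ * c⁻¹) * (P s z e.2 e.1 * Q s z e.1 e.2 +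
        P s z e.2 e.2 * Q s z e.1 e.1 + P s z e.1 e.1 * Q s z e.2 e.2 +
          P s z e.1 e.2 * Q s z e.2 e.1) := by
      intro e
      rw [← sum_add_distrib, mul_sum]
      refine sum_congr rfl fun s _ => ?_
      rw [hQs s z e.2 e.1, div_eq_mul_inv, div_eq_mul_inv]
      ring
    simp only [h4]
    rw [sum_comm, mul_sum]
    refine sum_congr rfl fun s _ => ?_
    rw [← mul_sum, sum_add_distrib, sum_add_distrib, sum_add_distrib,
      sum_Ix_swap (fun i j => P s z i j * Q s z j i), sum_Ix_swap (fun i j => P s z i i * Q s z j j),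
      ← trace_mul_eq_sum, ← trace_mul_trace, ← mul_inv, hc2]
    rcases Nat.eq_zero_or_pos N with h0 | h0
    · subst h0
      simp [Matrix.trace]
    · have : (N : ℝ) ≠ 0 := by positivity
      field_simp
      ring
  · intro s _
    exact (((hP s).trace.mul (hQ s).trace).add ((hP s).mul (hQ s)).trace).integrable

/-- traces of powers -/
theorem trace_pow_eigen {A : Matrix (Fin N) (Fin N) ℝ} (hA : A.IsHermitian) (n : ℕ) :
    (A ^ n).trace = ∑ i, hA.eigenvalues i ^ n := by
  have h1 := hA.spectral_theorem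
  have h2 : A ^ n = Unitary.conjStarAlgAut ℝ _ hA.eigenvectorUnitary
      ((diagonal (RCLike.ofReal ∘ hA.eigenvalues)) ^ n) := by
    rw [map_pow, ← h1]
  rw [h2, Unitary.conjStarAlgAut_apply, Matrix.trace_mul_comm, ← mul_assoc,
    Unitary.coe_star_mul_self, one_mul, Matrix.diagonal_pow, Matrix.trace_diagonal]
  rfl

lemma Wm_herm (z : Ix N → ℝ) : (Wm N z).IsHermitian := by
  unfold Matrix.IsHermitian
  rw [Matrix.conjTranspose_eq_transpose_of_trivial, Wm_transpose]

/-- eigenvalues of `W` -/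
noncomputable def ew (N : ℕ) (z : Ix N → ℝ) : Fin N → ℝ := (Wm_herm z).eigenvalues

lemma trace_pow_W (z : Ix N → ℝ) (n : ℕ) : ((Wm N z) ^ n).trace = ∑ i, ew N z i ^ n :=
  trace_pow_eigen (Wm_herm z) n

lemma pow_mul_pow_le {a b : ℝ} {s t k : ℕ} (h : s + t = 2 * k) :
    a ^ s * b ^ t ≤ a ^ (2 * k) + b ^ (2 * k) := by
  have h1 : |a ^ s * b ^ t| ≤ |a| ^ (2 * k) + |b| ^ (2 * k) := by
    rw [abs_mul, abs_pow, abs_pow]
    rcases le_total |a| |b| with h2 | h2
    · calc |a| ^ s * |b| ^ t ≤ |b| ^ s * |b| ^ t := by gcongr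
        _ = |b| ^ (2 * k) := by rw [← pow_add, h]
        _ ≤ _ := le_add_of_nonneg_left (by positivity)
    · calc |a| ^ s * |b| ^ t ≤ |a| ^ s * |a| ^ t := by gcongr
        _ = |a| ^ (2 * k) := by rw [← pow_add, h]
        _ ≤ _ := le_add_of_nonneg_right (by positivity)
  rw [pow_mul, pow_mul, sq_abs, sq_abs, ← pow_mul, ← pow_mul] at h1
  exact (le_abs_self _).trans h1

lemma trace_pow_mul_le (z : Ix N → ℝ) {s t k : ℕ} (h : s + t = 2 * k) :
    ((Wm N z) ^ s).trace * ((Wm N z) ^ t).trace ≤ 2 * N * ((Wm N z) ^ (2 * k)).trace := by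
  simp only [trace_pow_W]
  rw [sum_mul_sum]
  calc ∑ i, ∑ j, ew N z i ^ s * ew N z j ^ t
      ≤ ∑ i : Fin N, ∑ j : Fin N, (ew N z i ^ (2 * k) + ew N z j ^ (2 * k)) :=
        sum_le_sum fun i _ => sum_le_sum fun j _ => pow_mul_pow_le h
    _ = 2 * N * ∑ i, ew N z i ^ (2 * k) := by
        simp only [sum_add_distrib, sum_const, card_univ, Fintype.card_fin, nsmul_eq_mul]
        rw [← mul_sum]
        ring

lemma trace_even_nonneg (z : Ix N → ℝ) (k : ℕ) : 0 ≤ ((Wm N z) ^ (2 * k)).trace := by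
  rw [trace_pow_W]
  exact sum_nonneg fun i _ => (even_two_mul k).pow_nonneg _

/-- constants of the moment bound -/
def Cb : ℕ → ℝ
  | 0 => 1
  | k + 1 => 3 * (2 * k + 1) * Cb k

lemma Cb_nonneg (k : ℕ) : 0 ≤ Cb k := by
  induction k with
  | zero => simp [Cb]
  | succ k ih => rw [Cb]; positivity

theorem moment_bound (hN : 0 < N) (k : ℕ) :
    ∫ z, ((Wm N z) ^ (2 * k)).trace / N ∂(gI (Ix N)) ≤ Cb k := by
  induction k with
  | zero =>
    have : (N : ℝ) ≠ 0 := by positivity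
    simp [Cb, this]
  | succ k ih =>
    have h1 := ibp_trace (N := N) (A := fun z => (Wm N z) ^ (2 * k + 1)) (egm_pow _)
      (p := 2 * k + 1) (P := fun s z => (Wm N z) ^ s)
      (Q := fun s z => (Wm N z) ^ (2 * k + 1 - 1 - s)) (fun s => egm_pow s) (fun s => egm_pow _)
      (fun s z => pow_transpose z s) (fun s z => pow_transpose z _)
      (fun e => pdm_pow e (2 * k + 1))
    have h2 : ∀ z : Ix N → ℝ, Wm N z * (Wm N z) ^ (2 * k + 1) = (Wm N z) ^ (2 * (k + 1)) := by
      intro z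
      rw [← pow_succ']
      congr 1
    simp only [h2] at h1
    have h3 : ∀ s ∈ range (2 * k + 1),
        ∫ z, (((Wm N z) ^ s).trace * ((Wm N z) ^ (2 * k + 1 - 1 - s)).trace +
          ((Wm N z) ^ s * (Wm N z) ^ (2 * k + 1 - 1 - s)).trace) ∂(gI (Ix N)) ≤
        3 * N * ∫ z, ((Wm N z) ^ (2 * k)).trace ∂(gI (Ix N)) := by
      intro s hs
      rw [mem_range] at hs
      rw [← integral_const_mul]
      refine integral_mono
        ((((egm_pow s).trace.mul (egm_pow _).trace).add ((egm_pow s).mul (egm_pow _)).trace)).integrable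
        ((egm_pow _).trace.const_mul _).integrable fun z => ?_
      have h4 : s + (2 * k + 1 - 1 - s) = 2 * k := by omega
      have h5 := trace_pow_mul_le z h4
      have h6 := trace_even_nonneg z k
      have h7 : (1 : ℝ) ≤ N := by exact_mod_cast hN
      simp only [← pow_add, h4]
      nlinarith
    have h8 := sum_le_sum h3
    rw [sum_const, card_range, nsmul_eq_mul] at h8
    rw [integral_div] at ih ⊢
    rw [h1, Cb]
    have hN' : (0 : ℝ) < N := by exact_mod_cast hN
    rw [div_le_iff₀ hN', one_div, inv_mul_le_iff₀ hN']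
    rw [div_le_iff₀ hN'] at ih
    refine h8.trans ?_
    push_cast
    calc (2 * (k : ℝ) + 1) * (3 * N * ∫ z, ((Wm N z) ^ (2 * k)).trace ∂(gI (Ix N)))
        ≤ (2 * (k : ℝ) + 1) * (3 * N * (Cb k * N)) := by gcongr
      _ = N * (3 * (2 * k + 1) * Cb k * N) := by ring

end Vale.Agent.P146.Sk
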