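import Vale.Agent.P146.Sk.Div
import Vale.Agent.P146.Sk.Map
import Vale.Agent.P146.Gibbs

/-!
# P146, module VAR: lower bound for the variance of the free energy by the correlations
`(β/N) E ⟨σ·U_p(W)σ⟩`
-/

open MeasureTheory ProbabilityTheory Finset Matrix Filter Topology Polynomial

namespace Vale.Agent.P146.Sk.Vr

open Vale.Agent.P146.Sk Vale.Agent.P157.Lv

set_option linter.all false

variable {N : ℕ} {I : Finset ℕ} {γ : ℕ → ℝ}

/-- the spins as real numbers -/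
def sg (σ : Fin N → ℤˣ) (i : Fin N) : ℝ := ((σ i : ℤ) : ℝ)

/-- the quadratic form of `A` -/
def qf (A : Matrix (Fin N) (Fin N) ℝ) (σ : Fin N → ℤˣ) : ℝ :=
  ∑ e : Ix N, A e.1 e.2 * (sg σ e.1 * sg σ e.2)

/-- Gibbs average for the energy `(β/2) σ·Wσ` -/
noncomputable def gb (β : ℝ) (z : Ix N → ℝ) (f : (Fin N → ℤˣ) → ℝ) : ℝ :=
  (∑ σ, f σ * Real.exp (β / 2 * qf (Wm N z) σ)) / ∑ σ, Real.exp (β / 2 * qf (Wm N z) σ)

/-- the correlation `(β/N) E ⟨σ·U_p(W)σ⟩` -/
noncomputable def corr (β : ℝ) (p N : ℕ) : ℝ :=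
  β / N * ∫ z, gb β z (fun σ => qf (Um (Wm N z) p) σ) ∂(gI (Ix N))

/-- coefficients of the energy -/
noncomputable def cf (N : ℕ) (β : ℝ) (σ : Fin N → ℤˣ) (e : Ix N) : ℝ :=
  β / √(2 * (N : ℝ)) * (sg σ e.1 * sg σ e.2)

lemma sg_sq (σ : Fin N → ℤˣ) (i : Fin N) : sg σ i * sg σ i = 1 := by
  unfold sg
  rcases Int.units_eq_one_or (σ i) with h | h <;> simp [h]

lemma en_eq (β : ℝ) (z : Ix N → ℝ) (σ : Fin N → ℤˣ) :
    β / 2 * qf (Wm N z) σ = ∑ e, cf N β σ e * z e + 0 := by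
  set c : ℝ := √(2 * (N : ℝ)) with hc
  have h1 : qf (Wm N z) σ = ∑ e : Ix N, (z (e.1, e.2) * (sg σ e.1 * sg σ e.2) / c +
      z (e.2, e.1) * (sg σ e.2 * sg σ e.1) / c) := by
    unfold qf
    refine sum_congr rfl fun e _ => ?_
    simp only [Wm, Matrix.of_apply, ← hc]
    ring
  rw [h1, sum_add_distrib, sum_Ix_swap (fun i j => z (i, j) * (sg σ i * sg σ j) / c), add_zero,
    ← two_mul, ← mul_assoc, mul_sum]
  refine sum_congr rfl fun e _ => ?_
  simp only [cf, ← hc, Prod.mk.eta]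
  ring

lemma gb_eq (β : ℝ) (z : Ix N → ℝ) (f : (Fin N → ℤˣ) → ℝ) :
    gb β z f = gav (cf N β) (fun _ => 0) f z := by
  unfold gb gav zz wt
  simp only [en_eq]

/-- the free energy with the diagonal terms -/
noncomputable def F0 (β : ℝ) (z : Ix N → ℝ) : ℝ :=
  Real.log (∑ σ : Fin N → ℤˣ, Real.exp (β / 2 * qf (Wm N z) σ))

lemma F0_eq (β : ℝ) (z : Ix N → ℝ) : F0 β z = Real.log (zz (cf N β) (fun _ => 0) z) := by
  unfold F0 zz wt
  simp only [en_eq]

lemma pd_F0 (β : ℝ) (e : Ix N) : PD e (F0 (N := N) β) (fun z => gb β z (fun σ => cf N β σ e)) := by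
  intro y x
  have h := hasDerivAt_log_zz (cf N β) (fun _ => 0) y e x
  simp only [← F0_eq] at h
  show HasDerivAt _ (gb β (Function.update y e x) _) x
  rw [gb_eq]
  exact h

lemma eg_F0 (β : ℝ) : EG (F0 (N := N) β) := by
  have h1 : (F0 (N := N) β) = fun z => Real.log (zz (cf N β) (fun _ => 0) z) := by
    funext z; exact F0_eq β z
  have hm : Measurable (F0 (N := N) β) := by
    rw [h1]; exact (log_zz_cont _ _).measurable
  have h2 : EG (fun z : Ix N → ℝ => (∑ s, ∑ i, |cf N β s i|) * ∑ i, |z i| +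
      (∑ s : Fin N → ℤˣ, |(0 : ℝ)| + Real.log (Fintype.card (Fin N → ℤˣ)))) :=
    ((EG.sum _ fun i _ => (EG.coord i).abs).const_mul _).add (EG.const _)
  refine h2.mono hm fun z => ?_
  have h3 := log_zz_bound (cf N β) (fun _ => (0 : ℝ)) z
  rw [F0_eq]
  refine h3.trans ((le_abs_self _).trans (le_of_eq ?_))
  congr 1
  ring

lemma eg_gb (β : ℝ) (f : (Fin N → ℤˣ) → ℝ) : EG (fun z : Ix N → ℝ => gb β z f) := by
  have h1 : (fun z : Ix N → ℝ => gb β z f) = fun z => gav (cf N β) (fun _ => 0) f z := by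
    funext z; exact gb_eq β z f
  rw [h1]
  have hb : ∀ s, |f s| ≤ ∑ s, |f s| := fun s =>
    Finset.single_le_sum (f := fun s => |f s|) (fun i _ => abs_nonneg _) (Finset.mem_univ s)
  exact EG.of_bdd (gav_cont _ _ _).measurable fun z => abs_gav_le _ _ hb z

lemma gb_qf (β : ℝ) (z : Ix N → ℝ) (A : Matrix (Fin N) (Fin N) ℝ) :
    gb β z (fun σ => qf A σ) = ∑ e : Ix N, A e.1 e.2 * gb β z (fun σ => sg σ e.1 * sg σ e.2) := by
  unfold gb qf
  simp only [mul_div_assoc', sum_mul, mul_sum]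
  rw [← sum_div, sum_comm]
  congr 1
  refine sum_congr rfl fun e _ => sum_congr rfl fun σ _ => ?_
  ring

lemma eg_gb_qf (β : ℝ) {A : (Ix N → ℝ) → Matrix (Fin N) (Fin N) ℝ} (hA : EGM A) :
    EG (fun z => gb β z (fun σ => qf (A z) σ)) := by
  simp only [gb_qf]
  exact EG.sum _ fun e _ => (hA _ _).mul (eg_gb _ _)

lemma gb_cf (β : ℝ) (z : Ix N → ℝ) (e : Ix N) : gb β z (fun σ => cf N β σ e) =
    β / √(2 * (N : ℝ)) * gb β z (fun σ => sg σ e.1 * sg σ e.2) := by
  unfold gb cf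
  rw [← mul_div_assoc, mul_sum]
  congr 1
  refine sum_congr rfl fun σ _ => ?_
  ring

/-- the derivative of the trace -/
lemma pd_trW (e : Ix N) : PD e (fun z => (Wm N z).trace)
    (fun _ => (if e.1 = e.2 then 2 / √(2 * (N : ℝ)) else 0)) := by
  refine (pdm_Wm e).trace.congr fun z => ?_
  unfold Matrix.trace Em
  simp only [Matrix.diag_apply, Matrix.of_apply]
  rw [← sum_div]
  have h1 : ∀ i : Fin N, ((if (i, i) = e then (1 : ℝ) else 0) + (if (i, i) = e then 1 else 0)) =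
      if i = e.1 then (if e.1 = e.2 then 2 else 0) else 0 := by
    intro i
    rcases e with ⟨a, b⟩
    simp only [Prod.mk.injEq]
    by_cases h : i = a
    · subst h
      by_cases h' : i = b
      · simp [h']; norm_num
      · simp [h']
    · simp [h]
  simp only [h1, sum_ite_eq', mem_univ, if_true]
  split_ifs <;> simp

lemma sum_Ix_pair (f : Fin N → Fin N → ℝ) (hf : ∀ i j, f i j = f j i) :
    ∑ e : Ix N, f e.1 e.2 = ∑ i, f i i + 2 * ∑ p : Pair N, f p.1.1 p.1.2 := by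
  have h1 : ∀ e : Ix N, f e.1 e.2 = (if e.1 = e.2 then f e.1 e.2 else 0) +
      ((if e.1 < e.2 then f e.1 e.2 else 0) + (if e.2 < e.1 then f e.2 e.1 else 0)) := by
    intro e
    rcases lt_trichotomy e.1 e.2 with h | h | h
    · simp [h, h.ne, h.not_gt]
    · simp [h]
    · simp [h, h.ne', h.not_gt, hf e.1 e.2]
  rw [sum_congr rfl fun e _ => h1 e, sum_add_distrib, sum_add_distrib,
    sum_Ix_swap (fun i j => if i < j then f i j else 0), ← two_mul]
  congr 1
  · rw [Fintype.sum_prod_type]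
    refine sum_congr rfl fun i _ => ?_
    simp
  · congr 1
    rw [← sum_filter, ← Finset.sum_subtype (univ.filter fun e : Ix N => e.1 < e.2) (by simp)
      (fun e : Ix N => f e.1 e.2)]

/-- the free energy of the SK model in the coordinates `z` -/
lemma free_phi (hN : 0 < N) (β : ℝ) (z : Ix N → ℝ) :
    freeEnergy N β (phi z) = F0 β z - β / 2 * (Wm N z).trace := by
  have hN' : (0 : ℝ) < N := by exact_mod_cast hN
  have h1 : ∀ σ : Fin N → ℤˣ, β * hamiltonian N (phi z) σ =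
      β / 2 * qf (Wm N z) σ - β / 2 * (Wm N z).trace := by
    intro σ
    have h2 : qf (Wm N z) σ = (Wm N z).trace + 2 * ∑ p : Pair N,
        Wm N z p.1.1 p.1.2 * (sg σ p.1.1 * sg σ p.1.2) := by
      unfold qf
      rw [sum_Ix_pair (fun i j => Wm N z i j * (sg σ i * sg σ j))]
      · congr 1
        unfold Matrix.trace
        refine sum_congr rfl fun i _ => ?_
        rw [sg_sq, mul_one, Matrix.diag_apply]
      · intro i j
        rw [mul_comm (sg σ i), ← Matrix.transpose_apply (Wm N z), Wm_transpose]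
    rw [h2, hamiltonian]
    have h3 : (1 / √(N : ℝ)) * ∑ p : Pair N, phi z p * ((σ p.1.1 : ℤ) : ℝ) * ((σ p.1.2 : ℤ) : ℝ) =
        ∑ p : Pair N, Wm N z p.1.1 p.1.2 * (sg σ p.1.1 * sg σ p.1.2) := by
      rw [mul_sum]
      refine sum_congr rfl fun p _ => ?_
      simp only [phi, Wm, Matrix.of_apply, sg, Prod.mk.eta]
      rw [Real.sqrt_mul (by norm_num : (0 : ℝ) ≤ 2)]
      ring
    rw [h3]
    ring
  have h4 : partitionFn N β (phi z) = Real.exp (-(β / 2 * (Wm N z).trace)) *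
      ∑ σ : Fin N → ℤˣ, Real.exp (β / 2 * qf (Wm N z) σ) := by
    unfold partitionFn
    rw [mul_sum]
    refine sum_congr rfl fun σ _ => ?_
    rw [h1, ← Real.exp_add]
    congr 1
    ring
  have h5 : 0 < ∑ σ : Fin N → ℤˣ, Real.exp (β / 2 * qf (Wm N z) σ) :=
    sum_pos (fun _ _ => Real.exp_pos _) univ_nonempty
  unfold freeEnergy F0
  rw [h4, Real.log_mul (Real.exp_pos _).ne' h5.ne', Real.log_exp]
  ring

/-- the free energy -/
noncomputable def F1 (β : ℝ) (z : Ix N → ℝ) : ℝ := F0 β z - β / 2 * (Wm N z).trace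

/-- the derivative of the free energy -/
noncomputable def F1' (β : ℝ) (e : Ix N) (z : Ix N → ℝ) : ℝ :=
  gb β z (fun σ => cf N β σ e) - β / 2 * (if e.1 = e.2 then 2 / √(2 * (N : ℝ)) else 0)

lemma pd_F1 (β : ℝ) (e : Ix N) : PD e (F1 (N := N) β) (F1' β e) :=
  (pd_F0 β e).sub ((pd_trW e).const_mul _)

lemma eg_F1 (β : ℝ) : EG (F1 (N := N) β) := (eg_F0 β).sub ((egm_Wm.trace).const_mul _)

lemma eg_F1' (β : ℝ) (e : Ix N) : EG (F1' (N := N) β e) :=
  (eg_gb _ _).sub (EG.const _)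

/-- the covariance of the free energy with the divergence -/
theorem int_F1_dv (hN : 0 < N) (β : ℝ) : ∫ z, F1 β z * dv N I γ z ∂(gI (Ix N)) =
    (1 / 2) * ∑ i ∈ I, γ i * corr β (i + 1) N - (β / 2) * ∫ z, tp N (gp I γ) z ∂(gI (Ix N)) := by
  have hN' : (0 : ℝ) < N := by exact_mod_cast hN
  set c : ℝ := √(2 * (N : ℝ)) with hc
  have hc0 : 0 < c := Real.sqrt_pos.2 (by positivity)
  have hc2 : c * c = 2 * N := Real.mul_self_sqrt (by positivity)
  have h4 : (1 / c) * (1 / c) = 1 / (2 * (N : ℝ)) := by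
    rw [one_div_mul_one_div, hc2]
  rw [ibp_dv hN (eg_F1 β) (fun e => pd_F1 β e) (fun e => eg_F1' β e), ← hc]
  have h1 : ∀ z : Ix N → ℝ, (1 / c) * ∑ e : Ix N, F1' β e z * (aeval (Wm N z) (gp I γ)) e.1 e.2 =
      (β / (2 * N)) * (gb β z (fun σ => qf (aeval (Wm N z) (gp I γ)) σ) -
        (aeval (Wm N z) (gp I γ)).trace) := by
    intro z
    rw [gb_qf]
    have h2 : ∀ e : Ix N, F1' β e z * (aeval (Wm N z) (gp I γ)) e.1 e.2 =
        (β / c) * ((aeval (Wm N z) (gp I γ)) e.1 e.2 * gb β z (fun σ => sg σ e.1 * sg σ e.2)) -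
        (β / c) * (if e.1 = e.2 then (aeval (Wm N z) (gp I γ)) e.1 e.2 else 0) := by
      intro e
      rw [F1', gb_cf, ← hc]
      split_ifs
      · field_simp
      · ring
    simp only [h2]
    rw [sum_sub_distrib, ← mul_sum, ← mul_sum]
    have h3 : ∑ e : Ix N, (if e.1 = e.2 then (aeval (Wm N z) (gp I γ)) e.1 e.2 else 0) =
        (aeval (Wm N z) (gp I γ)).trace := by
      rw [Fintype.sum_prod_type]
      unfold Matrix.trace
      refine sum_congr rfl fun i _ => ?_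
      simp
    rw [h3]
    have h5 : β / (2 * (N : ℝ)) = (1 / c) * (β / c) := by
      rw [← mul_one_div β, ← h4]; ring
    rw [h5]
    ring
  rw [← integral_const_mul]
  simp only [h1]
  rw [integral_const_mul, integral_sub (eg_gb_qf β (egm_aeval _)).integrable (eg_T _).integrable]
  have h6 : ∀ z : Ix N → ℝ, gb β z (fun σ => qf (aeval (Wm N z) (gp I γ)) σ) =
      ∑ i ∈ I, γ i * gb β z (fun σ => qf (Um (Wm N z) (i + 1)) σ) := by
    intro z
    simp only [gb_qf, gp, map_sum, map_mul, aeval_C, ← Algebra.smul_def, Matrix.sum_apply, sum_mul,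
      mul_sum, Matrix.smul_apply, smul_eq_mul, Um_eq_aeval]
    rw [sum_comm]
    refine sum_congr rfl fun i _ => sum_congr rfl fun e _ => ?_
    ring
  simp only [h6]
  rw [integral_finsetSum _ fun i _ => ((eg_gb_qf β (egm_Um _)).const_mul _).integrable]
  simp only [integral_const_mul]
  unfold corr tp
  rw [integral_div, mul_sub, mul_sum, mul_sum]
  congr 1
  · refine sum_congr rfl fun i _ => ?_
    ring
  · ring

lemma int_dv (hN : 0 < N) : ∫ z, dv N I γ z ∂(gI (Ix N)) = 0 := by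
  have h := ibp_dv (I := I) (γ := γ) hN (F := fun _ => 1) (F' := fun _ _ => 0) (EG.const _)
    (fun e => PD.const _) (fun e => EG.const _)
  simpa using h

/-- the variance of the free energy -/
lemma var_free (hN : 0 < N) (β : ℝ) : Var[freeEnergy N β; disorder N] =
    ∫ z, (F1 β z - ∫ z, F1 β z ∂(gI (Ix N))) ^ 2 ∂(gI (Ix N)) := by
  have hm : Measurable (freeEnergy N β) := by
    unfold freeEnergy partitionFn hamiltonian
    fun_prop
  have h1 : ∫ g, freeEnergy N β g ∂(disorder N) = ∫ z, F1 β z ∂(gI (Ix N)) := by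
    rw [integral_disorder hm]
    congr 1
    funext z
    exact free_phi hN β z
  rw [variance_eq_integral hm.aemeasurable, h1, integral_disorder (by fun_prop)]
  congr 1
  funext z
  rw [free_phi hN β z, F1]

lemma var_ge_of (hN : 0 < N) (β t : ℝ) : 2 * t * ∫ z, F1 β z * dv N I γ z ∂(gI (Ix N)) -
    t ^ 2 * ∫ z, dv N I γ z * dv N I γ z ∂(gI (Ix N)) ≤ Var[freeEnergy N β; disorder N] := by
  rw [var_free hN]
  generalize ∫ z, F1 β z ∂(gI (Ix N)) = m
  have e1 : EG (fun z : Ix N → ℝ => F1 β z - m) := (eg_F1 β).sub (EG.const _)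
  have e2 : EG (fun z : Ix N → ℝ => (F1 β z - m) ^ 2) := e1.pow 2
  have e3 : EG (fun z : Ix N → ℝ => dv N I γ z * dv N I γ z) := eg_dv.mul eg_dv
  have e4 : EG (fun z : Ix N → ℝ => F1 β z * dv N I γ z) := (eg_F1 β).mul eg_dv
  have h0 : 0 ≤ ∫ z, (F1 β z - m - t * dv N I γ z) ^ 2 ∂(gI (Ix N)) :=
    integral_nonneg fun z => sq_nonneg _
  have h1 : ∫ z, (F1 β z - m - t * dv N I γ z) ^ 2 ∂(gI (Ix N)) =
      ∫ z, (F1 β z - m) ^ 2 ∂(gI (Ix N)) - 2 * t * ∫ z, F1 β z * dv N I γ z ∂(gI (Ix N)) +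
      2 * t * m * ∫ z, dv N I γ z ∂(gI (Ix N)) +
      t ^ 2 * ∫ z, dv N I γ z * dv N I γ z ∂(gI (Ix N)) := by
    rw [← integral_const_mul, ← integral_const_mul, ← integral_const_mul,
      ← integral_sub e2.integrable (e4.const_mul _).integrable,
      ← integral_add (e2.sub (e4.const_mul _)).integrable (eg_dv.const_mul _).integrable,
      ← integral_add ((e2.sub (e4.const_mul _)).add (eg_dv.const_mul _)).integrable
        (e3.const_mul _).integrable]
    congr 1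
    funext z
    ring
  rw [int_dv hN] at h1
  linarith

/-- lower bound for the variance by the correlations -/
theorem var_ge {β c : ℝ} (hβ : 0 ≤ β) (hc : 0 ≤ c) (I : Finset ℕ)
    (h : ∀ i ∈ I, ∀ ε > 0, ∀ᶠ N in atTop, c - ε ≤ corr β (i + 1) N) {ε : ℝ} (hε : 0 < ε) :
    ∀ᶠ N in atTop, c ^ 2 / 2 * ∑ i ∈ I, (1 : ℝ) / (i + 2) - ε ≤
      Var[freeEnergy N β; disorder N] := by
  set γ : ℕ → ℝ := fun i => 1 / ((i : ℝ) + 2) with hγ
  set L : ℝ := ∑ i ∈ I, γ i with hL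
  have hγ0 : ∀ i, 0 < γ i := fun i => by rw [hγ]; positivity
  have hL0 : 0 ≤ L := sum_nonneg fun i _ => (hγ0 i).le
  set δ : ℝ := ε / (c ^ 2 + c * L + c * β + 1) with hδ
  have hδ0 : 0 < δ := by positivity
  have h1 : ∀ᶠ N in atTop, ∀ i ∈ I, c - δ ≤ corr β (i + 1) N := by
    rw [Finset.eventually_all]
    exact fun i hi => h i hi δ hδ0
  have h2 : ∀ᶠ N in atTop, ∫ z, tp N (gp I γ) z ∂(gI (Ix N)) ≤ δ := by
    have h3 : Lam (gp I γ) = 0 := by
      unfold gp
      rw [Lam_sum]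
      refine sum_eq_zero fun i _ => ?_
      rw [Lam_C_mul, Lam_Sp, if_neg (by omega), mul_zero]
    have h4 := (Lam_spec (gp I γ)).int
    rw [h3] at h4
    exact (h4.eventually (gt_mem_nhds hδ0)).mono fun N hN => hN.le
  have h5 : (1 / 2) * ∑ i ∈ I, ((i : ℝ) + 2) * γ i ^ 2 = L / 2 := by
    rw [hL, one_div_mul_eq_div]
    congr 1
    refine sum_congr rfl fun i _ => ?_
    rw [hγ]
    field_simp
  have h6 : ∀ᶠ N in atTop, ∫ z, dv N I γ z * dv N I γ z ∂(gI (Ix N)) ≤ L / 2 + δ := by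
    have h7 := lim_dv_sq (I := I) (γ := γ)
    rw [h5] at h7
    exact (h7.eventually (gt_mem_nhds (by linarith : L / 2 < L / 2 + δ))).mono fun N hN => hN.le
  filter_upwards [h1, h2, h6, eventually_gt_atTop 0] with N h1 h2 h6 hN
  refine le_trans ?_ (var_ge_of (I := I) (γ := γ) hN β c)
  rw [int_F1_dv hN]
  have h8 : (c - δ) * L ≤ ∑ i ∈ I, γ i * corr β (i + 1) N := by
    rw [hL, mul_sum]
    refine sum_le_sum fun i hi => ?_
    rw [mul_comm]
    exact mul_le_mul_of_nonneg_left (h1 i hi) (hγ0 i).le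
  have h9 : β / 2 * ∫ z, tp N (gp I γ) z ∂(gI (Ix N)) ≤ β / 2 * δ :=
    mul_le_mul_of_nonneg_left h2 (by linarith)
  have h10 : c ^ 2 * ∫ z, dv N I γ z * dv N I γ z ∂(gI (Ix N)) ≤ c ^ 2 * (L / 2 + δ) :=
    mul_le_mul_of_nonneg_left h6 (sq_nonneg c)
  have h11 : 2 * c * ((1 / 2) * ((c - δ) * L) - β / 2 * δ) ≤
      2 * c * ((1 / 2) * ∑ i ∈ I, γ i * corr β (i + 1) N -
        β / 2 * ∫ z, tp N (gp I γ) z ∂(gI (Ix N))) :=
    mul_le_mul_of_nonneg_left (by linarith) (by positivity)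
  have h12 : ε = δ * (c ^ 2 + c * L + c * β + 1) := by
    rw [hδ]; field_simp
  have h13 : c * δ * (L + β + c) ≤ ε := by
    rw [h12]
    nlinarith
  nlinarith

lemma harm_shift (M : ℕ) : ∑ i ∈ range M, (1 : ℝ) / ((i : ℝ) + 1) =
    ∑ i ∈ Finset.Icc 1 M, (1 : ℝ) / ((i : ℝ) + 2) + 3 / 2 -
      (1 / ((M : ℝ) + 1) + 1 / ((M : ℝ) + 2)) := by
  induction M with
  | zero => norm_num
  | succ M ih =>
    rw [sum_range_succ, ih, Finset.sum_Icc_succ_top (by omega)]
    push_cast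
    have e1 : (M : ℝ) + 1 + 2 = M + 3 := by ring
    have e2 : (M : ℝ) + 1 + 1 = M + 2 := by ring
    rw [e1, e2]
    ring

/-- if all the correlations are bounded below then the variance diverges -/
theorem var_tendsto {β c : ℝ} (hβ : 0 ≤ β) (hc : 0 < c)
    (h : ∀ p, 2 ≤ p → ∀ ε > 0, ∀ᶠ N in atTop, c - ε ≤ corr β p N) :
    Tendsto (fun N => Var[freeEnergy N β; disorder N]) atTop atTop := by
  rw [tendsto_atTop]
  intro B
  have h1 : Tendsto (fun M : ℕ => ∑ i ∈ range M, (1 : ℝ) / ((i : ℝ) + 1)) atTop atTop :=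
    Real.tendsto_sum_range_one_div_nat_succ_atTop
  have h2 := (h1.eventually_ge_atTop ((B + 1) * 2 / c ^ 2 + 2)).exists
  obtain ⟨M, hM⟩ := h2
  have h3 : (B + 1) * 2 / c ^ 2 ≤ ∑ i ∈ Finset.Icc 1 M, (1 : ℝ) / ((i : ℝ) + 2) := by
    rw [harm_shift] at hM
    have : 0 ≤ 1 / ((M : ℝ) + 1) + 1 / ((M : ℝ) + 2) := by positivity
    linarith
  have h4 := var_ge hβ hc.le (Finset.Icc 1 M) (fun i hi ε hε => h (i + 1)
    (by have := (Finset.mem_Icc.1 hi).1; omega) ε hε) one_pos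
  filter_upwards [h4] with N hN
  have h5 : (B + 1) ≤ c ^ 2 / 2 * ∑ i ∈ Finset.Icc 1 M, (1 : ℝ) / ((i : ℝ) + 2) := by
    have := mul_le_mul_of_nonneg_left h3 (by positivity : (0 : ℝ) ≤ c ^ 2 / 2)
    refine le_trans (le_of_eq ?_) this
    field_simp
  linarith

end Vale.Agent.P146.Sk.Vr
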